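import Mathlib
import Crest.Agent.R134.Defs

-- ▼ part R134/SD
section

/-!
# R134: Schwinger-Dyson relation, formal version (helper403; internal to Cheb/Semi)

Everything is in the namespace `Crest.Agent.R134.Sm`; the official `SD` is the one of `Defs.lean`.

* `wd x l`  : evaluation of a word (letters `none` = `x`, `some g` = `g`)
* `sdr T x pre l` : `∑_{l = l₁ ++ none :: l₂} τ (pre * wd x l₁) * τ (wd x l₂)`
* `SDW T x G` : `τ (x * wd x l) = sdr T x 1 l` for all words with coefficient letters in `G`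
* `ev x : FreeAlgebra ℂ (Option A) →ₐ A`, `D x : FreeAlgebra ℂ (Option A) → A ⊗ A` the free
  difference quotient, `SDW.free` : `τ (x * ev x z) = tt T (D x z)`.
* `SDW_of_SD`, `SD_of_SDW` : equivalence with the official `SD T G x`.
-/

set_option autoImplicit false
set_option linter.unusedSectionVars false

namespace Crest.Agent.R134.Sm

open Crest.Agent.R95 TensorProduct

variable {A : Type*} [CStarAlgebra A] (T : TracialState A)

/-- value of a word: letters `none` stand for `x` -/
def wd (x : A) (l : List (Option A)) : A := (l.map (fun o => o.elim x id)).prod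

@[simp] theorem wd_nil (x : A) : wd x [] = 1 := rfl
@[simp] theorem wd_cons_none (x : A) (l : List (Option A)) : wd x (none :: l) = x * wd x l := by
  simp [wd]
@[simp] theorem wd_cons_some (x g : A) (l : List (Option A)) :
    wd x (some g :: l) = g * wd x l := by
  simp [wd]

/-- `∑_{l = l₁ ++ none :: l₂} τ (pre * wd x l₁) * τ (wd x l₂)` -/
noncomputable def sdr (x : A) : A → List (Option A) → ℂ
  | _, [] => 0
  | pre, none :: l => T.τ pre * T.τ (wd x l) + sdr x (pre * x) l
  | pre, some g :: l => sdr x (pre * g) l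

@[simp] theorem sdr_nil (x pre : A) : sdr T x pre [] = 0 := by simp [sdr]
@[simp] theorem sdr_none (x pre : A) (l : List (Option A)) :
    sdr T x pre (none :: l) = T.τ pre * T.τ (wd x l) + sdr T x (pre * x) l := by simp [sdr]
@[simp] theorem sdr_some (x pre g : A) (l : List (Option A)) :
    sdr T x pre (some g :: l) = sdr T x (pre * g) l := by simp [sdr]

/-- **Schwinger-Dyson**, word form. -/
def SDW (x : A) (G : Set A) : Prop :=
  ∀ l : List (Option A), (∀ g, some g ∈ l → g ∈ G) → T.τ (x * wd x l) = sdr T x 1 l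

theorem SDW.mono {x : A} {G G' : Set A} (h : SDW T x G) (hG : G' ⊆ G) : SDW T x G' :=
  fun l hl => h l fun g hg => hG (hl g hg)

/-! ### The derivation form -/

/-- `(τ ⊗ τ) : A ⊗ A → ℂ` -/
noncomputable def tt : A ⊗[ℂ] A →ₗ[ℂ] ℂ :=
  TensorProduct.lift ((LinearMap.mul ℂ ℂ).compl₁₂ T.τ T.τ)

@[simp] theorem tt_tmul (a b : A) : tt T (a ⊗ₜ b) = T.τ a * T.τ b := by simp [tt]

/-- evaluation of formal polynomials -/
noncomputable def ev (x : A) : FreeAlgebra ℂ (Option A) →ₐ[ℂ] A :=
  FreeAlgebra.lift ℂ (fun o => o.elim x id)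

@[simp] theorem ev_none (x : A) : ev x (FreeAlgebra.ι ℂ none) = x := by simp [ev]
@[simp] theorem ev_some (x g : A) : ev x (FreeAlgebra.ι ℂ (some g)) = g := by simp [ev]

/-- auxiliary upper triangular matrices defining the derivation -/
noncomputable def Dmat (x : A) : FreeAlgebra ℂ (Option A) →ₐ[ℂ]
    Matrix (Fin 2) (Fin 2) (A ⊗[ℂ] A) :=
  FreeAlgebra.lift ℂ (fun o => o.elim
    !![x ⊗ₜ[ℂ] (1 : A), 1; 0, (1 : A) ⊗ₜ[ℂ] x]
    (fun g => !![g ⊗ₜ[ℂ] (1 : A), 0; 0, (1 : A) ⊗ₜ[ℂ] g]))

/-- the free difference quotient, evaluated: `D x z ∈ A ⊗ A` -/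
noncomputable def D (x : A) (z : FreeAlgebra ℂ (Option A)) : A ⊗[ℂ] A := Dmat x z 0 1

theorem D_add (x : A) (z w : FreeAlgebra ℂ (Option A)) : D x (z + w) = D x z + D x w := by
  simp [D]

theorem D_smul (x : A) (c : ℂ) (z : FreeAlgebra ℂ (Option A)) : D x (c • z) = c • D x z := by
  simp [D]

theorem D_sub (x : A) (z w : FreeAlgebra ℂ (Option A)) : D x (z - w) = D x z - D x w := by
  simp [D]


theorem D_one (x : A) : D x 1 = 0 := by
  simp [D]

@[simp] theorem D_none (x : A) : D x (FreeAlgebra.ι ℂ none) = 1 := by simp [D, Dmat]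
@[simp] theorem D_some (x g : A) : D x (FreeAlgebra.ι ℂ (some g)) = 0 := by simp [D, Dmat]

theorem Dmat_spec (x : A) (z : FreeAlgebra ℂ (Option A)) :
    Dmat x z 0 0 = ev x z ⊗ₜ[ℂ] (1 : A) ∧ Dmat x z 1 1 = (1 : A) ⊗ₜ[ℂ] ev x z ∧
      Dmat x z 1 0 = 0 := by
  induction z using FreeAlgebra.induction with
  | grade0 r =>
    rw [AlgHom.commutes, AlgHom.commutes]
    refine ⟨?_, ?_, ?_⟩
    · simp [Matrix.algebraMap_matrix_apply, Algebra.TensorProduct.algebraMap_apply]
    · rw [Matrix.algebraMap_matrix_apply, if_pos rfl, Algebra.TensorProduct.algebraMap_apply,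
        Algebra.algebraMap_eq_smul_one]
      rw [TensorProduct.smul_tmul]
    · simp [Matrix.algebraMap_matrix_apply]
  | grade1 o =>
    cases o with
    | none => simp [Dmat, ev]
    | some g => simp [Dmat, ev]
  | mul a b ha hb =>
    obtain ⟨a1, a2, a3⟩ := ha
    obtain ⟨b1, b2, b3⟩ := hb
    simp only [map_mul, Matrix.mul_apply, Fin.sum_univ_two, a1, a2, a3, b1, b2, b3]
    simp
  | add a b ha hb =>
    obtain ⟨a1, a2, a3⟩ := ha
    obtain ⟨b1, b2, b3⟩ := hb
    simp only [map_add, Matrix.add_apply, a1, a2, a3, b1, b2, b3]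
    simp [TensorProduct.add_tmul, TensorProduct.tmul_add]

/-- Leibniz rule -/
theorem D_mul (x : A) (z w : FreeAlgebra ℂ (Option A)) :
    D x (z * w) = (ev x z ⊗ₜ[ℂ] (1 : A)) * D x w + D x z * ((1 : A) ⊗ₜ[ℂ] ev x w) := by
  have h1 := (Dmat_spec x z).1
  have h2 := (Dmat_spec x w).2.1
  simp only [D, map_mul, Matrix.mul_apply, Fin.sum_univ_two, h1, h2]

/-- the formal word of a list -/
noncomputable def fw (l : List (Option A)) : FreeAlgebra ℂ (Option A) :=
  (l.map (FreeAlgebra.ι ℂ)).prod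

@[simp] theorem fw_nil : fw ([] : List (Option A)) = 1 := rfl
@[simp] theorem fw_cons (o : Option A) (l : List (Option A)) :
    fw (o :: l) = FreeAlgebra.ι ℂ o * fw l := by simp [fw]

theorem ev_fw (x : A) (l : List (Option A)) : ev x (fw l) = wd x l := by
  induction l with
  | nil => simp
  | cons o l ih => cases o <;> simp [ih]

theorem sdr_eq_tt (x : A) (l : List (Option A)) : ∀ pre : A,
    sdr T x pre l = tt T ((pre ⊗ₜ[ℂ] (1 : A)) * D x (fw l)) := by
  induction l with
  | nil => intro pre; simp [D_one]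
  | cons o l ih =>
    intro pre
    cases o with
    | none =>
      rw [sdr_none, fw_cons, D_mul, D_none, ev_fw, ev_none, one_mul, mul_add, ← mul_assoc,
        map_add, ih, Algebra.TensorProduct.tmul_mul_tmul, one_mul, add_comm,
        Algebra.TensorProduct.tmul_mul_tmul, mul_one, one_mul, tt_tmul]
    | some g =>
      rw [sdr_some, fw_cons, D_mul, D_some, zero_mul, add_zero, ev_some, ← mul_assoc, ih,
        Algebra.TensorProduct.tmul_mul_tmul, one_mul]

/-- formal polynomials with coefficients in `G` -/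
def FPoly (G : Set A) : Submodule ℂ (FreeAlgebra ℂ (Option A)) :=
  Submodule.span ℂ {z | ∃ l : List (Option A), (∀ g, some g ∈ l → g ∈ G) ∧ z = fw l}

theorem fw_mem (G : Set A) {l : List (Option A)} (h : ∀ g, some g ∈ l → g ∈ G) : fw l ∈ FPoly G :=
  Submodule.subset_span ⟨l, h, rfl⟩

theorem FPoly_mul {G : Set A} {z w : FreeAlgebra ℂ (Option A)} (hz : z ∈ FPoly G)
    (hw : w ∈ FPoly G) : z * w ∈ FPoly G := by
  unfold FPoly at *
  have := Submodule.mul_mem_mul hz hw
  rw [Submodule.span_mul_span] at this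
  refine Submodule.span_mono ?_ this
  rintro _ ⟨_, ⟨l, hl, rfl⟩, _, ⟨l', hl', rfl⟩, rfl⟩
  refine ⟨l ++ l', ?_, by simp [fw]⟩
  intro g hg
  rcases List.mem_append.1 hg with h | h
  · exact hl g h
  · exact hl' g h

theorem FPoly_one (G : Set A) : (1 : FreeAlgebra ℂ (Option A)) ∈ FPoly G :=
  Submodule.subset_span ⟨[], by simp, by simp⟩

theorem FPoly_none (G : Set A) : FreeAlgebra.ι ℂ (none : Option A) ∈ FPoly G :=
  Submodule.subset_span ⟨[none], by simp, by simp⟩

theorem FPoly_some {G : Set A} {g : A} (hg : g ∈ G) : FreeAlgebra.ι ℂ (some g) ∈ FPoly G :=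
  Submodule.subset_span ⟨[some g], by simpa using hg, by simp⟩

variable {T}

/-- **SD in derivation form** -/
theorem SDW.free {x : A} {G : Set A} (h : SDW T x G) {z : FreeAlgebra ℂ (Option A)}
    (hz : z ∈ FPoly G) : T.τ (x * ev x z) = tt T (D x z) := by
  induction hz using Submodule.span_induction with
  | mem z hz =>
    obtain ⟨l, hl, rfl⟩ := hz
    rw [ev_fw, h l hl, sdr_eq_tt, ← Algebra.TensorProduct.one_def, one_mul]
  | zero => simp [D]
  | add z w _ _ hz hw => simp only [map_add, mul_add, D_add, hz, hw]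
  | smul c z _ hz => simp only [map_smul, mul_smul_comm, D_smul, hz]

theorem SDW.of_free {x : A} {G : Set A}
    (h : ∀ z ∈ FPoly G, T.τ (x * ev x z) = tt T (D x z)) : SDW T x G := by
  intro l hl
  have := h (fw l) (fw_mem G hl)
  rw [ev_fw] at this
  rw [this, sdr_eq_tt, ← Algebra.TensorProduct.one_def, one_mul]

theorem FPoly_der {x : A} {G : Set A} {z : FreeAlgebra ℂ (Option A)} (hz : z ∈ FPoly G) :
    Der T G x (ev x z) (fun p q => tt T ((p ⊗ₜ[ℂ] (1 : A)) * D x z * ((1 : A) ⊗ₜ[ℂ] q))) := by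
  induction hz using Submodule.span_induction with
  | mem z hz =>
    obtain ⟨l, hl, rfl⟩ := hz
    induction l with
    | nil =>
      simp only [fw_nil, map_one, D_one, mul_zero, zero_mul, map_zero]
      exact Der.one
    | cons o l ih =>
      have ih' := ih (fun g hg => hl g (by simp [hg]))
      cases o with
      | none =>
        have := Der.mul (Der.var (T := T) (G := G) (X := x)) ih'
        rw [fw_cons, map_mul, ev_none]
        convert this using 3 with p q
        rw [D_mul, D_none, ev_none, one_mul, mul_add, add_mul, map_add, ← mul_assoc,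
          Algebra.TensorProduct.tmul_mul_tmul, one_mul, Algebra.TensorProduct.tmul_mul_tmul,
          Algebra.TensorProduct.tmul_mul_tmul, tt_tmul]
        simp
      | some g =>
        have hg : g ∈ G := hl g (by simp)
        have := Der.mul (Der.coef (T := T) (X := x) hg) ih'
        rw [fw_cons, map_mul, ev_some]
        convert this using 3 with p q
        rw [D_mul, D_some, ev_some, zero_mul, add_zero, ← mul_assoc,
          Algebra.TensorProduct.tmul_mul_tmul, one_mul, add_zero]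
  | zero =>
    have := Der.smul 0 (Der.one (T := T) (G := G) (X := x))
    rw [zero_smul] at this
    convert this using 3 with p q <;> simp [D]
  | add z w _ _ hz hw =>
    rw [map_add]
    convert Der.add hz hw using 3 with p q
    rw [D_add, mul_add, add_mul, map_add]
  | smul c z _ hz =>
    rw [map_smul]
    convert Der.smul c hz using 3 with p q
    rw [D_smul, mul_smul_comm, smul_mul_assoc, map_smul, smul_eq_mul]

theorem SDW_of_SD {x : A} {G : Set A} (h : SD T G x) : SDW T x G := by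
  refine SDW.of_free fun z hz => ?_
  rw [h.2 _ _ (FPoly_der hz)]
  simp [← Algebra.TensorProduct.one_def]



end Crest.Agent.R134.Sm
private theorem rz_8280687a8a : type_of% @_root_.Crest.Agent.R134.Sm.sdr.eq_def := @_root_.Crest.Agent.R134.Sm.sdr.eq_def -- L39
private theorem rz_87d2322b48 : type_of% @_root_.Crest.Agent.R134.Sm.sdr.eq_1 := @_root_.Crest.Agent.R134.Sm.sdr.eq_1 -- L39
end

-- ▼ part R134/Cheb
section

/-!
# R134: SD ⟺ Chebyshev freeness

`ch x n = U_n(x)` (`U_n (2 cos t) = sin ((n+1) t) / sin t`).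
`CF T x G`: `τ (Wc l * (ch x (n+1) * h)) = 0` where `Wc l = ∏ (ch x (n_i+1) * g_i)` with `g_i ∈ G`
centred, `h ∈ G` arbitrary.
-/

set_option autoImplicit false
set_option linter.unusedSectionVars false

namespace Crest.Agent.R134.Sm

open Crest.Agent.R95 TensorProduct

variable {A : Type*} [CStarAlgebra A] (T : TracialState A)

/-- Chebyshev polynomials of the second kind, `U_n(x/2)` -/
def ch {R : Type*} [Ring R] (x : R) : ℕ → R
  | 0 => 1
  | 1 => x
  | (n + 2) => x * ch x (n + 1) - ch x n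

@[simp] theorem ch_zero {R : Type*} [Ring R] (x : R) : ch x 0 = 1 := by simp [ch]
@[simp] theorem ch_one {R : Type*} [Ring R] (x : R) : ch x 1 = x := by simp [ch]
theorem ch_add_two {R : Type*} [Ring R] (x : R) (n : ℕ) :
    ch x (n + 2) = x * ch x (n + 1) - ch x n := by simp [ch]

theorem map_ch {R S : Type*} [Ring R] [Ring S] (f : R →+* S) (x : R) (n : ℕ) :
    f (ch x n) = ch (f x) n := by
  induction n using Nat.strong_induction_on with
  | _ n ih =>
    match n with
    | 0 => simp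
    | 1 => simp
    | n + 2 => rw [ch_add_two, map_sub, map_mul, ih (n+1) (by omega), ih n (by omega), ch_add_two]

/-- formal Chebyshev polynomials -/
noncomputable def chf (A : Type*) (n : ℕ) : FreeAlgebra ℂ (Option A) := ch (FreeAlgebra.ι ℂ none) n

theorem ev_chf (x : A) (n : ℕ) : ev x (chf A n) = ch x n := by
  unfold chf
  have := map_ch ((ev x : FreeAlgebra ℂ (Option A) →ₐ[ℂ] A) : FreeAlgebra ℂ (Option A) →+* A)
    (FreeAlgebra.ι ℂ none) n
  simpa using this

theorem D_chf (x : A) (n : ℕ) :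
    D x (chf A n) = ∑ a ∈ Finset.range n, ch x a ⊗ₜ[ℂ] ch x (n - 1 - a) := by
  induction n using Nat.strong_induction_on with
  | _ n ih =>
    match n with
    | 0 => simp [chf, D_one]
    | 1 => simp [chf, Algebra.TensorProduct.one_def]
    | n + 2 =>
      have h1 := ih (n+1) (by omega)
      have h0 := ih n (by omega)
      have e : chf A (n+2) = FreeAlgebra.ι ℂ none * chf A (n+1) - chf A n := by
        simp [chf, ch_add_two]
      rw [e, D_sub, D_mul, D_none, ev_none, one_mul, ev_chf, h1, h0, Finset.mul_sum]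
      -- `x * ch a`
      have key : ∀ m : ℕ, ∑ a ∈ Finset.range (m+1),
          (x ⊗ₜ[ℂ] (1:A)) * (ch x a ⊗ₜ[ℂ] ch x (m + 1 - 1 - a)) + 1 ⊗ₜ[ℂ] ch x (m+1)
          - ∑ a ∈ Finset.range m, ch x a ⊗ₜ[ℂ] ch x (m - 1 - a)
          = ∑ a ∈ Finset.range (m + 2), ch x a ⊗ₜ[ℂ] ch x (m + 2 - 1 - a) := by
        intro m
        rw [Finset.sum_range_succ' _ (m+1), Finset.sum_range_succ' _ m,
          Finset.sum_range_succ' _ m]
        have : ∀ a ∈ Finset.range m, (x ⊗ₜ[ℂ] (1:A)) * (ch x (a+1) ⊗ₜ[ℂ] ch x (m + 1 - 1 - (a+1)))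
            = ch x (a + 1 + 1) ⊗ₜ[ℂ] ch x (m + 2 - 1 - (a + 1 + 1)) +
              ch x a ⊗ₜ[ℂ] ch x (m - 1 - a) := by
          intro a ha
          have ha' := Finset.mem_range.1 ha
          have e1 : m + 1 - 1 - (a+1) = m - 1 - a := by omega
          have e2 : m + 2 - 1 - (a+1+1) = m - 1 - a := by omega
          rw [e1, e2, ← TensorProduct.add_tmul, ch_add_two, Algebra.TensorProduct.tmul_mul_tmul,
            one_mul, sub_add_cancel]
        rw [Finset.sum_congr rfl this, Finset.sum_add_distrib]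
        simp only [Algebra.TensorProduct.tmul_mul_tmul, one_mul, mul_one, ch_zero, ch_one,
          zero_add, Nat.sub_zero]
        have e3 : m + 1 - 1 = m := by omega
        have e4 : m + 2 - 1 - 1 = m := by omega
        have e5 : m + 2 - 1 = m + 1 := by omega
        rw [e3, e4, e5]
        abel
      exact key n

/-- `Wc x l = ∏ (ch x (n_i+1) * g_i)` -/
def Wc (x : A) (l : List (ℕ × A)) : A := (l.map (fun p => ch x (p.1 + 1) * p.2)).prod

@[simp] theorem Wc_nil (x : A) : Wc x [] = 1 := rfl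
@[simp] theorem Wc_cons (x : A) (p : ℕ × A) (l : List (ℕ × A)) :
    Wc x (p :: l) = ch x (p.1+1) * p.2 * Wc x l := by simp [Wc]
theorem Wc_append (x : A) (l l' : List (ℕ × A)) : Wc x (l ++ l') = Wc x l * Wc x l' := by simp [Wc]

/-- total degree -/
def dg (l : List (ℕ × A)) : ℕ := (l.map (fun p => p.1 + 1)).sum

@[simp] theorem dg_nil : dg ([] : List (ℕ × A)) = 0 := rfl
@[simp] theorem dg_cons (p : ℕ × A) (l : List (ℕ × A)) : dg (p :: l) = p.1 + 1 + dg l := by
  simp [dg]
theorem dg_append (l l' : List (ℕ × A)) : dg (l ++ l') = dg l + dg l' := by simp [dg]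

/-- centred coefficient lists -/
def Cen (G : Set A) (l : List (ℕ × A)) : Prop := ∀ p ∈ l, p.2 ∈ G ∧ T.τ p.2 = 0

/-- Chebyshev freeness, words of degree `≤ N` -/
def CFN (x : A) (G : Set A) (N : ℕ) : Prop :=
  ∀ (l : List (ℕ × A)) (n : ℕ) (h : A), Cen T G l → h ∈ G → dg l + (n + 1) ≤ N →
    T.τ (Wc x l * (ch x (n+1) * h)) = 0

/-- Chebyshev freeness -/
def CF (x : A) (G : Set A) : Prop :=
  ∀ (l : List (ℕ × A)) (n : ℕ) (h : A), Cen T G l → h ∈ G →
    T.τ (Wc x l * (ch x (n+1) * h)) = 0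

variable {T}

theorem CFN.mono {x : A} {G : Set A} {N M : ℕ} (h : CFN T x G N) (hM : M ≤ N) : CFN T x G M :=
  fun l n g hl hg hd => h l n g hl hg (hd.trans hM)

theorem prefix_zero {x : A} {G : Set A} (hG : ∀ a ∈ G, ∀ b ∈ G, a * b ∈ G) {N : ℕ}
    (h : CFN T x G N) {g0 : A} (hg0 : g0 ∈ G) {l : List (ℕ × A)} (hl : Cen T G l)
    (h0 : l ≠ [] ∨ T.τ g0 = 0) {a : ℕ} (hd : dg l + a ≤ N) :
    T.τ (g0 * Wc x l * ch x a) = 0 := by
  cases a with
  | succ a =>
    rw [mul_assoc, T.tr, mul_assoc]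
    exact h l a g0 hl hg0 hd
  | zero =>
    rw [ch_zero, mul_one]
    rcases List.eq_nil_or_concat l with rfl | ⟨l', p, rfl⟩
    · simpa using h0
    · rw [T.tr, List.concat_eq_append, Wc_append, mul_assoc]
      have hp := hl p (by simp)
      have : Wc x [p] * g0 = ch x (p.1+1) * (p.2 * g0) := by simp [mul_assoc]
      rw [this]
      refine h l' p.1 (p.2 * g0) (fun q hq => hl q (by simp [hq])) (hG _ hp.1 _ hg0) ?_
      rw [List.concat_eq_append, dg_append] at hd
      simpa using hd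

/-- formal version of `W` -/
noncomputable def Wf (l : List (ℕ × A)) : FreeAlgebra ℂ (Option A) :=
  (l.map (fun p => chf A (p.1 + 1) * FreeAlgebra.ι ℂ (some p.2))).prod

@[simp] theorem Wf_nil : Wf ([] : List (ℕ × A)) = 1 := rfl
@[simp] theorem Wf_cons (p : ℕ × A) (l : List (ℕ × A)) :
    Wf (p :: l) = chf A (p.1+1) * FreeAlgebra.ι ℂ (some p.2) * Wf l := by simp [Wf]

theorem ev_Wf (x : A) (l : List (ℕ × A)) : ev x (Wf l) = Wc x l := by
  induction l with
  | nil => simp
  | cons p l ih => simp [ih, ev_chf]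

/-- `tt ((pre ⊗ 1) * D (chf (m+1)) * (1 ⊗ y)) = ∑ τ (pre * ch a) * τ (ch (m - a) * y)` -/
theorem tt_D_chf (x pre y : A) (m : ℕ) :
    tt T ((pre ⊗ₜ[ℂ] (1:A)) * (D x (chf A (m+1)) * ((1:A) ⊗ₜ[ℂ] y))) =
      ∑ a ∈ Finset.range (m+1), T.τ (pre * ch x a) * T.τ (ch x (m - a) * y) := by
  rw [D_chf, Finset.sum_mul, Finset.mul_sum, map_sum]
  refine Finset.sum_congr rfl fun a _ => ?_
  simp [Algebra.TensorProduct.tmul_mul_tmul]

theorem tt_D_word_zero {x : A} {G : Set A} (hG : ∀ a ∈ G, ∀ b ∈ G, a * b ∈ G) {N : ℕ}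
    (h : CFN T x G N) {g0 : A} (hg0 : g0 ∈ G) (l' : List (ℕ × A)) (n : ℕ) (y : A)
    (hl' : Cen T G l') :
    ∀ {l : List (ℕ × A)}, Cen T G l → (l ≠ [] ∨ T.τ g0 = 0) → (dg l + dg l' + n ≤ N) →
    tt T (((g0 * Wc x l) ⊗ₜ[ℂ] (1:A)) *
      D x (Wf l' * (chf A (n+1) * FreeAlgebra.ι ℂ (some y)))) = 0 := by
  induction l' with
  | nil =>
    intro l hl h0 hd
    rw [Wf_nil, one_mul, D_mul, D_some, mul_zero, zero_add, ev_some, tt_D_chf]
    refine Finset.sum_eq_zero fun a ha => ?_
    have ha' := Finset.mem_range.1 ha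
    rw [prefix_zero hG h hg0 hl h0 (a := a) (by simp at hd; omega), zero_mul]
  | cons p l' ih =>
    intro l hl h0 hd
    have hp := hl' p (by simp)
    rw [Wf_cons, mul_assoc, D_mul, mul_add, map_add]
    have e1 : ((g0 * Wc x l) ⊗ₜ[ℂ] (1:A)) *
        ((ev x (chf A (p.1 + 1) * FreeAlgebra.ι ℂ (some p.2)) ⊗ₜ[ℂ] (1:A)) *
          D x (Wf l' * (chf A (n+1) * FreeAlgebra.ι ℂ (some y)))) =
        ((g0 * Wc x (l ++ [p])) ⊗ₜ[ℂ] (1:A)) *
          D x (Wf l' * (chf A (n+1) * FreeAlgebra.ι ℂ (some y))) := by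
      rw [← mul_assoc, Algebra.TensorProduct.tmul_mul_tmul, one_mul, Wc_append]
      simp [ev_chf, mul_assoc]
    rw [e1, ih (fun q hq => hl' q (by simp [hq])) (l := l ++ [p])
      (by
        intro q hq
        rcases List.mem_append.1 hq with hq | hq
        · exact hl q hq
        · rw [List.mem_singleton] at hq; rw [hq]; exact hp)
      (Or.inl (by simp)) (by rw [dg_append]; simp at hd ⊢; omega), zero_add]
    rw [D_mul, D_some, mul_zero, zero_add, ev_some, mul_assoc, Algebra.TensorProduct.tmul_mul_tmul,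
      one_mul, tt_D_chf]
    refine Finset.sum_eq_zero fun a ha => ?_
    have ha' := Finset.mem_range.1 ha
    rw [prefix_zero hG h hg0 hl h0 (a := a) (by simp at hd; omega), zero_mul]

theorem tau_ch_zero {x : A} {G : Set A} (h1 : (1:A) ∈ G) {N : ℕ} (h : CFN T x G N) {a : ℕ}
    (ha : a + 1 ≤ N) : T.τ (ch x (a+1)) = 0 := by
  have := h [] a 1 (by simp [Cen]) h1 (by simpa using ha)
  simpa using this

theorem tt_D_chf_one {x : A} {G : Set A} (h1 : (1:A) ∈ G) {N : ℕ} (h : CFN T x G N)
    (y : A) {m : ℕ} (hm : m ≤ N) :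
    tt T (D x (chf A (m+1)) * ((1:A) ⊗ₜ[ℂ] y)) = T.τ (ch x m * y) := by
  have := tt_D_chf (T := T) x 1 y m
  rw [← Algebra.TensorProduct.one_def, one_mul] at this
  rw [this, Finset.sum_range_succ', Finset.sum_eq_zero]
  · simp [T.one]
  · intro a ha
    have ha' := Finset.mem_range.1 ha
    rw [one_mul, tau_ch_zero h1 h (by omega), zero_mul]

theorem chf_mem (G : Set A) (n : ℕ) : chf A n ∈ FPoly G := by
  induction n using Nat.strong_induction_on with
  | _ n ih =>
    match n with
    | 0 => simpa [chf] using FPoly_one G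
    | 1 => simpa [chf] using FPoly_none G
    | n + 2 =>
      have e : chf A (n+2) = FreeAlgebra.ι ℂ none * chf A (n+1) - chf A n := by
        simp [chf, ch_add_two]
      rw [e]
      exact Submodule.sub_mem _ (FPoly_mul (FPoly_none G) (ih _ (by omega))) (ih _ (by omega))

theorem Wf_mem {G : Set A} {l : List (ℕ × A)} (hl : Cen T G l) : Wf l ∈ FPoly G := by
  induction l with
  | nil => simpa using FPoly_one G
  | cons p l ih =>
    rw [Wf_cons]
    exact FPoly_mul (FPoly_mul (chf_mem G _) (FPoly_some (hl p (by simp)).1))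
      (ih fun q hq => hl q (by simp [hq]))

/-- **SD ⟹ Chebyshev freeness** -/
theorem SDW.cfn {x : A} {G : Set A} (hG : ∀ a ∈ G, ∀ b ∈ G, a * b ∈ G) (h1 : (1:A) ∈ G)
    (hSD : SDW T x G) (N : ℕ) : CFN T x G N := by
  induction N with
  | zero => intro l n h _ _ hd; omega
  | succ N ih =>
    intro l n h hl hh hd
    -- general step: `τ (ch (m+1) * y) = 0` where `y = ev yf` and `tt (ch m ⊗ 1 * D yf) = 0`
    have step : ∀ (m : ℕ) (yf : FreeAlgebra ℂ (Option A)), yf ∈ FPoly G → m ≤ N + 1 →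
        tt T ((ch x m ⊗ₜ[ℂ] (1:A)) * D x yf) = 0 → T.τ (ch x (m+1) * ev x yf) = 0 := by
      intro m yf hyf hm hz
      cases m with
      | zero =>
        rw [zero_add, ch_one, hSD.free hyf]
        rw [ch_zero, ← Algebra.TensorProduct.one_def, one_mul] at hz
        exact hz
      | succ m =>
        have := hSD.free (FPoly_mul (chf_mem G (m+1)) hyf)
        rw [D_mul, map_add, ev_chf, hz, zero_add, tt_D_chf_one h1 ih _ (by omega),
          map_mul (ev x), ev_chf] at this
        rw [show m + 1 + 1 = m + 2 from rfl, ch_add_two, sub_mul, map_sub, mul_assoc, this, sub_self]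
    cases l with
    | nil =>
      rw [Wc_nil, one_mul]
      have := step n (FreeAlgebra.ι ℂ (some h)) (FPoly_some hh) (by simp at hd; omega) (by simp)
      simpa using this
    | cons p l =>
      have hp := hl p (by simp)
      have hl2 : Cen T G l := fun q hq => hl q (by simp [hq])
      rw [Wc_cons, mul_assoc, mul_assoc]
      have := step p.1 (FreeAlgebra.ι ℂ (some p.2) * (Wf l * (chf A (n+1) *
        FreeAlgebra.ι ℂ (some h)))) (FPoly_mul (FPoly_some hp.1) (FPoly_mul (Wf_mem hl2)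
          (FPoly_mul (chf_mem G _) (FPoly_some hh)))) (by simp at hd; omega) ?_
      · simpa [ev_chf, ev_Wf] using this
      · rw [D_mul, D_some, zero_mul, add_zero, ev_some, ← mul_assoc,
          Algebra.TensorProduct.tmul_mul_tmul, one_mul]
        obtain ⟨m, g⟩ := p
        cases m with
        | zero =>
          have := tt_D_word_zero hG ih hp.1 l n h hl2 (l := []) (by simp [Cen])
            (Or.inr hp.2) (by simp at hd ⊢; omega)
          simpa using this
        | succ m =>
          have := tt_D_word_zero hG ih h1 l n h hl2 (l := [(m, g)])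
            (by simpa [Cen] using hp) (Or.inl (by simp)) (by simp at hd ⊢; omega)
          simpa using this

theorem SDW.cf {x : A} {G : Set A} (hG : ∀ a ∈ G, ∀ b ∈ G, a * b ∈ G) (h1 : (1:A) ∈ G)
    (hSD : SDW T x G) : CF T x G :=
  fun l n h hl hh => hSD.cfn hG h1 (dg l + (n+1)) l n h hl hh le_rfl


end Crest.Agent.R134.Sm
namespace Crest.Agent.R134.Sm.CF
end Crest.Agent.R134.Sm.CF
private theorem rz_312cb4c001 : type_of% @_root_.Crest.Agent.R134.Sm.ch.eq_def := @_root_.Crest.Agent.R134.Sm.ch.eq_def -- L21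
private theorem rz_140bff194b : type_of% @_root_.Crest.Agent.R134.Sm.ch.eq_1 := @_root_.Crest.Agent.R134.Sm.ch.eq_1 -- L21
end

-- ▼ part R134/Law

/-!
# R134: the law of a semicircular element: `τ (f(x)) = Sc f`, and `‖x‖ ≤ 2`
-/

set_option autoImplicit false
set_option linter.unusedSectionVars false

namespace Crest.Agent.R134.Sm

open Crest.Agent.R95 Polynomial MeasureTheory

/-! ### The functional `Sc` -/

theorem Sc_integrable {F : ℝ → ℂ} (hF : Continuous F) (a b : ℝ) :
    IntervalIntegrable (fun t : ℝ => F (2 * Real.cos t) * ((Real.sin t ^ 2 : ℝ) : ℂ))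
      volume a b := by
  apply Continuous.intervalIntegrable
  fun_prop

theorem Sc_add {F G : ℝ → ℂ} (hF : Continuous F) (hG : Continuous G) :
    Sc (fun s => F s + G s) = Sc F + Sc G := by
  unfold Sc
  rw [← mul_add, ← intervalIntegral.integral_add (Sc_integrable hF _ _) (Sc_integrable hG _ _)]
  simp only [add_mul]

theorem Sc_sub {F G : ℝ → ℂ} (hF : Continuous F) (hG : Continuous G) :
    Sc (fun s => F s - G s) = Sc F - Sc G := by
  unfold Sc
  rw [← mul_sub, ← intervalIntegral.integral_sub (Sc_integrable hF _ _) (Sc_integrable hG _ _)]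
  simp only [sub_mul]

theorem Sc_const_mul (c : ℂ) (F : ℝ → ℂ) : Sc (fun s => c * F s) = c * Sc F := by
  unfold Sc
  have : ∀ t : ℝ, c * F (2 * Real.cos t) * ((Real.sin t ^ 2 : ℝ) : ℂ) =
    c * (F (2 * Real.cos t) * ((Real.sin t ^ 2 : ℝ) : ℂ)) := fun t => by ring
  simp only [this]
  rw [intervalIntegral.integral_const_mul]
  ring

theorem integral_sin_sq_pi : ∫ t in (0:ℝ)..Real.pi, Real.sin t ^ 2 = Real.pi / 2 := by
  rw [integral_sin_sq]; simp

theorem Sc_congr {F G : ℝ → ℂ} (h : ∀ s ∈ Set.Icc (-2:ℝ) 2, F s = G s) : Sc F = Sc G := by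
  unfold Sc
  congr 1
  refine intervalIntegral.integral_congr fun t _ => ?_
  have : F (2 * Real.cos t) = G (2 * Real.cos t) := by
    apply h
    constructor
    · linarith [Real.neg_one_le_cos t]
    · linarith [Real.cos_le_one t]
  simp only [this]

theorem norm_Sc_le {F : ℝ → ℂ} {c : ℝ}
    (h : ∀ s ∈ Set.Icc (-2:ℝ) 2, ‖F s‖ ≤ c) : ‖Sc F‖ ≤ c := by
  unfold Sc
  rw [norm_mul]
  have h1 : ‖∫ t in (0:ℝ)..Real.pi, F (2 * Real.cos t) * ((Real.sin t ^ 2 : ℝ) : ℂ)‖ ≤
      ∫ t in (0:ℝ)..Real.pi, c * Real.sin t ^ 2 := by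
    apply intervalIntegral.norm_integral_le_of_norm_le Real.pi_pos.le
    · refine Filter.Eventually.of_forall fun t _ => ?_
      rw [norm_mul, Complex.norm_real, Real.norm_of_nonneg (sq_nonneg _)]
      refine mul_le_mul_of_nonneg_right (h _ ?_) (sq_nonneg _)
      constructor
      · linarith [Real.neg_one_le_cos t]
      · linarith [Real.cos_le_one t]
    · apply Continuous.intervalIntegrable
      fun_prop
  rw [intervalIntegral.integral_const_mul, integral_sin_sq_pi] at h1
  have h2 : ‖(2 / Real.pi : ℂ)‖ = 2 / Real.pi := by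
    have : (2 / Real.pi : ℂ) = ((2 / Real.pi : ℝ) : ℂ) := by push_cast; ring
    rw [this, Complex.norm_real, Real.norm_of_nonneg (by positivity)]
  rw [h2]
  have hpi := Real.pi_pos
  calc 2 / Real.pi * ‖∫ t in (0:ℝ)..Real.pi, F (2 * Real.cos t) * ((Real.sin t ^ 2 : ℝ) : ℂ)‖
      ≤ 2 / Real.pi * (c * (Real.pi / 2)) := by gcongr
    _ = c := by field_simp

theorem Sc_one : Sc (fun _ => 1) = 1 := by
  unfold Sc
  have : ∫ t in (0:ℝ)..Real.pi, (1:ℂ) * ((Real.sin t ^ 2 : ℝ) : ℂ) = ((Real.pi / 2 : ℝ) : ℂ) := by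
    simp only [one_mul]
    rw [intervalIntegral.integral_ofReal, integral_sin_sq_pi]
  rw [this]
  have hpi : (Real.pi : ℂ) ≠ 0 := by exact_mod_cast Real.pi_ne_zero
  push_cast
  field_simp

theorem Sc_const (c : ℂ) : Sc (fun _ => c) = c := by
  have := Sc_const_mul c (fun _ => 1)
  simpa [Sc_one] using this

theorem ch_cos_mul_sin (t : ℝ) (n : ℕ) :
    ch (2 * Real.cos t) n * Real.sin t = Real.sin ((n + 1) * t) := by
  induction n using Nat.strong_induction_on with
  | _ n ih =>
    match n with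
    | 0 => simp
    | 1 => rw [ch_one]; push_cast; rw [show (1 + 1) * t = 2 * t by ring, Real.sin_two_mul]; ring
    | n + 2 =>
      have h1 := ih (n+1) (by omega)
      have h0 := ih n (by omega)
      rw [ch_add_two, sub_mul, mul_assoc, h1, h0]
      push_cast
      have e1 : ((n:ℝ) + 2 + 1) * t = ((n:ℝ) + 1 + 1) * t + t := by ring
      have e2 : ((n:ℝ) + 1) * t = ((n:ℝ) + 1 + 1) * t - t := by ring
      rw [e1, e2, Real.sin_add, Real.sin_sub]
      ring

theorem integral_sin_mul_sin (n : ℕ) :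
    ∫ t in (0:ℝ)..Real.pi, Real.sin ((n + 1 + 1) * t) * Real.sin t = 0 := by
  have h : ∀ t : ℝ, Real.sin (((n:ℝ) + 1 + 1) * t) * Real.sin t =
      (1/2) * Real.cos (((n+1 : ℕ) : ℝ) * t) - (1/2) * Real.cos (((n+3 : ℕ) : ℝ) * t) := by
    intro t
    have e1 : ((n+1 : ℕ) : ℝ) * t = ((n:ℝ) + 1 + 1) * t - t := by push_cast; ring
    have e2 : ((n+3 : ℕ) : ℝ) * t = ((n:ℝ) + 1 + 1) * t + t := by push_cast; ring
    rw [e1, e2, Real.cos_add, Real.cos_sub]
    ring
  have hk : ∀ k : ℕ, k ≠ 0 → ∫ t in (0:ℝ)..Real.pi, Real.cos ((k : ℝ) * t) = 0 := by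
    intro k hk
    rw [intervalIntegral.integral_comp_mul_left _ (Nat.cast_ne_zero.2 hk), integral_cos]
    simp [Real.sin_nat_mul_pi]
  simp only [h]
  rw [intervalIntegral.integral_sub, intervalIntegral.integral_const_mul,
    intervalIntegral.integral_const_mul, hk _ (by omega), hk _ (by omega)]
  · ring
  · apply Continuous.intervalIntegrable; fun_prop
  · apply Continuous.intervalIntegrable; fun_prop

theorem Sc_ch (n : ℕ) : Sc (fun s => ((ch s (n+1) : ℝ) : ℂ)) = 0 := by
  unfold Sc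
  have : ∀ t : ℝ, ((ch (2 * Real.cos t) (n+1) : ℝ) : ℂ) * ((Real.sin t ^ 2 : ℝ) : ℂ) =
      ((Real.sin ((n + 1 + 1) * t) * Real.sin t : ℝ) : ℂ) := by
    intro t
    have := ch_cos_mul_sin t (n+1)
    push_cast at this
    rw [← this]
    push_cast
    ring
  simp only [this]
  rw [intervalIntegral.integral_ofReal, integral_sin_mul_sin]
  simp

/-! ### Moments -/

section
variable {A : Type*} [CStarAlgebra A] {T : TracialState A}

theorem continuous_eval (p : ℂ[X]) : Continuous fun s : ℝ => p.eval (s : ℂ) :=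
  p.continuous.comp Complex.continuous_ofReal

theorem aeval_ch (x : A) (n : ℕ) : aeval x (ch (X : ℂ[X]) n) = ch x n := by
  have := map_ch ((aeval x : ℂ[X] →ₐ[ℂ] A) : ℂ[X] →+* A) X n
  simpa using this

theorem eval_ch (s : ℝ) (n : ℕ) : (ch (X : ℂ[X]) n).eval (s : ℂ) = ((ch s n : ℝ) : ℂ) := by
  have h1 := map_ch (Polynomial.evalRingHom (s : ℂ)) X n
  have h2 := map_ch Complex.ofRealHom s n
  simp only [coe_evalRingHom, eval_X] at h1
  simp only [Complex.ofRealHom_eq_coe] at h2
  rw [h1, h2]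

/-- **law, polynomial version** -/
theorem law_poly {x : A} (h : ∀ n, T.τ (ch x (n+1)) = 0) (p : ℂ[X]) :
    T.τ (aeval x p) = Sc (fun s => p.eval (s : ℂ)) := by
  have key : ∀ m n : ℕ, T.τ (aeval x (X ^ m * ch (X : ℂ[X]) n)) =
      Sc (fun s => (X ^ m * ch (X : ℂ[X]) n).eval (s : ℂ)) := by
    intro m
    induction m with
    | zero =>
      intro n
      simp only [pow_zero, one_mul, aeval_ch, eval_ch]
      cases n with
      | zero => simp [T.one, Sc_one]
      | succ n => rw [h, Sc_ch]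
    | succ m ih =>
      intro n
      cases n with
      | zero =>
        have := ih 1
        simpa [pow_succ] using this
      | succ n =>
        have e : X ^ (m+1) * ch (X : ℂ[X]) (n+1) = X ^ m * ch (X : ℂ[X]) (n+2) +
            X ^ m * ch (X : ℂ[X]) n := by
          rw [ch_add_two]; ring
        have h1 := ih (n+2)
        have h2 := ih n
        rw [e, map_add, map_add, h1, h2, ← Sc_add (continuous_eval _) (continuous_eval _)]
        simp only [eval_add]
  induction p using Polynomial.induction_on' with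
  | add p q hp hq =>
    simp only [map_add, hp, hq, eval_add]
    rw [← Sc_add (continuous_eval _) (continuous_eval _)]
  | monomial n a =>
    have := key n 0
    simp only [ch_zero, mul_one] at this
    rw [← C_mul_X_pow_eq_monomial, map_mul, aeval_C, Algebra.algebraMap_eq_smul_one,
      smul_mul_assoc, one_mul, map_smul, this, smul_eq_mul, ← Sc_const_mul]
    simp

/-- functional calculus with a function of a real variable -/
noncomputable def fc (x : A) (F : ℝ → ℂ) : A := cfc (fun z : ℂ => F z.re) x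

theorem uu_eq_fc (x : A) : uu x = fc x (fun s => Complex.exp (Complex.I * (Θ s : ℂ))) := rfl

theorem ru_eq_fc (d : ℕ) (x : A) :
    ru d x = fc x (fun s => Complex.exp (Complex.I * (Θ s / d : ℂ))) := rfl

theorem spec_real {x : A} (hx : IsSelfAdjoint x) {z : ℂ} (hz : z ∈ spectrum ℂ x) :
    z = (z.re : ℂ) := (hx.mem_spectrum_eq_re hz)

theorem fc_poly {x : A} (hx : IsSelfAdjoint x) (p : ℂ[X]) :
    fc x (fun s => p.eval (s : ℂ)) = aeval x p := by
  rw [← cfc_polynomial p x hx.isStarNormal]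
  unfold fc
  refine cfc_congr fun z hz => ?_
  show p.eval ((z.re : ℝ) : ℂ) = p.eval z
  rw [← spec_real hx hz]

theorem fc_sub {x : A} {F G : ℝ → ℂ} (hF : Continuous F) (hG : Continuous G) :
    fc x (fun s => F s - G s) = fc x F - fc x G := by
  unfold fc
  rw [← cfc_sub (fun z : ℂ => F z.re) (fun z : ℂ => G z.re) x (by fun_prop) (by fun_prop)]

theorem fc_add {x : A} {F G : ℝ → ℂ} (hF : Continuous F) (hG : Continuous G) :
    fc x (fun s => F s + G s) = fc x F + fc x G := by
  unfold fc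
  rw [← cfc_add x (fun z : ℂ => F z.re) (fun z : ℂ => G z.re) (by fun_prop) (by fun_prop)]

theorem fc_mul {x : A} {F G : ℝ → ℂ} (hF : Continuous F) (hG : Continuous G) :
    fc x (fun s => F s * G s) = fc x F * fc x G := by
  unfold fc
  rw [← cfc_mul (fun z : ℂ => F z.re) (fun z : ℂ => G z.re) x (by fun_prop) (by fun_prop)]

theorem fc_const {x : A} (hx : IsSelfAdjoint x) (c : ℂ) : fc x (fun _ => c) = algebraMap ℂ A c := by
  unfold fc
  exact cfc_const c x hx.isStarNormal

theorem fc_star {x : A} (F : ℝ → ℂ) : fc x (fun s => star (F s)) = star (fc x F) := by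
  unfold fc
  exact cfc_star (fun z : ℂ => F z.re) x

theorem fc_ofReal {x : A} (hx : IsSelfAdjoint x) : fc x (fun s => (s : ℂ)) = x := by
  have := fc_poly hx X
  simpa using this

/-- approximation by polynomials -/
theorem exists_poly_near {F : ℝ → ℂ} (hF : Continuous F) (R : ℝ) {ε : ℝ} (hε : 0 < ε) :
    ∃ p : ℂ[X], ∀ s ∈ Set.Icc (-R) R, ‖p.eval (s : ℂ) - F s‖ ≤ ε := by
  obtain ⟨p, hp⟩ := exists_polynomial_near_of_continuousOn (-R) R (fun s => (F s).re)
    (by fun_prop) (ε / 2) (by positivity)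
  obtain ⟨q, hq⟩ := exists_polynomial_near_of_continuousOn (-R) R (fun s => (F s).im)
    (by fun_prop) (ε / 2) (by positivity)
  refine ⟨p.map Complex.ofRealHom + C Complex.I * q.map Complex.ofRealHom, fun s hs => ?_⟩
  have e1 : (p.map Complex.ofRealHom).eval (s : ℂ) = ((p.eval s : ℝ) : ℂ) := by
    rw [← Complex.ofRealHom_eq_coe, eval_map_apply]; rfl
  have e2 : (q.map Complex.ofRealHom).eval (s : ℂ) = ((q.eval s : ℝ) : ℂ) := by
    rw [← Complex.ofRealHom_eq_coe, eval_map_apply]; rfl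
  rw [eval_add, eval_mul, eval_C, e1, e2]
  have e3 : ((p.eval s : ℝ) : ℂ) + Complex.I * ((q.eval s : ℝ) : ℂ) - F s =
      ((p.eval s - (F s).re : ℝ) : ℂ) + Complex.I * ((q.eval s - (F s).im : ℝ) : ℂ) := by
    apply Complex.ext <;> simp
  rw [e3]
  refine (norm_add_le _ _).trans ?_
  rw [norm_mul, Complex.norm_I, one_mul, Complex.norm_real, Complex.norm_real, Real.norm_eq_abs,
    Real.norm_eq_abs]
  linarith [hp s hs, hq s hs]

theorem norm_fc_le {x : A} (_hx : IsSelfAdjoint x) {F : ℝ → ℂ} {c R : ℝ} (hc : 0 ≤ c)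
    (hR : ‖x‖ ≤ R) (h : ∀ s ∈ Set.Icc (-R) R, ‖F s‖ ≤ c) : ‖fc x F‖ ≤ c := by
  refine norm_cfc_le hc fun z hz => h _ ?_
  have h1 : ‖z‖ ≤ ‖x‖ := by
    cases subsingleton_or_nontrivial A with
    | inl h => simp [spectrum.of_subsingleton] at hz
    | inr h => exact spectrum.norm_le_norm_of_mem hz
  have h2 := Complex.abs_re_le_norm z
  rw [Set.mem_Icc]
  exact abs_le.1 (h2.trans (h1.trans hR))

/-- **law** -/
theorem law {x : A} (hx : IsSelfAdjoint x) (h : ∀ n, T.τ (ch x (n+1)) = 0) {F : ℝ → ℂ}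
    (hF : Continuous F) : T.τ (fc x F) = Sc F := by
  refine eq_of_forall_dist_le fun ε hε => ?_
  obtain ⟨p, hp⟩ := exists_poly_near hF (max ‖x‖ 2) (half_pos hε)
  rw [dist_eq_norm]
  have e : T.τ (fc x F) - Sc F = (T.τ (fc x (fun s => F s - p.eval (s:ℂ)))) +
      Sc (fun s => p.eval (s:ℂ) - F s) := by
    rw [fc_sub hF (continuous_eval p), map_sub, Sc_sub (continuous_eval p) hF, fc_poly hx,
      law_poly h]
    ring
  rw [e]
  refine (norm_add_le _ _).trans ?_
  have h1 : ‖T.τ (fc x (fun s => F s - p.eval (s:ℂ)))‖ ≤ ε / 2 := by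
    refine (T.norm_tau_le _).trans (norm_fc_le hx (R := max ‖x‖ 2) (by positivity)
      (le_max_left _ _) fun s hs => ?_)
    rw [norm_sub_rev]
    exact hp s hs
  have h2 : ‖Sc (fun s => p.eval (s:ℂ) - F s)‖ ≤ ε / 2 := by
    refine norm_Sc_le fun s hs => hp s ?_
    constructor
    · linarith [hs.1, le_max_right ‖x‖ 2]
    · linarith [hs.2, le_max_right ‖x‖ 2]
  linarith

/-- 2-norms of functions of a semicircular element -/
theorem nrm2_fc_sq {x : A} (hx : IsSelfAdjoint x) (h : ∀ n, T.τ (ch x (n+1)) = 0) {F : ℝ → ℂ}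
    (hF : Continuous F) : T.nrm2 (fc x F) ^ 2 = (Sc (fun s => star (F s) * F s)).re := by
  have h1 : Continuous fun s => star (F s) := by fun_prop
  have h2 : Continuous fun s => star (F s) * F s := h1.mul hF
  rw [T.nrm2_sq, ← fc_star, ← fc_mul h1 hF, law hx h h2]

/-- **norm bound** -/
theorem norm_le_two (hf : ∀ a : A, T.nrm2 a = 0 → a = 0) {x : A} (hx : IsSelfAdjoint x)
    (h : ∀ n, T.τ (ch x (n+1)) = 0) : ‖x‖ ≤ 2 := by
  -- `f (s) = max 0 (|s| - 2)`
  set F : ℝ → ℂ := fun s => ((max 0 (|s| - 2) : ℝ) : ℂ) with hF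
  have hFc : Continuous F := by
    rw [hF]; fun_prop
  have h0 : T.nrm2 (fc x F) ^ 2 = 0 := by
    rw [nrm2_fc_sq hx h hFc]
    have : Sc (fun s => star (F s) * F s) = Sc (fun _ => 0) := by
      refine Sc_congr fun s hs => ?_
      have : max 0 (|s| - 2) = 0 := max_eq_left (by have := abs_le.2 hs; linarith)
      simp [hF, this]
    rw [this, Sc_const, Complex.zero_re]
  have h1 : fc x F = 0 := hf _ (by nlinarith [T.nrm2_nonneg (fc x F)])
  have h2 : ∀ z ∈ spectrum ℂ x, ‖z‖ ≤ 2 := by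
    intro z hz
    have h3 := norm_apply_le_norm_cfc (𝕜 := ℂ) (fun z : ℂ => F z.re) x hz
      (by fun_prop) hx.isStarNormal
    have h4 : cfc (fun z : ℂ => F z.re) x = 0 := h1
    rw [h4, norm_zero] at h3
    have h5 : F z.re = 0 := norm_le_zero_iff.1 h3
    have h6 : max 0 (|z.re| - 2) = 0 := by
      have : ((max 0 (|z.re| - 2) : ℝ) : ℂ) = 0 := h5
      exact_mod_cast this
    have h7 : |z.re| - 2 ≤ 0 := by rw [← h6]; exact le_max_right _ _
    rw [spec_real hx hz, Complex.norm_real, Real.norm_eq_abs]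
    linarith
  have h3 : cfc (id : ℂ → ℂ) x = x := cfc_id ℂ x hx.isStarNormal
  rw [← h3]
  exact norm_cfc_le (by norm_num) fun z hz => h2 z hz

end

end Crest.Agent.R134.Sm
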