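import Crest.Agent.R134.Defs
import Crest.Agent.R134.Law
import Crest.Agent.R134.Limit

-- ▼ part R134/Conv1
section

/-!
# R134 Conv1: freeness of `G` and `W T {u}` for a Haar unitary `u` free from `G`
-/

set_option autoImplicit false

universe u

namespace Crest.Agent.R134

open Crest.Agent.R95 Filter Topology

namespace Conv

variable {A : Type u} [CStarAlgebra A] {T : TracialState A}

/-- value of a list of (letter, coefficient) pairs -/
def lv : List (A × A) → A
  | [] => 1
  | p :: L => p.1 * p.2 * lv L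

@[simp] theorem lv_nil : lv ([] : List (A × A)) = 1 := rfl
@[simp] theorem lv_cons (p : A × A) (L : List (A × A)) : lv (p :: L) = p.1 * p.2 * lv L := rfl

theorem lv_append (L M : List (A × A)) : lv (L ++ M) = lv L * lv M := by
  induction L with
  | nil => simp
  | cons p L ih => simp [ih, mul_assoc]

variable (T) in
/-- all coefficients but the last one are centred -/
def Inner : List (A × A) → Prop
  | [] => True
  | [_] => True
  | p :: q :: L => T.τ p.2 = 0 ∧ Inner (q :: L)

theorem Inner.tail {p : A × A} {L : List (A × A)} (h : Inner T (p :: L)) : Inner T L := by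
  cases L with
  | nil => trivial
  | cons q L => exact h.2

theorem Inner.head {p : A × A} {L : List (A × A)} (hL : L ≠ []) (h : Inner T (p :: L)) :
    T.τ p.2 = 0 := by
  cases L with
  | nil => exact absurd rfl hL
  | cons q L => exact h.1

theorem Inner.cons {p : A × A} {L : List (A × A)} (h : Inner T L) (hp : L ≠ [] → T.τ p.2 = 0) :
    Inner T (p :: L) := by
  cases L with
  | nil => trivial
  | cons q L => exact ⟨hp (by simp), h⟩

/-- changing a letter does not change `Inner` -/
theorem Inner.change {c c' g : A} : ∀ {L M : List (A × A)}, Inner T (L ++ (c, g) :: M) →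
    Inner T (L ++ (c', g) :: M)
  | [], [], _ => trivial
  | [], q :: M, h => h
  | p :: L, M, h => by
    have h1 : Inner T (L ++ (c', g) :: M) := Inner.change (Inner.tail h)
    refine Inner.cons h1 fun _ => ?_
    exact Inner.head (by simp) h

variable (T) in
/-- Freeness of the coefficient set `G` and the (centred) letter set `𝓛`. -/
def FreeL (G : Set A) (𝓛 : Set A) : Prop :=
  ∀ L : List (A × A), L ≠ [] → (∀ p ∈ L, p.1 ∈ 𝓛) → (∀ p ∈ L, p.2 ∈ G) → Inner T L →
    T.τ (lv L) = 0

/-- Freeness passes to the "bipolar" of the letter set. -/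
theorem FreeL.bipolar {G 𝓛 𝓛' : Set A} (h : FreeL T G 𝓛)
    (h' : ∀ c ∈ 𝓛', ∀ x y : A, (∀ l ∈ 𝓛, T.τ (x * l * y) = 0) → T.τ (x * c * y) = 0) :
    FreeL T G 𝓛' := by
  have key : ∀ L2 L1 : List (A × A), L1 ++ L2 ≠ [] → (∀ p ∈ L1, p.1 ∈ 𝓛) →
      (∀ p ∈ L2, p.1 ∈ 𝓛') → (∀ p ∈ L1 ++ L2, p.2 ∈ G) → Inner T (L1 ++ L2) →
      T.τ (lv (L1 ++ L2)) = 0 := by
    intro L2
    induction L2 with
    | nil =>
      intro L1 hne h1 _ h3 h4
      rw [List.append_nil] at *
      exact h L1 hne h1 h3 h4
    | cons p L2 ih =>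
      intro L1 hne h1 h2 h3 h4
      obtain ⟨c, g⟩ := p
      have h5 : ∀ l ∈ 𝓛, T.τ (lv L1 * l * (g * lv L2)) = 0 := by
        intro l hl
        have := ih (L1 ++ [(l, g)]) (by simp) ?_ ?_ ?_ ?_
        · rw [List.append_assoc, lv_append] at this
          simpa [mul_assoc] using this
        · intro p hp
          rcases List.mem_append.1 hp with hp | hp
          · exact h1 p hp
          · rw [List.mem_singleton] at hp
            rw [hp]
            exact hl
        · intro p hp
          exact h2 p (List.mem_cons_of_mem _ hp)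
        · intro p hp
          rw [List.append_assoc] at hp
          rcases List.mem_append.1 hp with hp | hp
          · exact h3 p (List.mem_append_left _ hp)
          · rcases List.mem_cons.1 hp with hp | hp
            · rw [hp]
              exact h3 (c, g) (by simp)
            · exact h3 p (List.mem_append_right _ (List.mem_cons_of_mem _ hp))
        · rw [List.append_assoc]
          exact Inner.change h4
      have h6 := h' c (h2 (c, g) (by simp)) _ _ h5
      rw [lv_append]
      simpa [mul_assoc] using h6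
  intro L hne hc hg hi
  exact key L [] hne (by simp) hc hg hi

/-! ### powers of the unitary -/

/-- `u^(n+1)` or `(u*)^(n+1)` -/
def pw (u : A) (b : Bool) (n : ℕ) : A := sg u b ^ (n + 1)

/-- expansion of a list of powers into a word -/
def expand : List ((Bool × ℕ) × A) → List (Bool × A)
  | [] => []
  | (p, g) :: L => List.replicate p.2 (p.1, 1) ++ (p.1, g) :: expand L

theorem word_append (u : A) (L M : List (Bool × A)) : word u (L ++ M) = word u L * word u M := by
  induction L with
  | nil => simp [word]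
  | cons p L ih => obtain ⟨b, a⟩ := p; simp [word, ih, mul_assoc]

theorem word_replicate (u : A) (b : Bool) (n : ℕ) :
    word u (List.replicate n (b, (1 : A))) = sg u b ^ n := by
  induction n with
  | zero => simp [word]
  | succ n ih => simp [List.replicate_succ, word, ih, pow_succ']

theorem word_expand (u : A) (L : List ((Bool × ℕ) × A)) :
    word u (expand L) = lv (L.map fun p => (pw u p.1.1 p.1.2, p.2)) := by
  induction L with
  | nil => simp [expand, word]
  | cons p L ih =>
    obtain ⟨⟨b, n⟩, g⟩ := p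
    simp only [expand, word_append, word_replicate, word, ih, List.map_cons, lv_cons, pw]
    rw [pow_succ]
    simp only [mul_assoc]

theorem expand_mem {G : Set A} (h1 : (1 : A) ∈ G) {L : List ((Bool × ℕ) × A)}
    (h : ∀ p ∈ L, p.2 ∈ G) : ∀ p ∈ expand L, p.2 ∈ G := by
  induction L with
  | nil => simp [expand]
  | cons p L ih =>
    intro q hq
    obtain ⟨⟨b, n⟩, g⟩ := p
    simp only [expand, List.mem_append, List.mem_replicate, List.mem_cons] at hq
    rcases hq with ⟨_, rfl⟩ | rfl | hq
    · exact h1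
    · exact h ((b, n), g) (by simp)
    · exact ih (fun p hp => h p (List.mem_cons_of_mem _ hp)) q hq

theorem expand_head (p : (Bool × ℕ) × A) (L : List ((Bool × ℕ) × A)) :
    ∃ a M, expand (p :: L) = (p.1.1, a) :: M := by
  obtain ⟨⟨b, n⟩, g⟩ := p
  cases n with
  | zero => exact ⟨g, expand L, by simp [expand]⟩
  | succ n =>
    exact ⟨1, List.replicate n (b, 1) ++ (b, g) :: expand L,
      by simp [expand, List.replicate_succ]⟩

theorem Alt_replicate {b : Bool} {g : A} {M : List (Bool × A)} (h : Alt T ((b, g) :: M)) (n : ℕ) :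
    Alt T (List.replicate n (b, (1 : A)) ++ (b, g) :: M) := by
  induction n with
  | zero => simpa using h
  | succ n ih =>
    rw [List.replicate_succ, List.cons_append]
    cases n with
    | zero => exact ⟨fun hb => absurd rfl hb, by simpa using ih⟩
    | succ n =>
      rw [List.replicate_succ, List.cons_append] at ih ⊢
      exact ⟨fun hb => absurd rfl hb, ih⟩

theorem Alt_expand : ∀ {L : List ((Bool × ℕ) × A)},
    Inner T (L.map fun p => ((1 : A), p.2)) → Alt T (expand L)
  | [], _ => trivial
  | [((b, n), g)], _ => by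
    simp only [expand]
    exact Alt_replicate (by trivial) n
  | ((b, n), g) :: q :: L, h => by
    have h1 : Alt T (expand (q :: L)) := Alt_expand h.2
    have h2 : T.τ g = 0 := h.1
    rw [expand]
    refine Alt_replicate ?_ n
    obtain ⟨a, M, hM⟩ := expand_head q L
    rw [hM] at h1 ⊢
    exact ⟨fun _ => h2, h1⟩

theorem Inner.map_congr {α : Type*} {f g : α → A × A} (hfg : ∀ a, (f a).2 = (g a).2) :
    ∀ {L : List α}, Inner T (L.map f) → Inner T (L.map g)
  | [], _ => trivial
  | [_], _ => trivial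
  | a :: b :: L, h => by
    refine ⟨?_, Inner.map_congr (L := b :: L) hfg h.2⟩
    rw [← hfg a]
    exact h.1

/-- Freeness with letters `u^(n+1)`, `(u*)^(n+1)`. -/
theorem freeL_pow {G : Set A} (h1 : (1 : A) ∈ G) {u : A} (hu : FreeHaar T G u) :
    FreeL T G {c | ∃ b n, c = pw u b n} := by
  intro L hne hc hg hi
  -- lift `L` to a list of codes
  have hlift : ∀ L : List (A × A), (∀ p ∈ L, p.1 ∈ {c | ∃ b n, c = pw u b n}) →
      ∃ M : List ((Bool × ℕ) × A), L = M.map fun p => (pw u p.1.1 p.1.2, p.2) := by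
    intro L
    induction L with
    | nil => intro _; exact ⟨[], rfl⟩
    | cons p L ih =>
      intro h
      obtain ⟨M, hM⟩ := ih fun q hq => h q (List.mem_cons_of_mem _ hq)
      obtain ⟨b, n, hbn⟩ := h p (by simp)
      refine ⟨((b, n), p.2) :: M, ?_⟩
      rw [List.map_cons, ← hM]
      congr 1
      exact Prod.ext hbn rfl
  obtain ⟨M, rfl⟩ := hlift L hc
  rw [← word_expand]
  refine hu.2 _ ?_ ?_ ?_
  · intro h
    apply hne
    cases M with
    | nil => rfl
    | cons q M =>
      obtain ⟨a, M', hM'⟩ := expand_head q M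
      rw [hM'] at h
      exact absurd h (by simp)
  · refine expand_mem h1 ?_
    intro p hp
    exact hg (pw u p.1.1 p.1.2, p.2) (List.mem_map.2 ⟨p, hp, rfl⟩)
  · refine Alt_expand ?_
    exact Inner.map_congr (f := fun p : (Bool × ℕ) × A => (pw u p.1.1 p.1.2, p.2))
      (g := fun p : (Bool × ℕ) × A => ((1 : A), p.2)) (fun _ => rfl) hi

/-! ### the algebra generated by a unitary -/

theorem sg_mem_unitary {u : A} (hu : u ∈ unitary A) (b : Bool) : sg u b ∈ unitary A := by
  cases b
  · exact Unitary.star_mem hu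
  · exact hu

theorem star_sg (u : A) (b : Bool) : star (sg u b) = sg u (!b) := by
  cases b <;> simp [sg]

/-- the span of the powers -/
noncomputable def LS (u : A) : Submodule ℂ A := Submodule.span ℂ (Set.range fun k : Bool × ℕ => sg u k.1 ^ k.2)

theorem pow_mem_LS (u : A) (b : Bool) (n : ℕ) : sg u b ^ n ∈ LS u :=
  Submodule.subset_span ⟨(b, n), rfl⟩

theorem pow_mul_pow_mem_LS {u : A} (hu : u ∈ unitary A) (b b' : Bool) (m n : ℕ) :
    sg u b ^ m * sg u b' ^ n ∈ LS u := by
  by_cases hb : b = b'
  · subst hb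
    rw [← pow_add]
    exact pow_mem_LS u b _
  · have hb' : b' = !b := by cases b <;> cases b' <;> simp_all
    subst hb'
    have h1 : sg u b * sg u (!b) = 1 := by
      rw [← star_sg]
      exact Unitary.mul_star_self_of_mem (sg_mem_unitary hu b)
    have hc : Commute (sg u b) (sg u (!b)) := by
      rw [← star_sg]
      show sg u b * star (sg u b) = star (sg u b) * sg u b
      rw [Unitary.mul_star_self_of_mem (sg_mem_unitary hu b),
        Unitary.star_mul_self_of_mem (sg_mem_unitary hu b)]
    rcases le_total m n with h | h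
    · obtain ⟨k, rfl⟩ := Nat.exists_eq_add_of_le h
      rw [pow_add, ← mul_assoc, ← hc.mul_pow, h1, one_pow, one_mul]
      exact pow_mem_LS u _ _
    · obtain ⟨k, rfl⟩ := Nat.exists_eq_add_of_le h
      rw [add_comm n k, pow_add, mul_assoc, ← hc.mul_pow, h1, one_pow, mul_one]
      exact pow_mem_LS u _ _

theorem LS_mul {u : A} (hu : u ∈ unitary A) {x y : A} (hx : x ∈ LS u) (hy : y ∈ LS u) :
    x * y ∈ LS u := by
  have h := Submodule.mul_mem_mul hx hy
  unfold LS at h
  rw [Submodule.span_mul_span] at h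
  refine (Submodule.span_le.2 ?_) h
  rintro _ ⟨_, ⟨⟨b, m⟩, rfl⟩, _, ⟨⟨b', n⟩, rfl⟩, rfl⟩
  exact pow_mul_pow_mem_LS hu b b' m n

theorem adjoin_le_LS {u : A} (hu : u ∈ unitary A) {x : A}
    (hx : x ∈ StarAlgebra.adjoin ℂ ({u} : Set A)) : x ∈ LS u := by
  induction hx using StarAlgebra.adjoin_induction with
  | mem x hx =>
    rw [Set.mem_singleton_iff] at hx
    rw [hx]
    have := pow_mem_LS u true 1
    simpa [sg] using this
  | algebraMap r =>
    rw [Algebra.algebraMap_eq_smul_one]
    have := pow_mem_LS u true 0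
    rw [pow_zero] at this
    exact Submodule.smul_mem _ _ this
  | add x y _ _ hx hy => exact Submodule.add_mem _ hx hy
  | mul x y _ _ hx hy => exact LS_mul hu hx hy
  | star x hx0 hx =>
    clear hx0
    unfold LS at *
    induction hx using Submodule.span_induction with
    | mem x hx =>
      obtain ⟨⟨b, n⟩, rfl⟩ := hx
      simp only [star_pow, star_sg]
      exact Submodule.subset_span ⟨(!b, n), rfl⟩
    | zero => simp
    | add x y _ _ hx hy => rw [star_add]; exact Submodule.add_mem _ hx hy
    | smul c x _ hx => rw [star_smul]; exact Submodule.smul_mem _ _ hx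

theorem tau_pw {G : Set A} (h1 : (1 : A) ∈ G) {u : A} (hu : FreeHaar T G u) (b : Bool) (n : ℕ) :
    T.τ (pw u b n) = 0 := by
  have := freeL_pow h1 hu [(pw u b n, 1)] (by simp)
    (by
      intro p hp
      rw [List.mem_singleton] at hp
      rw [hp]
      exact ⟨b, n, rfl⟩) (by simpa using h1) trivial
  simpa using this

/-- **Freeness of `G` and `W T {u}`**. -/
theorem freeL_W {G : Set A} (h1 : (1 : A) ∈ G) {u : A} (hu : FreeHaar T G u) :
    FreeL T G {c | c ∈ W T {u} ∧ T.τ c = 0} := by
  refine (freeL_pow h1 hu).bipolar ?_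
  rintro c ⟨hc, hc0⟩ x y hxy
  -- on the Laurent polynomials
  have hL : ∀ a ∈ LS u, T.τ (x * a * y) = T.τ a * T.τ (x * y) := by
    intro a ha
    unfold LS at ha
    induction ha using Submodule.span_induction with
    | mem a ha =>
      obtain ⟨⟨b, n⟩, rfl⟩ := ha
      cases n with
      | zero => simp [T.one]
      | succ n =>
        have e1 : T.τ (x * pw u b n * y) = 0 := hxy _ ⟨b, n, rfl⟩
        have e2 : T.τ (pw u b n) = 0 := tau_pw h1 hu b n
        simp only
        change T.τ (x * pw u b n * y) = T.τ (pw u b n) * _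
        rw [e1, e2, zero_mul]
    | zero => simp
    | add a a' _ _ ha ha' => simp only [mul_add, add_mul, map_add, ha, ha']
    | smul r a _ ha =>
      simp only [mul_smul_comm, smul_mul_assoc, map_smul, ha, smul_eq_mul]
      ring
  -- pass to the closure
  have key : T.τ (x * c * y) = T.τ c * T.τ (x * y) := by
    rw [← sub_eq_zero]
    by_contra hne
    set δ := ‖T.τ (x * c * y) - T.τ c * T.τ (x * y)‖ with hδ
    have hδ0 : 0 < δ := norm_pos_iff.2 hne
    set K := T.nrm2 (y * x) + ‖T.τ (x * y)‖ + 1 with hK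
    have hK0 : 0 < K := by
      have := T.nrm2_nonneg (y * x)
      positivity
    obtain ⟨a, ha, hca⟩ := hc (δ / K) (by positivity)
    have ha' := hL a (adjoin_le_LS hu.1 ha)
    have e1 : T.τ (x * c * y) - T.τ c * T.τ (x * y) =
        T.τ ((c - a) * (y * x)) - T.τ (c - a) * T.τ (x * y) := by
      have e2 : T.τ ((c - a) * (y * x)) = T.τ (x * c * y) - T.τ (x * a * y) := by
        rw [← map_sub, ← mul_assoc, T.tr, ← mul_assoc, mul_sub, sub_mul]
      rw [e2, ha', map_sub]
      ring
    have e3 : ‖T.τ ((c - a) * (y * x))‖ ≤ T.nrm2 (c - a) * T.nrm2 (y * x) := T.norm_tau_mul_le _ _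
    have e4 : ‖T.τ (c - a)‖ ≤ T.nrm2 (c - a) := by
      have := T.norm_tau_mul_le (c - a) 1
      rwa [mul_one, T.nrm2_one, mul_one] at this
    have e5 : δ ≤ T.nrm2 (c - a) * K := by
      rw [hδ, e1]
      calc ‖T.τ ((c - a) * (y * x)) - T.τ (c - a) * T.τ (x * y)‖
          ≤ ‖T.τ ((c - a) * (y * x))‖ + ‖T.τ (c - a) * T.τ (x * y)‖ := norm_sub_le _ _
        _ ≤ T.nrm2 (c - a) * T.nrm2 (y * x) + T.nrm2 (c - a) * ‖T.τ (x * y)‖ := by
          rw [norm_mul]
          gcongr
        _ ≤ T.nrm2 (c - a) * K := by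
          rw [hK]
          nlinarith [T.nrm2_nonneg (c - a)]
    have e6 : T.nrm2 (c - a) * K < δ := by
      calc T.nrm2 (c - a) * K < δ / K * K := mul_lt_mul_of_pos_right hca hK0
        _ = δ := div_mul_cancel₀ _ hK0.ne'
    linarith
  rw [key, hc0, zero_mul]

end Conv

end Crest.Agent.R134
private theorem rz_ab8eeb360e : type_of% @_root_.Crest.Agent.R134.Conv.expand.eq_def := @_root_.Crest.Agent.R134.Conv.expand.eq_def -- L123
private theorem rz_fc59356078 : type_of% @_root_.Crest.Agent.R134.Conv.expand.eq_1 := @_root_.Crest.Agent.R134.Conv.expand.eq_1 -- L123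
end

-- ▼ part R134/Conv2
section

/-!
# R134 Conv2: freeness + moments ⇒ Schwinger-Dyson
-/

set_option autoImplicit false
set_option linter.unusedSectionVars false

universe u

namespace Crest.Agent.R134

open Crest.Agent.R95 Filter Topology

namespace Conv

variable {A : Type u} [CStarAlgebra A] {T : TracialState A}

/-- pairs (polynomial, bilinear form of its difference quotient) -/
abbrev PP (A : Type u) : Type u := A × (A → A → ℂ)

/-- left multiplication by a coefficient -/
def lmG (g : A) (P : PP A) : PP A := (g * P.1, fun p q => P.2 (p * g) q)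

variable (T) in
/-- left multiplication by the variable -/
noncomputable def lmX (X : A) (P : PP A) : PP A :=
  (X * P.1, fun p q => T.τ p * T.τ (P.1 * q) + P.2 (p * X) q)

/-- the form is linear in the first variable -/
def LinL (P : PP A) : Prop :=
  (∀ p p' q, P.2 (p + p') q = P.2 p q + P.2 p' q) ∧ (∀ (c : ℂ) p q, P.2 (c • p) q = c * P.2 p q)

theorem LinL.zero : LinL (0 : PP A) := ⟨by simp, by simp⟩

theorem LinL.add {P P' : PP A} (h : LinL P) (h' : LinL P') : LinL (P + P') := by
  refine ⟨fun p p' q => ?_, fun c p q => ?_⟩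
  · simp only [Prod.snd_add, Pi.add_apply, h.1, h'.1]
    ring
  · simp only [Prod.snd_add, Pi.add_apply, h.2, h'.2]
    ring

theorem LinL.smul {P : PP A} (r : ℂ) (h : LinL P) : LinL (r • P) := by
  refine ⟨fun p p' q => ?_, fun c p q => ?_⟩
  · simp only [Prod.smul_snd, Pi.smul_apply, h.1, smul_eq_mul]
    ring
  · simp only [Prod.smul_snd, Pi.smul_apply, h.2, smul_eq_mul]
    ring

theorem LinL.span {s : Set (PP A)} (h : ∀ P ∈ s, LinL P) {P : PP A}
    (hP : P ∈ Submodule.span ℂ s) : LinL P := by
  induction hP using Submodule.span_induction with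
  | mem P hP => exact h P hP
  | zero => exact LinL.zero
  | add P P' _ _ hP hP' => exact hP.add hP'
  | smul r P _ hP => exact hP.smul r

theorem lmG_add (g : A) (P P' : PP A) : lmG g (P + P') = lmG g P + lmG g P' := by
  ext
  · simp [lmG, mul_add]
  · simp [lmG]

theorem lmG_smul (g : A) (r : ℂ) (P : PP A) : lmG g (r • P) = r • lmG g P := by
  ext
  · simp [lmG]
  · simp [lmG]

theorem lmG_zero (g : A) : lmG g (0 : PP A) = 0 := by
  ext
  · simp [lmG]
  · simp [lmG]

theorem lmX_add (X : A) (P P' : PP A) : lmX T X (P + P') = lmX T X P + lmX T X P' := by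
  ext
  · simp [lmX, mul_add]
  · simp only [lmX, Prod.fst_add, Prod.snd_add, Pi.add_apply, add_mul, map_add]
    ring

theorem lmX_smul (X : A) (r : ℂ) (P : PP A) : lmX T X (r • P) = r • lmX T X P := by
  ext
  · simp [lmX]
  · simp only [lmX, Prod.smul_fst, Prod.smul_snd, Pi.smul_apply, smul_mul_assoc, map_smul,
      smul_eq_mul]
    ring

theorem lmX_zero (X : A) : lmX T X (0 : PP A) = 0 := by
  ext
  · simp [lmX]
  · simp [lmX]

theorem lmG_mem_span {s : Set (PP A)} {g : A} (h : ∀ P ∈ s, lmG g P ∈ Submodule.span ℂ s)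
    {P : PP A} (hP : P ∈ Submodule.span ℂ s) : lmG g P ∈ Submodule.span ℂ s := by
  induction hP using Submodule.span_induction with
  | mem P hP => exact h P hP
  | zero => rw [lmG_zero]; exact Submodule.zero_mem _
  | add P P' _ _ hP hP' => rw [lmG_add]; exact Submodule.add_mem _ hP hP'
  | smul r P _ hP => rw [lmG_smul]; exact Submodule.smul_mem _ _ hP

theorem lmX_mem_span {s : Set (PP A)} {X : A} (h : ∀ P ∈ s, lmX T X P ∈ Submodule.span ℂ s)
    {P : PP A} (hP : P ∈ Submodule.span ℂ s) : lmX T X P ∈ Submodule.span ℂ s := by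
  induction hP using Submodule.span_induction with
  | mem P hP => exact h P hP
  | zero => rw [lmX_zero]; exact Submodule.zero_mem _
  | add P P' _ _ hP hP' => rw [lmX_add]; exact Submodule.add_mem _ hP hP'
  | smul r P _ hP => rw [lmX_smul]; exact Submodule.smul_mem _ _ hP

/-- A space of pairs containing `(1,0)` and stable under left multiplications contains all pairs. -/
theorem mem_of_stable {G : Set A} {X : A} (V : Submodule ℂ (PP A))
    (h1 : ((1 : A), (fun _ _ => 0 : A → A → ℂ)) ∈ V) (hlin : ∀ P ∈ V, LinL P)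
    (hX : ∀ P ∈ V, lmX T X P ∈ V) (hG : ∀ g ∈ G, ∀ P ∈ V, lmG g P ∈ V) {w : A} {D : A → A → ℂ}
    (h : Der T G X w D) : ((w, D) : PP A) ∈ V := by
  have key : ∀ P ∈ V, ((w * P.1, fun p q => P.2 (p * w) q + D p (P.1 * q)) : PP A) ∈ V := by
    induction h with
    | one =>
      intro P hP
      have e : ((1 * P.1, fun p q => P.2 (p * 1) q + 0) : PP A) = P := by
        ext <;> simp
      rw [e]
      exact hP
    | coef ha =>
      intro P hP
      have := hG _ ha P hP
      convert this using 1
      ext p q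
      · rfl
      · exact add_zero _
    | var =>
      intro P hP
      have := hX P hP
      convert this using 1
      ext p q
      · rfl
      · exact add_comm _ _
    | add _ _ ih ih' =>
      intro P hP
      have := V.add_mem (ih P hP) (ih' P hP)
      convert this using 1
      ext p q
      · simp [add_mul]
      · simp only [Prod.mk_add_mk, Pi.add_apply, mul_add, (hlin P hP).1]
        ring
    | smul c _ ih =>
      intro P hP
      have := V.smul_mem c (ih P hP)
      convert this using 1
      ext p q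
      · simp
      · simp only [Prod.smul_mk, Pi.smul_apply, mul_smul_comm, (hlin P hP).2, smul_eq_mul]
        ring
    | mul _ _ ih ih' =>
      intro P hP
      have := ih _ (ih' P hP)
      convert this using 1
      ext p q
      · simp [mul_assoc]
      · simp only [mul_assoc]
        ring
  have := key _ h1
  convert this using 1
  ext p q
  · simp
  · simp

/-! ### one variable -/

variable (T) in
/-- the pair of a monomial -/
noncomputable def mono (X : A) (n : ℕ) : PP A :=
  (X ^ n, fun p q => ∑ a ∈ Finset.range n, T.τ (p * X ^ a) * T.τ (X ^ (n - 1 - a) * q))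




/-! ### the free case -/

/-- words of letter data -/
def lw (L : List (PP A × A)) : List (A × A) := L.map fun t => (t.1.1, t.2)

@[simp] theorem lw_nil : lw ([] : List (PP A × A)) = [] := rfl
@[simp] theorem lw_cons (t : PP A × A) (L : List (PP A × A)) : lw (t :: L) = (t.1.1, t.2) :: lw L :=
  rfl

/-- form of a word -/
def dl : List (PP A × A) → A → A → ℂ
  | [], _, _ => 0
  | t :: L, p, q => t.1.2 p (t.2 * lv (lw L) * q) + dl L (p * t.1.1 * t.2) q

/-- generators -/
def gen (g0 : A) (L : List (PP A × A)) : PP A := (g0 * lv (lw L), fun p q => dl L (p * g0) q)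

variable (T) in
/-- reduced lists -/
def Red (G : Set A) (X : A) (L : List (PP A × A)) : Prop :=
  (∀ t ∈ L, Der T ∅ X t.1.1 t.1.2 ∧ T.τ t.1.1 = 0) ∧ (∀ t ∈ L, t.2 ∈ G) ∧ Inner T (lw L)

theorem Der.linL {G : Set A} {X w : A} {D : A → A → ℂ} (h : Der T G X w D) : LinL (w, D) := by
  induction h with
  | one => exact ⟨by simp, by simp⟩
  | coef _ => exact ⟨by simp, by simp⟩
  | var => exact ⟨fun p p' q => by simp [add_mul], fun c p q => by simp [mul_assoc]⟩
  | add _ _ ih ih' =>
    refine ⟨fun p p' q => ?_, fun c p q => ?_⟩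
    · have h1 := ih.1 p p' q
      have h2 := ih'.1 p p' q
      simp only at h1 h2 ⊢
      rw [h1, h2]
      ring
    · have h1 := ih.2 c p q
      have h2 := ih'.2 c p q
      simp only at h1 h2 ⊢
      rw [h1, h2]
      ring
  | smul r _ ih =>
    refine ⟨fun p p' q => ?_, fun c p q => ?_⟩
    · have h1 := ih.1 p p' q
      simp only at h1 ⊢
      rw [h1]
      ring
    · have h1 := ih.2 c p q
      simp only at h1 ⊢
      rw [h1]
      ring
  | @mul w w' D D' _ _ ih ih' =>
    refine ⟨fun p p' q => ?_, fun c p q => ?_⟩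
    · have h1 := ih.1 p p' (w' * q)
      have h2 := ih'.1 (p * w) (p' * w) q
      simp only [add_mul] at h1 h2 ⊢
      rw [h1, h2]
      ring
    · have h1 := ih.2 c p (w' * q)
      have h2 := ih'.2 c (p * w) q
      simp only [smul_mul_assoc] at h1 h2 ⊢
      rw [h1, h2]
      ring

theorem dl_lin {X : A} : ∀ {L : List (PP A × A)},
    (∀ t ∈ L, Der T ∅ X t.1.1 t.1.2) →
    (∀ p p' q, dl L (p + p') q = dl L p q + dl L p' q) ∧
      (∀ (c : ℂ) p q, dl L (c • p) q = c * dl L p q)
  | [], _ => ⟨by simp [dl], by simp [dl]⟩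
  | t :: L, h => by
    have h1 := dl_lin (L := L) fun t' ht' => h t' (List.mem_cons_of_mem _ ht')
    have h2 := Der.linL (h t (by simp))
    refine ⟨fun p p' q => ?_, fun c p q => ?_⟩
    · have h3 := h2.1 p p' (t.2 * lv (lw L) * q)
      simp only at h3
      simp only [dl, add_mul, h1.1, h3]
      ring
    · have h3 := h2.2 c p (t.2 * lv (lw L) * q)
      simp only at h3
      simp only [dl, smul_mul_assoc, h1.2, h3]
      ring

theorem Der.mem {C : StarSubalgebra ℂ A} {X : A} (hX : X ∈ C) {w : A} {D : A → A → ℂ}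
    (h : Der T ∅ X w D) : w ∈ C := by
  induction h with
  | one => exact one_mem C
  | coef h => exact absurd h (Set.notMem_empty _)
  | var => exact hX
  | add _ _ ih ih' => exact add_mem ih ih'
  | smul c _ ih => exact C.smul_mem ih c
  | mul _ _ ih ih' => exact mul_mem ih ih'

/-- the form `D` only sees the functionals `τ (p ·)`, `τ (· q)` on `C` -/
theorem Der.form {C : StarSubalgebra ℂ A} {X : A} (hX : X ∈ C) {w : A} {D : A → A → ℂ}
    (h : Der T ∅ X w D) : ∀ {p q p0 q0 : A} {α β : ℂ},
    (∀ a ∈ C, T.τ (p * a) = α * T.τ (p0 * a)) → (∀ b ∈ C, T.τ (b * q) = β * T.τ (b * q0)) →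
    D p q = α * β * D p0 q0 := by
  induction h with
  | one => intros; simp
  | coef h => exact absurd h (Set.notMem_empty _)
  | var =>
    intro p q p0 q0 α β hp hq
    have h1 := hp 1 (one_mem C)
    have h2 := hq 1 (one_mem C)
    rw [mul_one, mul_one] at h1
    rw [one_mul, one_mul] at h2
    simp only [h1, h2]
    ring
  | add _ _ ih ih' =>
    intro p q p0 q0 α β hp hq
    simp only [ih hp hq, ih' hp hq]
    ring
  | smul c _ ih =>
    intro p q p0 q0 α β hp hq
    simp only [ih hp hq]
    ring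
  | @mul w w' D D' hw hw' ih ih' =>
    intro p q p0 q0 α β hp hq
    have m := Der.mem hX hw
    have m' := Der.mem hX hw'
    have h1 : D' (p * w) q = α * β * D' (p0 * w) q0 := by
      refine ih' (fun a ha => ?_) hq
      rw [mul_assoc, mul_assoc]
      exact hp _ (mul_mem m ha)
    have h2 : D p (w' * q) = α * β * D p0 (w' * q0) := by
      refine ih hp (fun b hb => ?_)
      rw [← mul_assoc, ← mul_assoc]
      exact hq _ (mul_mem hb m')
    simp only [h1, h2]
    ring

section free

variable {G C : StarSubalgebra ℂ A} {X : A}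

theorem Inner.change_last {c c' g g' : A} : ∀ {L : List (A × A)}, Inner T (L ++ [(c, g)]) →
    Inner T (L ++ [(c', g')])
  | [], _ => trivial
  | p :: L, h => by
    have h1 : Inner T (L ++ [(c', g')]) := Inner.change_last (Inner.tail h)
    refine Inner.cons h1 fun _ => ?_
    exact Inner.head (by simp) h

/-- freeness with an additional coefficient on the left -/
theorem FreeL.left (hf : FreeL T (G : Set A) {c | c ∈ C ∧ T.τ c = 0}) {g : A} (hg : g ∈ G)
    {L : List (A × A)} (hne : L ≠ []) (hc : ∀ p ∈ L, p.1 ∈ {c | c ∈ C ∧ T.τ c = 0})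
    (hG : ∀ p ∈ L, p.2 ∈ (G : Set A)) (hi : Inner T L) : T.τ (g * lv L) = 0 := by
  obtain ⟨L0, ⟨c, g'⟩, h⟩ : ∃ (L0 : List (A × A)) (x : A × A), L = L0 ++ [x] :=
    ⟨L.dropLast, L.getLast hne, (List.dropLast_append_getLast hne).symm⟩
  · rw [h] at hc hG hi ⊢
    rw [T.tr]
    have h1 := hf (L0 ++ [(c, g' * g)]) (by simp) ?_ ?_ (Inner.change_last hi)
    · rw [lv_append] at h1 ⊢
      simpa [mul_assoc] using h1
    · intro p hp
      rcases List.mem_append.1 hp with hp | hp
      · exact hc p (List.mem_append_left _ hp)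
      · rw [List.mem_singleton] at hp
        rw [hp]
        exact hc (c, g') (by simp)
    · intro p hp
      rcases List.mem_append.1 hp with hp | hp
      · exact hG p (List.mem_append_left _ hp)
      · rw [List.mem_singleton] at hp
        rw [hp]
        exact mul_mem (hG (c, g') (by simp)) hg

/-- centring -/
noncomputable def ctr (T : TracialState A) (a : A) : A := a - T.τ a • (1 : A)

theorem tau_ctr (a : A) : T.τ (ctr T a) = 0 := by
  simp [ctr, T.one]

theorem ctr_mem {B : StarSubalgebra ℂ A} {a : A} (ha : a ∈ B) : ctr T a ∈ B :=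
  sub_mem ha (B.smul_mem (one_mem B) _)

theorem eq_ctr (a : A) : a = ctr T a + T.τ a • (1 : A) := by simp [ctr]

theorem Inner_of_all : ∀ {M : List (A × A)}, (∀ p ∈ M, T.τ p.2 = 0) → ∀ q : A × A,
    Inner T (M ++ [q])
  | [], _, _ => trivial
  | p :: M, h, q => by
    refine Inner.cons (Inner_of_all (fun p' hp' => h p' (List.mem_cons_of_mem _ hp')) q) fun _ => ?_
    exact h p (by simp)

theorem Inner_of_all' : ∀ {M : List (A × A)}, (∀ p ∈ M, T.τ p.2 = 0) → Inner T M
  | [], _ => trivial
  | p :: M, h => by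
    refine Inner.cons (Inner_of_all' (fun p' hp' => h p' (List.mem_cons_of_mem _ hp'))) fun _ => ?_
    exact h p (by simp)

theorem Z1 (hf : FreeL T (G : Set A) {c | c ∈ C ∧ T.τ c = 0}) {g a : A} (hg : g ∈ G) (ha : a ∈ C)
    {M : List (A × A)} (hne : M ≠ []) (hc : ∀ p ∈ M, p.1 ∈ {c | c ∈ C ∧ T.τ c = 0})
    (hG : ∀ p ∈ M, p.2 ∈ (G : Set A)) (hi : ∀ p ∈ M, T.τ p.2 = 0) : T.τ (g * lv M * a) = 0 := by
  rw [eq_ctr (T := T) a, mul_add, map_add, mul_smul_comm, mul_one, map_smul,
    FreeL.left hf hg hne hc hG (Inner_of_all' hi), smul_zero, add_zero]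
  have h1 := FreeL.left hf hg (L := M ++ [(ctr T a, 1)]) (by simp) ?_ ?_ (Inner_of_all hi _)
  · rw [lv_append] at h1
    simpa [mul_assoc] using h1
  · intro p hp
    rcases List.mem_append.1 hp with hp | hp
    · exact hc p hp
    · rw [List.mem_singleton] at hp
      rw [hp]
      exact ⟨ctr_mem ha, tau_ctr a⟩
  · intro p hp
    rcases List.mem_append.1 hp with hp | hp
    · exact hG p hp
    · rw [List.mem_singleton] at hp
      rw [hp]
      exact one_mem G

theorem Z2 (hf : FreeL T (G : Set A) {c | c ∈ C ∧ T.τ c = 0}) {g a : A} (hg : g ∈ G)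
    (hg0 : T.τ g = 0) (ha : a ∈ C)
    {M : List (A × A)} (hne : M ≠ []) (hc : ∀ p ∈ M, p.1 ∈ {c | c ∈ C ∧ T.τ c = 0})
    (hG : ∀ p ∈ M, p.2 ∈ (G : Set A)) (hi : Inner T M) : T.τ (a * (g * lv M)) = 0 := by
  rw [eq_ctr (T := T) a, add_mul, map_add, smul_mul_assoc, one_mul, map_smul,
    FreeL.left hf hg hne hc hG hi, smul_zero, add_zero]
  have h1 := hf ((ctr T a, g) :: M) (by simp) ?_ ?_ (Inner.cons hi fun _ => hg0)
  · simpa [mul_assoc] using h1
  · intro p hp
    rcases List.mem_cons.1 hp with hp | hp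
    · rw [hp]
      exact ⟨ctr_mem ha, tau_ctr a⟩
    · exact hc p hp
  · intro p hp
    rcases List.mem_cons.1 hp with hp | hp
    · rw [hp]
      exact hg
    · exact hG p hp

theorem tau_mul_free (hf : FreeL T (G : Set A) {c | c ∈ C ∧ T.τ c = 0}) {g a : A} (hg : g ∈ G)
    (ha : a ∈ C) : T.τ (a * g) = T.τ a * T.τ g := by
  have h1 := hf [(ctr T a, g)] (by simp)
    (by
      intro p hp
      rw [List.mem_singleton] at hp
      rw [hp]
      exact ⟨ctr_mem ha, tau_ctr a⟩)
    (by
      intro p hp
      rw [List.mem_singleton] at hp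
      rw [hp]
      exact hg) trivial
  simp only [lv_cons, lv_nil, mul_one] at h1
  rw [eq_ctr (T := T) a, add_mul, map_add, h1, smul_mul_assoc, one_mul, map_smul, zero_add,
    map_add, tau_ctr, map_smul, T.one, smul_eq_mul, smul_eq_mul, mul_one, zero_add]

theorem dl_zero (hX : X ∈ C) (hf : FreeL T (G : Set A) {c | c ∈ C ∧ T.τ c = 0}) {g0 : A}
    (hg0 : g0 ∈ G) : ∀ (L : List (PP A × A)), Red T (G : Set A) X L →
    ∀ M : List (A × A), M ≠ [] → (∀ p ∈ M, p.1 ∈ {c | c ∈ C ∧ T.τ c = 0}) →
    (∀ p ∈ M, p.2 ∈ (G : Set A)) → (∀ p ∈ M, T.τ p.2 = 0) → ∀ q, dl L (g0 * lv M) q = 0 := by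
  intro L
  induction L with
  | nil => intros; rfl
  | cons t L ih =>
    intro hL M hne hc hG hi q
    obtain ⟨⟨c, D⟩, g⟩ := t
    obtain ⟨h1, h2, h3⟩ := hL
    have hD : Der T ∅ X c D := (h1 ((c, D), g) (by simp)).1
    have hc0 : T.τ c = 0 := (h1 ((c, D), g) (by simp)).2
    have hg : g ∈ G := h2 ((c, D), g) (by simp)
    have e1 : D (g0 * lv M) (g * lv (lw L) * q) = 0 := by
      rw [Der.form hX hD (p0 := 1) (q0 := g * lv (lw L) * q) (α := 0) (β := 1)]
      · simp
      · intro a ha
        rw [zero_mul]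
        exact Z1 hf hg0 ha hne hc hG hi
      · intro b _
        rw [one_mul]
    simp only [dl]
    rw [e1, zero_add]
    cases L with
    | nil => rfl
    | cons t' L' =>
      have hg1 : T.τ g = 0 := h3.1
      have e2 : g0 * lv M * c * g = g0 * lv (M ++ [(c, g)]) := by
        rw [lv_append]
        simp [mul_assoc]
      rw [e2]
      refine ih ⟨fun t ht => h1 t (List.mem_cons_of_mem _ ht),
        fun t ht => h2 t (List.mem_cons_of_mem _ ht), h3.2⟩ _ (by simp) ?_ ?_ ?_ q
      · intro p hp
        rcases List.mem_append.1 hp with hp | hp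
        · exact hc p hp
        · rw [List.mem_singleton] at hp
          rw [hp]
          exact ⟨Der.mem hX hD, hc0⟩
      · intro p hp
        rcases List.mem_append.1 hp with hp | hp
        · exact hG p hp
        · rw [List.mem_singleton] at hp
          rw [hp]
          exact hg
      · intro p hp
        rcases List.mem_append.1 hp with hp | hp
        · exact hi p hp
        · rw [List.mem_singleton] at hp
          rw [hp]
          exact hg1

theorem Red.lw_mem (hX : X ∈ C) {L : List (PP A × A)} (hL : Red T (G : Set A) X L) :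
    ∀ p ∈ lw L, p.1 ∈ {c | c ∈ C ∧ T.τ c = 0} := by
  intro p hp
  obtain ⟨t, ht, rfl⟩ := List.mem_map.1 hp
  exact ⟨Der.mem hX (hL.1 t ht).1, (hL.1 t ht).2⟩

theorem Red.lw_mem' {L : List (PP A × A)} (hL : Red T (G : Set A) X L) :
    ∀ p ∈ lw L, p.2 ∈ (G : Set A) := by
  intro p hp
  obtain ⟨t, ht, rfl⟩ := List.mem_map.1 hp
  exact hL.2.1 t ht

theorem Red.tail {t : PP A × A} {L : List (PP A × A)} (hL : Red T (G : Set A) X (t :: L)) :
    Red T (G : Set A) X L :=
  ⟨fun s hs => hL.1 s (List.mem_cons_of_mem _ hs), fun s hs => hL.2.1 s (List.mem_cons_of_mem _ hs),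
    Inner.tail hL.2.2⟩

/-- Schwinger-Dyson on the generators. -/
theorem sd_gen (hX : X ∈ C) (hX0 : T.τ X = 0) (hf : FreeL T (G : Set A) {c | c ∈ C ∧ T.τ c = 0})
    (hs : ∀ (c : A) (D : A → A → ℂ), Der T ∅ X c D → T.τ (X * c) = D 1 1)
    {g0 : A} (hg0 : g0 ∈ G) {L : List (PP A × A)} (hL : Red T (G : Set A) X L) :
    T.τ (X * (gen g0 L).1) = (gen g0 L).2 1 1 := by
  simp only [gen, one_mul]
  cases L with
  | nil =>
    simp only [lw_nil, lv_nil, mul_one, dl]
    rw [tau_mul_free hf hg0 hX, hX0, zero_mul]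
  | cons t L =>
    obtain ⟨⟨c, D⟩, g⟩ := t
    have hD : Der T ∅ X c D := (hL.1 ((c, D), g) (by simp)).1
    have hc0 : T.τ c = 0 := (hL.1 ((c, D), g) (by simp)).2
    have hc : c ∈ C := Der.mem hX hD
    have hg : g ∈ G := hL.2.1 ((c, D), g) (by simp)
    have hL' := Red.tail hL
    -- left hand side
    have e1 : T.τ (X * (g0 * lv (lw (((c, D), g) :: L)))) =
        T.τ g0 * T.τ (X * c * (g * lv (lw L))) := by
      have e2 : T.τ (X * (ctr T g0 * lv (lw (((c, D), g) :: L)))) = 0 := by
        have := hf ((X, ctr T g0) :: lw (((c, D), g) :: L)) (by simp) ?_ ?_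
          (Inner.cons hL.2.2 fun _ => tau_ctr g0)
        · rw [lv_cons] at this
          simpa [mul_assoc] using this
        · intro p hp
          rcases List.mem_cons.1 hp with hp | hp
          · rw [hp]
            exact ⟨hX, hX0⟩
          · exact Red.lw_mem hX hL p hp
        · intro p hp
          rcases List.mem_cons.1 hp with hp | hp
          · rw [hp]
            exact ctr_mem hg0
          · exact Red.lw_mem' hL p hp
      nth_rewrite 1 [eq_ctr (T := T) g0]
      rw [add_mul, mul_add, map_add, e2, zero_add, smul_mul_assoc, one_mul, mul_smul_comm, map_smul,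
        smul_eq_mul]
      congr 2
      simp [mul_assoc]
    rw [e1]
    simp only [dl, mul_one]
    cases L with
    | nil =>
      simp only [lw_nil, lv_nil, mul_one, dl, add_zero]
      rw [Der.form hX hD (p0 := 1) (q0 := 1) (α := T.τ g0) (β := T.τ g), ← hs c D hD,
        tau_mul_free hf hg (mul_mem hX hc)]
      · ring
      · intro a ha
        rw [T.tr, tau_mul_free hf hg0 ha, one_mul, mul_comm]
      · intro b hb
        rw [tau_mul_free hf hg hb, mul_one, mul_comm]
    | cons t' L' =>
      have hg1 : T.τ g = 0 := hL.2.2.1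
      have h3 : T.τ (X * c * (g * lv (lw (t' :: L')))) = 0 :=
        Z2 hf hg hg1 (mul_mem hX hc) (by simp) (Red.lw_mem hX hL') (Red.lw_mem' hL') hL'.2.2
      have h4 : D g0 (g * lv (lw (t' :: L'))) = 0 := by
        rw [Der.form hX hD (p0 := g0) (q0 := 1) (α := 1) (β := 0)]
        · simp
        · intro a _
          rw [one_mul]
        · intro b hb
          rw [zero_mul]
          exact Z2 hf hg hg1 hb (by simp) (Red.lw_mem hX hL') (Red.lw_mem' hL') hL'.2.2
      have h5 : dl (t' :: L') (g0 * c * g) 1 = 0 := by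
        have e2 : g0 * c * g = g0 * lv [(c, g)] := by simp [mul_assoc]
        rw [e2]
        refine dl_zero hX hf hg0 _ hL' _ (by simp) ?_ ?_ ?_ 1
        · intro p hp
          rw [List.mem_singleton] at hp
          rw [hp]
          exact ⟨hc, hc0⟩
        · intro p hp
          rw [List.mem_singleton] at hp
          rw [hp]
          exact hg
        · intro p hp
          rw [List.mem_singleton] at hp
          rw [hp]
          exact hg1
      rw [h3, h4, h5]
      ring

theorem gen_linL {g0 : A} {L : List (PP A × A)} (hL : Red T (G : Set A) X L) :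
    LinL (gen g0 L) := by
  have h := dl_lin (T := T) (X := X) (L := L) fun t ht => (hL.1 t ht).1
  refine ⟨fun p p' q => ?_, fun c p q => ?_⟩
  · simp only [gen, add_mul, h.1]
  · simp only [gen, smul_mul_assoc, h.2]

theorem lmX_gen_one {L : List (PP A × A)} (hL : Red T (G : Set A) X L) (hX0 : T.τ X = 0) :
    lmX T X (gen 1 L) ∈ Submodule.span ℂ {P | ∃ g0 ∈ G, ∃ L, Red T (G : Set A) X L ∧ P = gen g0 L} := by
  cases L with
  | nil =>
    refine Submodule.subset_span ⟨1, one_mem G, [((X, fun p q => T.τ p * T.τ q), 1)], ?_, ?_⟩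
    · refine ⟨?_, ?_, trivial⟩
      · intro t ht
        rw [List.mem_singleton] at ht
        rw [ht]
        exact ⟨Der.var, hX0⟩
      · intro t ht
        rw [List.mem_singleton] at ht
        rw [ht]
        exact one_mem G
    · ext p q
      · simp [lmX, gen]
      · simp [lmX, gen, dl]
  | cons t L =>
    obtain ⟨⟨c, D⟩, g⟩ := t
    have hD : Der T ∅ X c D := (hL.1 ((c, D), g) (by simp)).1
    have hg : g ∈ G := hL.2.1 ((c, D), g) (by simp)
    have hL' := Red.tail hL
    have hXc := Der.add (Der.mul (Der.var (T := T) (G := ∅) (X := X)) hD)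
      (Der.smul (-(T.τ (X * c))) (Der.one (T := T) (G := ∅) (X := X)))
    set w : A := X * c + -(T.τ (X * c)) • (1 : A) with hw
    set E : A → A → ℂ := fun p q => (D (p * X) q + T.τ p * T.τ (c * q)) + -(T.τ (X * c)) * 0 with hE
    have hw0 : T.τ w = 0 := by
      rw [hw]
      simp [T.one]
    have hred : Red T (G : Set A) X (((w, E), g) :: L) := by
      refine ⟨?_, ?_, ?_⟩
      · intro t ht
        rcases List.mem_cons.1 ht with ht | ht
        · rw [ht]
          exact ⟨hXc, hw0⟩
        · exact hL'.1 t ht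
      · intro t ht
        rcases List.mem_cons.1 ht with ht | ht
        · rw [ht]
          exact hg
        · exact hL'.2.1 t ht
      · exact Inner.change (L := []) (c := c) hL.2.2
    have e : lmX T X (gen 1 (((c, D), g) :: L)) =
        gen 1 (((w, E), g) :: L) + T.τ (X * c) • gen g L := by
      have hl := dl_lin (T := T) (X := X) (L := L) fun t ht => (hL'.1 t ht).1
      ext p q
      · simp only [lmX, gen, lw_cons, lv_cons, one_mul, Prod.fst_add, Prod.smul_fst, hw]
        simp only [add_mul, neg_smul, neg_mul, smul_mul_assoc, one_mul]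
        rw [← mul_assoc, ← mul_assoc]
        abel
      · simp only [lmX, gen, dl, lw_cons, lv_cons, one_mul, mul_one, Prod.snd_add, Prod.smul_snd,
          Pi.add_apply, Pi.smul_apply, smul_eq_mul, hE, mul_zero, add_zero, hw]
        have e3 : p * (X * c + -(T.τ (X * c)) • (1 : A)) * g =
            p * X * c * g + (-(T.τ (X * c))) • (p * g) := by
          simp only [mul_add, add_mul, mul_smul_comm, smul_mul_assoc, mul_one, mul_assoc]
        rw [e3, hl.1, hl.2]
        simp only [mul_assoc]
        ring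
    rw [e]
    refine Submodule.add_mem _ (Submodule.subset_span ⟨1, one_mem G, _, hred, rfl⟩) ?_
    exact Submodule.smul_mem _ _ (Submodule.subset_span ⟨g, hg, L, hL', rfl⟩)

/-- **Freeness + one variable Schwinger-Dyson ⇒ Schwinger-Dyson over `G`.** -/
theorem sd_of_free (hsa : IsSelfAdjoint X) (hX : X ∈ C) (hX0 : T.τ X = 0)
    (hf : FreeL T (G : Set A) {c | c ∈ C ∧ T.τ c = 0})
    (hs : ∀ (c : A) (D : A → A → ℂ), Der T ∅ X c D → T.τ (X * c) = D 1 1) :
    SD T (G : Set A) X := by
  refine ⟨hsa, fun w D hD => ?_⟩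
  set V := Submodule.span ℂ {P | ∃ g0 ∈ G, ∃ L, Red T (G : Set A) X L ∧ P = gen g0 L} with hV
  have hmem : ((w, D) : PP A) ∈ V := by
    refine mem_of_stable (T := T) (X := X) (G := (G : Set A)) V ?_ ?_ ?_ ?_ hD
    · refine Submodule.subset_span ⟨1, one_mem G, [], ⟨by simp, by simp, trivial⟩, ?_⟩
      ext p q
      · simp [gen]
      · simp [gen, dl]
    · intro P hP
      refine LinL.span ?_ hP
      rintro _ ⟨g0, _, L, hL, rfl⟩
      exact gen_linL hL
    · intro P hP
      refine lmX_mem_span ?_ hP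
      rintro _ ⟨g0, hg0, L, hL, rfl⟩
      have h1 : Red T (G : Set A) X (((X, fun p q => T.τ p * T.τ q), ctr T g0) :: L) := by
        refine ⟨?_, ?_, ?_⟩
        · intro t ht
          rcases List.mem_cons.1 ht with ht | ht
          · rw [ht]
            exact ⟨Der.var, hX0⟩
          · exact hL.1 t ht
        · intro t ht
          rcases List.mem_cons.1 ht with ht | ht
          · rw [ht]
            exact ctr_mem hg0
          · exact hL.2.1 t ht
        · exact Inner.cons hL.2.2 fun _ => tau_ctr g0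
      have e : lmX T X (gen g0 L) =
          gen 1 (((X, fun p q => T.τ p * T.τ q), ctr T g0) :: L) + T.τ g0 • lmX T X (gen 1 L) := by
        have hl := dl_lin (T := T) (X := X) (L := L) fun t ht => (hL.1 t ht).1
        ext p q
        · simp only [lmX, gen, lw_cons, lv_cons, one_mul, Prod.fst_add, Prod.smul_fst]
          nth_rewrite 1 [eq_ctr (T := T) g0]
          simp only [add_mul, mul_add, smul_mul_assoc, one_mul, mul_smul_comm, mul_assoc]
        · simp only [lmX, gen, dl, one_mul, mul_one, Prod.snd_add, Prod.smul_snd,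
            Pi.add_apply, Pi.smul_apply, smul_eq_mul]
          have e3 : p * X * g0 = p * X * ctr T g0 + T.τ g0 • (p * X) := by
            nth_rewrite 1 [eq_ctr (T := T) g0]
            simp only [mul_add, mul_smul_comm, mul_one]
          have e4 : T.τ (g0 * lv (lw L) * q) =
              T.τ (ctr T g0 * lv (lw L) * q) + T.τ g0 * T.τ (lv (lw L) * q) := by
            nth_rewrite 1 [eq_ctr (T := T) g0]
            simp only [add_mul, smul_mul_assoc, one_mul, map_add, map_smul, smul_eq_mul]
          rw [e3, hl.1, hl.2, e4]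
          ring
      rw [e]
      refine Submodule.add_mem _ (Submodule.subset_span ⟨1, one_mem G, _, h1, rfl⟩) ?_
      exact Submodule.smul_mem _ _ (lmX_gen_one hL hX0)
    · intro g hg P hP
      refine lmG_mem_span ?_ hP
      rintro _ ⟨g0, hg0, L, hL, rfl⟩
      refine Submodule.subset_span ⟨g * g0, mul_mem hg hg0, L, hL, ?_⟩
      ext p q
      · simp [lmG, gen, mul_assoc]
      · simp [lmG, gen, mul_assoc]
  have key : ∀ P ∈ V, T.τ (X * P.1) = P.2 1 1 := by
    intro P hP
    induction hP using Submodule.span_induction with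
    | mem P hP =>
      obtain ⟨g0, hg0, L, hL, rfl⟩ := hP
      exact sd_gen hX hX0 hf hs hg0 hL
    | zero => simp
    | add P P' _ _ hP hP' =>
      simp only [Prod.fst_add, Prod.snd_add, mul_add, map_add, Pi.add_apply, hP, hP']
    | smul r P _ hP =>
      simp only [Prod.smul_fst, Prod.smul_snd, mul_smul_comm, map_smul, Pi.smul_apply, hP]
  exact key _ hmem

end free

end Conv

end Crest.Agent.R134
private theorem rz_804f45aef7 : type_of% @_root_.Crest.Agent.R134.Conv.dl.eq_def := @_root_.Crest.Agent.R134.Conv.dl.eq_def -- L234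
private theorem rz_0e0880e6ab : type_of% @_root_.Crest.Agent.R134.Conv.dl.eq_1 := @_root_.Crest.Agent.R134.Conv.dl.eq_1 -- L234
end

-- ▼ part R134/Conv3
section

/-!
# R134 Conv3: the trace of a continuous function of a Haar unitary
-/

set_option autoImplicit false
set_option linter.unusedSectionVars false

universe u

namespace Crest.Agent.R134

open Crest.Agent.R95 Filter Topology MeasureTheory

namespace Conv

variable {A : Type u} [CStarAlgebra A] {T : TracialState A}

/-- circle mean -/
noncomputable def Mc (F : ℂ → ℂ) : ℂ :=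
  (1 / (2 * Real.pi) : ℂ) * ∫ θ in (-Real.pi)..Real.pi, F (Complex.exp (θ * Complex.I))

/-- the unit circle -/
abbrev Sp : Set ℂ := Metric.sphere (0 : ℂ) 1

theorem exp_mem_Sp (θ : ℝ) : Complex.exp (θ * Complex.I) ∈ Sp := by
  simp [Complex.norm_exp_ofReal_mul_I]

theorem Mc_integrable {F : ℂ → ℂ} (hF : ContinuousOn F Sp) (a b : ℝ) :
    IntervalIntegrable (fun θ : ℝ => F (Complex.exp (θ * Complex.I))) volume a b := by
  apply Continuous.intervalIntegrable
  exact hF.comp_continuous (by fun_prop) exp_mem_Sp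

theorem Mc_add {F G : ℂ → ℂ} (hF : ContinuousOn F Sp) (hG : ContinuousOn G Sp) :
    Mc (fun z => F z + G z) = Mc F + Mc G := by
  unfold Mc
  rw [← mul_add, ← intervalIntegral.integral_add (Mc_integrable hF _ _) (Mc_integrable hG _ _)]

theorem Mc_sub {F G : ℂ → ℂ} (hF : ContinuousOn F Sp) (hG : ContinuousOn G Sp) :
    Mc (fun z => F z - G z) = Mc F - Mc G := by
  unfold Mc
  rw [← mul_sub, ← intervalIntegral.integral_sub (Mc_integrable hF _ _) (Mc_integrable hG _ _)]

theorem Mc_const_mul (c : ℂ) (F : ℂ → ℂ) : Mc (fun z => c * F z) = c * Mc F := by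
  unfold Mc
  rw [intervalIntegral.integral_const_mul]
  ring

theorem Mc_one : Mc (fun _ => 1) = 1 := by
  unfold Mc
  rw [intervalIntegral.integral_const]
  have hpi : (Real.pi : ℂ) ≠ 0 := by exact_mod_cast Real.pi_ne_zero
  rw [Complex.real_smul]
  push_cast
  field_simp
  ring

theorem norm_Mc_le {F : ℂ → ℂ} {c : ℝ} (h : ∀ z ∈ Sp, ‖F z‖ ≤ c) : ‖Mc F‖ ≤ c := by
  unfold Mc
  rw [norm_mul]
  have h1 : ‖∫ θ in (-Real.pi)..Real.pi, F (Complex.exp (θ * Complex.I))‖ ≤
      c * |Real.pi - -Real.pi| :=
    intervalIntegral.norm_integral_le_of_norm_le_const fun θ _ => h _ (exp_mem_Sp θ)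
  have h2 : ‖(1 / (2 * Real.pi) : ℂ)‖ = 1 / (2 * Real.pi) := by
    have : (1 / (2 * Real.pi) : ℂ) = ((1 / (2 * Real.pi) : ℝ) : ℂ) := by push_cast; ring
    rw [this, Complex.norm_real, Real.norm_of_nonneg (by positivity)]
  have hpi := Real.pi_pos
  rw [h2]
  rw [abs_of_pos (by linarith)] at h1
  calc 1 / (2 * Real.pi) * ‖∫ θ in (-Real.pi)..Real.pi, F (Complex.exp (θ * Complex.I))‖
      ≤ 1 / (2 * Real.pi) * (c * (Real.pi - -Real.pi)) := by gcongr
    _ = c := by
      field_simp
      ring

theorem Mc_exp {n : ℤ} (hn : n ≠ 0) :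
    ∫ θ in (-Real.pi)..Real.pi, Complex.exp ((n * Complex.I) * (θ : ℂ)) = 0 := by
  have hc : (n : ℂ) * Complex.I ≠ 0 := mul_ne_zero (by exact_mod_cast hn) Complex.I_ne_zero
  rw [integral_exp_mul_complex hc]
  have e : Complex.exp ((n : ℂ) * Complex.I * (Real.pi : ℂ)) =
      Complex.exp ((n : ℂ) * Complex.I * ((-Real.pi : ℝ) : ℂ)) := by
    have : (n : ℂ) * Complex.I * (Real.pi : ℂ) =
        (n : ℂ) * Complex.I * ((-Real.pi : ℝ) : ℂ) + n * (2 * Real.pi * Complex.I) := by
      push_cast
      ring
    rw [this, Complex.exp_add, Complex.exp_int_mul_two_pi_mul_I, mul_one]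
  rw [e, sub_self, zero_div]

theorem Mc_pow (n : ℕ) : Mc (fun z => z ^ n) = if n = 0 then 1 else 0 := by
  split_ifs with h
  · subst h
    simpa using Mc_one
  · unfold Mc
    have e : ∀ θ : ℝ, Complex.exp (θ * Complex.I) ^ n =
        Complex.exp ((((n : ℕ) : ℤ) : ℂ) * Complex.I * θ) := by
      intro θ
      rw [← Complex.exp_nat_mul]
      push_cast
      ring_nf
    simp only [e]
    rw [Mc_exp (by exact_mod_cast h), mul_zero]

theorem Mc_star_pow (n : ℕ) : Mc (fun z => (star z) ^ n) = if n = 0 then 1 else 0 := by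
  split_ifs with h
  · subst h
    simpa using Mc_one
  · unfold Mc
    have e : ∀ θ : ℝ, (star (Complex.exp (θ * Complex.I))) ^ n =
        Complex.exp (((-(n : ℤ) : ℤ) : ℂ) * Complex.I * θ) := by
      intro θ
      rw [Complex.star_def, ← Complex.exp_conj, ← Complex.exp_nat_mul]
      simp only [map_mul, Complex.conj_ofReal, Complex.conj_I]
      push_cast
      ring_nf
    simp only [e]
    rw [Mc_exp (by simpa using h), mul_zero]

/-! ### density -/

/-- approximation of continuous functions on the circle by Laurent polynomials, in the form of an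
induction principle. -/
theorem circle_induction {p : (ℂ → ℂ) → Prop} (h1 : ∀ n : ℕ, p (fun z => z ^ n))
    (h2 : ∀ n : ℕ, p (fun z => (star z) ^ n))
    (hadd : ∀ F G : ℂ → ℂ, ContinuousOn F Sp → ContinuousOn G Sp → p F → p G →
      p (fun z => F z + G z))
    (hsmul : ∀ (c : ℂ) (F : ℂ → ℂ), ContinuousOn F Sp → p F → p (fun z => c * F z))
    (hlim : ∀ F : ℂ → ℂ, ContinuousOn F Sp → (∀ ε : ℝ, 0 < ε → ∃ G : ℂ → ℂ, ContinuousOn G Sp ∧ p G ∧
      ∀ z ∈ Sp, ‖G z - F z‖ ≤ ε) → p F) {F : ℂ → ℂ} (hF : ContinuousOn F Sp) : p F := by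
  refine hlim F hF fun ε hε => ?_
  have : Fact (0 < 2 * Real.pi) := ⟨by positivity⟩
  -- the function on the additive circle
  let f : C(AddCircle (2 * Real.pi), ℂ) :=
    ⟨fun x => F (AddCircle.toCircle x : ℂ), hF.comp_continuous
      (by
        have := AddCircle.continuous_toCircle (T := 2 * Real.pi)
        exact continuous_subtype_val.comp this)
      (fun x => mem_sphere_zero_iff_norm.2 (Circle.norm_coe _))⟩
  have hf : f ∈ (Submodule.span ℂ (Set.range (@fourier (2 * Real.pi)))).topologicalClosure := by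
    rw [span_fourier_closure_eq_top]
    trivial
  rw [← SetLike.mem_coe, Submodule.topologicalClosure_coe] at hf
  obtain ⟨g, hg, hfg⟩ := Metric.mem_closure_iff.1 hf ε hε
  have hspan : ∀ g ∈ Submodule.span ℂ (Set.range (@fourier (2 * Real.pi))),
      ∃ G : ℂ → ℂ, ContinuousOn G Sp ∧ p G ∧ ∀ x, g x = G (AddCircle.toCircle x : ℂ) := by
    intro g hg
    induction hg using Submodule.span_induction with
    | mem g hg =>
      obtain ⟨n, rfl⟩ := hg
      rcases Int.eq_nat_or_neg n with ⟨m, rfl | rfl⟩
      · refine ⟨fun z => z ^ m, by fun_prop, h1 m, fun x => ?_⟩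
        rw [fourier_apply]
        simp [AddCircle.toCircle_nsmul]
      · refine ⟨fun z => (star z) ^ m, by fun_prop, h2 m, fun x => ?_⟩
        rw [fourier_apply]
        simp only [neg_smul, AddCircle.toCircle_neg, natCast_zsmul, AddCircle.toCircle_nsmul]
        rw [Circle.coe_inv_eq_conj, Circle.coe_pow, map_pow]
        rfl
    | zero =>
      refine ⟨fun z => 0 * z ^ 0, by fun_prop, hsmul 0 _ (by fun_prop) (h1 0), fun x => by simp⟩
    | add g g' _ _ hg hg' =>
      obtain ⟨G, a1, a2, a3⟩ := hg
      obtain ⟨G', b1, b2, b3⟩ := hg'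
      exact ⟨fun z => G z + G' z, a1.add b1, hadd G G' a1 b1 a2 b2, fun x => by
        rw [ContinuousMap.add_apply, a3, b3]⟩
    | smul c g _ hg =>
      obtain ⟨G, a1, a2, a3⟩ := hg
      exact ⟨fun z => c * G z, continuousOn_const.mul a1, hsmul c G a1 a2, fun x => by
        rw [ContinuousMap.smul_apply, a3, smul_eq_mul]⟩
  obtain ⟨G, hG1, hG2, hG3⟩ := hspan g hg
  refine ⟨G, hG1, hG2, fun z hz => ?_⟩
  -- every point of the circle is in the image
  obtain ⟨x, hx⟩ : ∃ x : AddCircle (2 * Real.pi), (AddCircle.toCircle x : ℂ) = z := by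
    have hz' : ‖z‖ = 1 := by simpa using hz
    refine ⟨((Complex.arg z : ℝ) : AddCircle (2 * Real.pi)), ?_⟩
    rw [AddCircle.toCircle_apply_mk]
    have : 2 * Real.pi / (2 * Real.pi) * Complex.arg z = Complex.arg z := by
      rw [div_self (by positivity), one_mul]
    rw [this, Circle.coe_exp]
    have := Complex.norm_mul_exp_arg_mul_I z
    rwa [hz', Complex.ofReal_one, one_mul] at this
  rw [← hx, ← hG3]
  have h3 : ‖(f - g) x‖ ≤ ‖f - g‖ := ContinuousMap.norm_coe_le_norm _ _
  rw [dist_eq_norm] at hfg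
  have h4 : (f - g) x = F (AddCircle.toCircle x : ℂ) - g x := rfl
  rw [norm_sub_rev, ← h4]
  exact (h3.trans hfg.le)

theorem spectrum_subset_Sp {v : A} (hv : v ∈ unitary A) : spectrum ℂ v ⊆ Sp :=
  Unitary.spectrum_subset_circle ⟨v, hv⟩

theorem isStarNormal_of_unitary {v : A} (hv : v ∈ unitary A) : IsStarNormal v := by
  refine ⟨?_⟩
  show star v * v = v * star v
  rw [Unitary.star_mul_self_of_mem hv, Unitary.mul_star_self_of_mem hv]

/-- **the circle formula** -/
theorem tau_cfc {v : A} (hv : v ∈ unitary A) (h0 : ∀ n : ℕ, T.τ (v ^ (n + 1)) = 0) {F : ℂ → ℂ}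
    (hF : ContinuousOn F Sp) : T.τ (cfc F v) = Mc F := by
  have hn := isStarNormal_of_unitary hv
  have hs := spectrum_subset_Sp hv
  refine circle_induction (p := fun F => T.τ (cfc F v) = Mc F) ?_ ?_ ?_ ?_ ?_ hF
  · intro n
    rw [cfc_pow_id v n, Mc_pow]
    split_ifs with h
    · rw [h, pow_zero, T.one]
    · obtain ⟨m, rfl⟩ := Nat.exists_eq_succ_of_ne_zero h
      exact h0 m
  · intro n
    have e : cfc (fun z : ℂ => (star z) ^ n) v = star (v ^ n) := by
      rw [← cfc_pow_id (R := ℂ) v n, ← cfc_star]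
      simp only [star_pow]
    rw [e, Mc_star_pow, T.star']
    split_ifs with h
    · rw [h, pow_zero, T.one, map_one]
    · obtain ⟨m, rfl⟩ := Nat.exists_eq_succ_of_ne_zero h
      rw [h0 m, map_zero]
  · intro F G hF hG h1 h2
    rw [cfc_add v F G (hF.mono hs) (hG.mono hs), map_add, h1, h2, Mc_add hF hG]
  · intro c F hF h1
    rw [cfc_const_mul c F v (hF.mono hs), map_smul, h1, Mc_const_mul, smul_eq_mul]
  · intro F hF h
    refine eq_of_forall_dist_le fun ε hε => ?_
    obtain ⟨G, hG1, hG2, hG3⟩ := h (ε / 2) (by positivity)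
    rw [dist_eq_norm]
    have e : T.τ (cfc F v) - Mc F = T.τ (cfc (fun z => F z - G z) v) +
        Mc (fun z => G z - F z) := by
      rw [cfc_sub (a := v) F G (hF.mono hs) (hG1.mono hs), map_sub, Mc_sub hG1 hF, hG2]
      ring
    rw [e]
    refine (norm_add_le _ _).trans ?_
    have h1 : ‖T.τ (cfc (fun z => F z - G z) v)‖ ≤ ε / 2 := by
      refine (T.norm_tau_le _).trans (norm_cfc_le (by positivity) fun z hz => ?_)
      rw [norm_sub_rev]
      exact hG3 z (hs hz)
    have h2 : ‖Mc (fun z => G z - F z)‖ ≤ ε / 2 := norm_Mc_le hG3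
    linarith

/-- 2-norm of a function of a Haar unitary -/
theorem nrm2_cfc_sq {v : A} (hv : v ∈ unitary A) (h0 : ∀ n : ℕ, T.τ (v ^ (n + 1)) = 0)
    {F : ℂ → ℂ} (hF : ContinuousOn F Sp) :
    T.nrm2 (cfc F v) ^ 2 = (Mc fun z => star (F z) * F z).re := by
  have hs := spectrum_subset_Sp hv
  have hF' : ContinuousOn (fun z => star (F z)) Sp := hF.star
  rw [T.nrm2_sq, ← cfc_star, ← cfc_mul _ _ v (hF'.mono hs) (hF.mono hs)]
  exact congrArg Complex.re (tau_cfc hv h0 (F := fun z => star (F z) * F z) (hF'.mul hF))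

end Conv

end Crest.Agent.R134
end

-- ▼ part R134/Conv4
section

/-!
# R134 Conv4: a Haar unitary is the `uu` of a semicircular element
-/

set_option autoImplicit false
set_option linter.unusedSectionVars false

universe u

namespace Crest.Agent.R134

open Crest.Agent.R95 Filter Topology MeasureTheory
open scoped Interval

namespace Conv

/-! ### the transport map -/

/-- `2 t - sin (2 t) - π` -/
noncomputable def ss (t : ℝ) : ℝ := 2 * t - Real.sin (2 * t) - Real.pi

theorem ss_continuous : Continuous ss := by unfold ss; fun_prop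

theorem ss_strictMono : StrictMono ss := by
  intro a b hab
  unfold ss
  have h1 : Real.sin (2 * b) - Real.sin (2 * a) < 2 * b - 2 * a := by
    have h2 : Real.sin (2 * b) - Real.sin (2 * a) = 2 * Real.sin (b - a) * Real.cos (b + a) := by
      rw [Real.sin_sub_sin]
      congr 3
      · ring
      · ring
    have h3 : |Real.sin (b - a)| < b - a := by
      have h4 : 0 < b - a := by linarith
      rw [abs_lt]
      exact ⟨by have := Real.lt_sin (show -(b - a) < 0 by linarith); rw [Real.sin_neg] at this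
                have h5 := Real.sin_lt h4
                have h6 := Real.neg_one_le_sin (b - a)
                by_contra hcon
                push Not at hcon
                rcases le_or_gt (b - a) Real.pi with h7 | h7
                · have := Real.sin_nonneg_of_nonneg_of_le_pi h4.le h7
                  linarith
                · linarith [Real.pi_gt_three], Real.sin_lt h4⟩
    calc Real.sin (2 * b) - Real.sin (2 * a) = 2 * (Real.sin (b - a) * Real.cos (b + a)) := by
          rw [h2]; ring
      _ ≤ 2 * |Real.sin (b - a) * Real.cos (b + a)| := by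
          have := le_abs_self (Real.sin (b - a) * Real.cos (b + a))
          linarith
      _ ≤ 2 * |Real.sin (b - a)| := by
          rw [abs_mul]
          have h8 := Real.abs_cos_le_one (b + a)
          have h9 := abs_nonneg (Real.sin (b - a))
          nlinarith
      _ < 2 * b - 2 * a := by linarith
  linarith

theorem ss_surjective : Function.Surjective ss := by
  refine ss_continuous.surjective ?_ ?_
  · have h : ∀ t, 2 * t - (1 + Real.pi) ≤ ss t := by
      intro t
      unfold ss
      linarith [Real.sin_le_one (2 * t)]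
    refine tendsto_atTop_mono h ?_
    refine tendsto_atTop_add_const_right _ _ ?_
    exact tendsto_id.const_mul_atTop (by norm_num)
  · have h : ∀ t, ss t ≤ 2 * t + (1 - Real.pi) := by
      intro t
      unfold ss
      linarith [Real.neg_one_le_sin (2 * t)]
    refine tendsto_atBot_mono h ?_
    refine tendsto_atBot_add_const_right _ _ ?_
    exact tendsto_id.const_mul_atBot (by norm_num)

/-- the inverse of `ss` -/
noncomputable def ssIso : ℝ ≃o ℝ := StrictMono.orderIsoOfSurjective ss ss_strictMono ss_surjective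

noncomputable def st (θ : ℝ) : ℝ := ssIso.symm θ

theorem st_continuous : Continuous st := ssIso.symm.continuous

theorem ss_st (θ : ℝ) : ss (st θ) = θ := ssIso.apply_symm_apply θ

theorem st_ss (t : ℝ) : st (ss t) = t := ssIso.symm_apply_apply t

theorem ss_zero : ss 0 = -Real.pi := by simp [ss]

theorem ss_pi : ss Real.pi = Real.pi := by simp [ss]; ring

theorem st_neg_pi : st (-Real.pi) = 0 := by rw [← ss_zero, st_ss]

theorem st_pi : st Real.pi = Real.pi := by
  conv_lhs => rw [← ss_pi]
  rw [st_ss]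

theorem st_mem {θ : ℝ} (h : θ ∈ Set.Icc (-Real.pi) Real.pi) : st θ ∈ Set.Icc 0 Real.pi := by
  constructor
  · rw [← st_neg_pi]
    exact ssIso.symm.monotone h.1
  · rw [← st_pi]
    exact ssIso.symm.monotone h.2

theorem Θ_cos {t : ℝ} (h : t ∈ Set.Icc 0 Real.pi) : Θ (2 * Real.cos t) = ss t := by
  unfold Θ ss
  rw [mul_div_cancel_left₀ _ (two_ne_zero), Real.arccos_cos h.1 h.2]

theorem Θ_continuous : Continuous Θ := by unfold Θ; fun_prop

/-- the semicircular variable on the circle -/
noncomputable def xi (θ : ℝ) : ℝ := 2 * Real.cos (st θ)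

theorem xi_continuous : Continuous xi := by
  unfold xi
  exact continuous_const.mul (Real.continuous_cos.comp st_continuous)

theorem xi_mem (θ : ℝ) : xi θ ∈ Set.Icc (-2 : ℝ) 2 := by
  unfold xi
  constructor
  · linarith [Real.neg_one_le_cos (st θ)]
  · linarith [Real.cos_le_one (st θ)]

theorem Θ_xi {θ : ℝ} (h : θ ∈ Set.Icc (-Real.pi) Real.pi) : Θ (xi θ) = θ := by
  unfold xi
  rw [Θ_cos (st_mem h), ss_st]

/-- change of variables -/
theorem integral_xi {G : ℝ → ℂ} (hG : Continuous G) :
    (1 / (2 * Real.pi) : ℂ) * ∫ θ in (-Real.pi)..Real.pi, G (xi θ) = Sc G := by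
  have h1 : ∫ t in (0 : ℝ)..Real.pi, (4 * Real.sin t ^ 2) • ((fun θ => G (xi θ)) ∘ ss) t =
      ∫ θ in ss 0..ss Real.pi, G (xi θ) := by
    refine intervalIntegral.integral_deriv_smul_comp ?_ (by fun_prop) (hG.comp xi_continuous)
    intro t _
    have h2 : HasDerivAt ss (2 - Real.cos (2 * t) * 2) t := by
      have h3 : HasDerivAt (fun t : ℝ => 2 * t) 2 t := by
        simpa using (hasDerivAt_id t).const_mul (2 : ℝ)
      exact (h3.sub h3.sin).sub_const _
    convert h2 using 1
    rw [Real.cos_two_mul, Real.cos_sq']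
    ring
  rw [ss_zero, ss_pi] at h1
  rw [← h1]
  unfold Sc
  have h4 : ∀ t ∈ Set.uIcc (0 : ℝ) Real.pi, (4 * Real.sin t ^ 2) • ((fun θ => G (xi θ)) ∘ ss) t =
      4 * (G (2 * Real.cos t) * ((Real.sin t ^ 2 : ℝ) : ℂ)) := by
    intro t _
    simp only [Function.comp_apply, xi, st_ss, Complex.real_smul]
    push_cast
    ring
  rw [intervalIntegral.integral_congr h4, intervalIntegral.integral_const_mul]
  have hpi : (Real.pi : ℂ) ≠ 0 := by exact_mod_cast Real.pi_ne_zero
  field_simp
  ring

/-! ### cut-off -/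

/-- cut-off near `-1` -/
noncomputable def mm (k : ℕ) (z : ℂ) : ℝ := min 1 (k * ‖1 + z‖)

theorem mm_nonneg (k : ℕ) (z : ℂ) : 0 ≤ mm k z := le_min zero_le_one (by positivity)
theorem mm_le (k : ℕ) (z : ℂ) : mm k z ≤ 1 := min_le_left _ _
theorem mm_continuous (k : ℕ) : Continuous (mm k) := by unfold mm; fun_prop

/-- continuous approximations of the semicircular function on the circle -/
noncomputable def fk (k : ℕ) (z : ℂ) : ℝ := mm k z * xi (Complex.arg z)

theorem fk_mem (k : ℕ) (z : ℂ) : fk k z ∈ Set.Icc (-2 : ℝ) 2 := by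
  have h1 := mm_nonneg k z
  have h2 := mm_le k z
  have h3 := xi_mem (Complex.arg z)
  unfold fk
  constructor <;> nlinarith [h3.1, h3.2]

theorem fk_continuousOn (k : ℕ) : ContinuousOn (fk k) Sp := by
  intro z hz
  by_cases hz1 : z = -1
  · subst hz1
    have h0 : fk k (-1) = 0 := by simp [fk, mm]
    unfold ContinuousWithinAt
    rw [h0]
    have h1 : Tendsto (fun z : ℂ => 2 * (k * ‖1 + z‖)) (𝓝[Sp] (-1)) (𝓝 0) := by
      have : Continuous fun z : ℂ => 2 * ((k : ℝ) * ‖1 + z‖) := by fun_prop
      have h2 := this.tendsto (-1 : ℂ)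
      simp only [add_neg_cancel, norm_zero, mul_zero] at h2
      exact h2.mono_left nhdsWithin_le_nhds
    refine squeeze_zero_norm (fun w => ?_) h1
    rw [Real.norm_eq_abs, fk, abs_mul, abs_of_nonneg (mm_nonneg k w)]
    have h3 : |xi (Complex.arg w)| ≤ 2 := abs_le.2 (xi_mem _)
    have h4 : mm k w ≤ k * ‖1 + w‖ := min_le_right _ _
    have h5 := mm_nonneg k w
    have h6 := abs_nonneg (xi (Complex.arg w))
    nlinarith
  · have hslit : z ∈ Complex.slitPlane := by
      rw [Complex.mem_slitPlane_iff]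
      by_contra hcon
      push Not at hcon
      apply hz1
      have h1 : ‖z‖ = 1 := by simpa using hz
      have h2 : z.re ^ 2 + z.im ^ 2 = 1 := by
        have := Complex.sq_norm z
        rw [h1, Complex.normSq_apply] at this
        nlinarith
      have h3 : z.im = 0 := hcon.2
      have h4 : z.re ≤ 0 := hcon.1
      have h5 : z.re = -1 := by
        rw [h3] at h2
        nlinarith
      exact Complex.ext (by simpa using h5) (by simpa using h3)
    have h1 : ContinuousAt (fk k) z := by
      unfold fk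
      exact (mm_continuous k).continuousAt.mul
        (xi_continuous.continuousAt.comp (Complex.continuousAt_arg hslit))
    exact h1.continuousWithinAt

/-- `fk` in the coordinate `θ` -/
theorem fk_exp (k : ℕ) {θ : ℝ} (h : θ ∈ Set.Icc (-Real.pi) Real.pi) :
    fk k (Complex.exp (θ * Complex.I)) = mm k (Complex.exp (θ * Complex.I)) * xi θ := by
  unfold fk
  rcases eq_or_lt_of_le h.1 with h1 | h1
  · have h2 : Complex.exp (θ * Complex.I) = -1 := by
      rw [← h1]
      push_cast
      rw [neg_mul, Complex.exp_neg, Complex.exp_pi_mul_I]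
      norm_num
    have h3 : mm k (Complex.exp (θ * Complex.I)) = 0 := by
      rw [h2]
      simp [mm]
    rw [h3, zero_mul, zero_mul]
  · have h2 : Complex.arg (Complex.exp (θ * Complex.I)) = θ := by
      rw [Complex.exp_mul_I]
      exact Complex.arg_cos_add_sin_mul_I ⟨h1, h.2⟩
    rw [h2]

theorem mm_eventually {z : ℂ} (hz : z ≠ -1) : ∀ᶠ k in atTop, mm k z = 1 := by
  have h0 : 0 < ‖1 + z‖ := norm_pos_iff.2 fun h => hz (by linear_combination h)
  obtain ⟨K, hK⟩ := exists_nat_gt (1 / ‖1 + z‖)
  filter_upwards [eventually_ge_atTop K] with k hk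
  refine min_eq_left ?_
  have h1 : (K : ℝ) ≤ k := by exact_mod_cast hk
  rw [div_lt_iff₀ h0] at hK
  nlinarith

/-- dominated convergence for the cut-off -/
theorem tendsto_cut {G : ℝ → ℝ → ℂ} (hG : Continuous fun p : ℝ × ℝ => G p.1 p.2) :
    Tendsto (fun k : ℕ => ∫ θ in (-Real.pi)..Real.pi,
      G (mm k (Complex.exp (θ * Complex.I)) * xi θ) θ) atTop
      (𝓝 (∫ θ in (-Real.pi)..Real.pi, G (xi θ) θ)) := by
  -- a bound
  obtain ⟨C, hC⟩ : ∃ C, ∀ p ∈ (Set.Icc (-2 : ℝ) 2 ×ˢ Set.Icc (-Real.pi) Real.pi), ‖G p.1 p.2‖ ≤ C :=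
    (isCompact_Icc.prod isCompact_Icc).exists_bound_of_continuousOn hG.continuousOn
  have hIoc : Ι (-Real.pi) Real.pi = Set.Ioc (-Real.pi) Real.pi :=
    Set.uIoc_of_le (by linarith [Real.pi_pos])
  refine intervalIntegral.tendsto_integral_filter_of_dominated_convergence (fun _ => C) ?_ ?_ ?_ ?_
  · refine Eventually.of_forall fun k => ?_
    refine Continuous.aestronglyMeasurable ?_
    refine hG.comp (Continuous.prodMk ?_ continuous_id)
    exact ((mm_continuous k).comp (by fun_prop)).mul xi_continuous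
  · refine Eventually.of_forall fun k => Eventually.of_forall fun θ hθ => ?_
    rw [hIoc] at hθ
    refine hC (mm k (Complex.exp (θ * Complex.I)) * xi θ, θ) ⟨?_, ⟨hθ.1.le, hθ.2⟩⟩
    have h1 := mm_nonneg k (Complex.exp (θ * Complex.I))
    have h2 := mm_le k (Complex.exp (θ * Complex.I))
    have h3 := xi_mem θ
    constructor <;> nlinarith [h3.1, h3.2]
  · exact intervalIntegrable_const
  · filter_upwards [Measure.ae_ne volume Real.pi] with θ hθ hθ'
    rw [hIoc] at hθ'
    have hne : Complex.exp (θ * Complex.I) ≠ -1 := by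
      intro h
      have h1 : Complex.arg (Complex.exp (θ * Complex.I)) = θ := by
        rw [Complex.exp_mul_I]
        exact Complex.arg_cos_add_sin_mul_I hθ'
      rw [h, Complex.arg_neg_one] at h1
      exact hθ h1.symm
    refine tendsto_const_nhds.congr' ?_
    filter_upwards [mm_eventually hne] with k hk
    rw [hk, one_mul]

/-- the circle mean of a function of `fk` -/
theorem Mc_fk (k : ℕ) (H : ℝ → ℂ → ℂ) :
    Mc (fun z => H (fk k z) z) = (1 / (2 * Real.pi) : ℂ) * ∫ θ in (-Real.pi)..Real.pi,
      H (mm k (Complex.exp (θ * Complex.I)) * xi θ) (Complex.exp (θ * Complex.I)) := by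
  unfold Mc
  congr 1
  refine intervalIntegral.integral_congr fun θ hθ => ?_
  rw [Set.uIcc_of_le (by linarith [Real.pi_pos])] at hθ
  simp only
  rw [fk_exp k hθ]

end Conv

end Crest.Agent.R134
end

-- ▼ part R134/Conv5
section

/-!
# R134 Conv5: a Haar unitary is the `uu` of a semicircular element
-/

set_option autoImplicit false
set_option linter.unusedSectionVars false

universe u

namespace Crest.Agent.R134

open Crest.Agent.R95 Filter Topology MeasureTheory Polynomial
open Crest.Agent.R134.Limit Crest.Agent.R134.Sm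
open scoped Interval

namespace Conv

variable {A : Type u} [CStarAlgebra A] {T : TracialState A}

/-! ### continuity of the functional calculus in the 2-norm -/

theorem cv_pow {a : ℕ → A} {b : A} (h : Cv T a b) (n : ℕ) : Cv T (fun k => a k ^ n) (b ^ n) := by
  induction n with
  | zero => simpa using Cv.const (T := T) (1 : A)
  | succ n ih =>
    simp only [pow_succ]
    exact Cv.mul ih h

theorem cv_aeval {a : ℕ → A} {b : A} (h : Cv T a b) (p : ℂ[X]) :
    Cv T (fun k => aeval (a k) p) (aeval b p) := by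
  induction p using Polynomial.induction_on' with
  | add p q hp hq =>
    simp only [map_add]
    exact Cv.add hp hq
  | monomial n c =>
    simp only [aeval_monomial, Algebra.algebraMap_eq_smul_one, smul_mul_assoc, one_mul]
    exact Cv.smul c (cv_pow h n)

theorem cv_fc {a : ℕ → A} {b : A} {R : ℝ} (h : Cv T a b) (ha : ∀ k, IsSelfAdjoint (a k))
    (hb : IsSelfAdjoint b) (hR : ∀ k, ‖a k‖ ≤ R) (hR' : ‖b‖ ≤ R) {F : ℝ → ℂ} (hF : Continuous F) :
    Cv T (fun k => fc (a k) F) (fc b F) := by
  have hR0 : 0 ≤ R := (norm_nonneg _).trans hR'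
  obtain ⟨C, hC⟩ : ∃ C, ∀ s ∈ Set.Icc (-R) R, ‖F s‖ ≤ C :=
    isCompact_Icc.exists_bound_of_continuousOn hF.continuousOn
  have hC0 : 0 ≤ C := (norm_nonneg _).trans (hC 0 ⟨by linarith, hR0⟩)
  refine ⟨⟨C, fun k => norm_fc_le (ha k) hC0 (hR k) hC⟩, ?_⟩
  rw [Metric.tendsto_atTop]
  intro ε hε
  obtain ⟨p, hp⟩ := exists_poly_near hF R (ε := ε / 3) (by positivity)
  obtain ⟨K, hK⟩ := (Metric.tendsto_atTop.1 (cv_aeval h p).2) (ε / 3) (by positivity)
  refine ⟨K, fun k hk => ?_⟩
  have h1 := hK k hk
  rw [Real.dist_0_eq_abs, abs_of_nonneg (T.nrm2_nonneg _)] at h1 ⊢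
  have e1 : ∀ c : A, IsSelfAdjoint c → ‖c‖ ≤ R → T.nrm2 (fc c F - aeval c p) ≤ ε / 3 := by
    intro c hc hcR
    rw [← fc_poly hc p, ← fc_sub hF (continuous_eval p)]
    refine (T.nrm2_le_norm _).trans (norm_fc_le hc (by positivity) hcR fun s hs => ?_)
    rw [norm_sub_rev]
    exact hp s hs
  have h2 := e1 (a k) (ha k) (hR k)
  have h3 := e1 b hb hR'
  have h4 := T.nrm2_triangle (fc (a k) F) (aeval (a k) p) (fc b F)
  have h5 := T.nrm2_triangle (aeval (a k) p) (aeval b p) (fc b F)
  rw [T.nrm2_sub_comm (aeval b p) (fc b F)] at h5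
  linarith

/-! ### the approximations -/

/-- `f_k (u)` -/
noncomputable def Xk (u : A) (k : ℕ) : A := cfc (fun z : ℂ => (fk k z : ℂ)) u

theorem fkc_continuousOn (k : ℕ) : ContinuousOn (fun z : ℂ => (fk k z : ℂ)) Sp :=
  Complex.continuous_ofReal.comp_continuousOn (fk_continuousOn k)

theorem Xk_sa (u : A) (k : ℕ) : IsSelfAdjoint (Xk u k) := by
  unfold Xk
  show star (cfc (fun z : ℂ => (fk k z : ℂ)) u) = _
  rw [← cfc_star]
  congr 1
  funext z
  simp

theorem Xk_norm (u : A) (k : ℕ) : ‖Xk u k‖ ≤ 2 := by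
  refine norm_cfc_le (by norm_num) fun z _ => ?_
  rw [Complex.norm_real, Real.norm_eq_abs]
  exact abs_le.2 (fk_mem k z)

theorem fc_Xk {u : A} (hu : u ∈ unitary A) (k : ℕ) {F : ℝ → ℂ} (hF : Continuous F) :
    fc (Xk u k) F = cfc (fun z => F (fk k z)) u := by
  have hs := spectrum_subset_Sp hu
  unfold fc Xk
  rw [← cfc_comp' (fun z : ℂ => F z.re) (fun z : ℂ => (fk k z : ℂ)) u
    (by fun_prop) ((fkc_continuousOn k).mono hs) (isStarNormal_of_unitary hu)]
  simp

/-- the trace of a function of `Xk` -/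
theorem tau_fc_Xk {u : A} (hu : u ∈ unitary A) (h0 : ∀ n : ℕ, T.τ (u ^ (n + 1)) = 0) {F : ℝ → ℂ}
    (hF : Continuous F) : Tendsto (fun k => T.τ (fc (Xk u k) F)) atTop (𝓝 (Sc F)) := by
  have h1 : ∀ k, T.τ (fc (Xk u k) F) = (1 / (2 * Real.pi) : ℂ) *
      ∫ θ in (-Real.pi)..Real.pi, F (mm k (Complex.exp (θ * Complex.I)) * xi θ) := by
    intro k
    rw [fc_Xk hu k hF]
    have h2 := tau_cfc (T := T) hu h0 (F := fun z => F (fk k z))
      (hF.comp_continuousOn (fk_continuousOn k))
    rw [h2]
    exact Mc_fk k (fun x _ => F x)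
  simp only [h1]
  rw [← integral_xi hF]
  refine Tendsto.const_mul _ ?_
  exact tendsto_cut (G := fun x _ => F x) (by fun_prop)

theorem tendsto_I : Tendsto (fun k : ℕ => ∫ θ in (-Real.pi)..Real.pi,
    (mm k (Complex.exp (θ * Complex.I)) * xi θ - xi θ) ^ 2) atTop (𝓝 0) := by
  have h1 := tendsto_cut (G := fun x θ => (((x - xi θ) ^ 2 : ℝ) : ℂ))
    (by
      have := xi_continuous
      fun_prop)
  have h2 := (Complex.continuous_re.tendsto _).comp h1
  simp only [sub_self, ne_eq, OfNat.ofNat_ne_zero, not_false_eq_true, zero_pow, Complex.ofReal_zero,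
    intervalIntegral.integral_zero, Complex.zero_re] at h2
  refine h2.congr fun k => ?_
  simp only [Function.comp_apply]
  rw [intervalIntegral.integral_ofReal, Complex.ofReal_re]

theorem mc_continuous (k : ℕ) : Continuous fun θ : ℝ => mm k (Complex.exp (θ * Complex.I)) * xi θ :=
  ((mm_continuous k).comp (by fun_prop)).mul xi_continuous

/-- distance between two approximations -/
theorem nrm2_Xk_sub {u : A} (hu : u ∈ unitary A) (h0 : ∀ n : ℕ, T.τ (u ^ (n + 1)) = 0) (k l : ℕ) :
    T.nrm2 (Xk u k - Xk u l) ^ 2 ≤ (1 / (2 * Real.pi)) *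
      (2 * (∫ θ in (-Real.pi)..Real.pi, (mm k (Complex.exp (θ * Complex.I)) * xi θ - xi θ) ^ 2) +
        2 * ∫ θ in (-Real.pi)..Real.pi, (mm l (Complex.exp (θ * Complex.I)) * xi θ - xi θ) ^ 2) := by
  have hs := spectrum_subset_Sp hu
  have h1 : Xk u k - Xk u l = cfc (fun z : ℂ => (fk k z : ℂ) - (fk l z : ℂ)) u := by
    unfold Xk
    rw [cfc_sub (a := u) _ _ ((fkc_continuousOn k).mono hs) ((fkc_continuousOn l).mono hs)]
  rw [h1, nrm2_cfc_sq (F := fun z : ℂ => (fk k z : ℂ) - (fk l z : ℂ)) hu h0
    ((fkc_continuousOn k).sub (fkc_continuousOn l))]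
  have h2 : Mc (fun z : ℂ => star ((fk k z : ℂ) - (fk l z : ℂ)) * ((fk k z : ℂ) - (fk l z : ℂ))) =
      (((1 / (2 * Real.pi)) * ∫ θ in (-Real.pi)..Real.pi,
        (mm k (Complex.exp (θ * Complex.I)) * xi θ - mm l (Complex.exp (θ * Complex.I)) * xi θ) ^ 2 :
          ℝ) : ℂ) := by
    unfold Mc
    rw [Complex.ofReal_mul, ← intervalIntegral.integral_ofReal]
    push_cast
    congr 1
    refine intervalIntegral.integral_congr fun θ hθ => ?_
    rw [Set.uIcc_of_le (by linarith [Real.pi_pos])] at hθ
    rw [fk_exp k hθ, fk_exp l hθ, ← Complex.ofReal_sub, Complex.star_def, Complex.conj_ofReal]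
    push_cast
    ring
  rw [h2, Complex.ofReal_re]
  refine mul_le_mul_of_nonneg_left ?_ (by positivity)
  have hk := mc_continuous k
  have hl := mc_continuous l
  have hx := xi_continuous
  rw [← intervalIntegral.integral_const_mul, ← intervalIntegral.integral_const_mul,
    ← intervalIntegral.integral_add]
  · refine intervalIntegral.integral_mono_on (by linarith [Real.pi_pos]) ?_ ?_ fun θ _ => ?_
    · exact ((hk.sub hl).pow 2).intervalIntegrable _ _
    · exact ((continuous_const.mul ((hk.sub hx).pow 2)).add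
        (continuous_const.mul ((hl.sub hx).pow 2))).intervalIntegrable _ _
    · nlinarith [sq_nonneg ((mm k (Complex.exp (θ * Complex.I)) * xi θ - xi θ) +
        (mm l (Complex.exp (θ * Complex.I)) * xi θ - xi θ))]
  · exact (continuous_const.mul ((hk.sub hx).pow 2)).intervalIntegrable _ _
  · exact (continuous_const.mul ((hl.sub hx).pow 2)).intervalIntegrable _ _

/-- `uu (Xk u k) → u` -/
theorem Cv_uu_Xk {u : A} (hu : u ∈ unitary A) (h0 : ∀ n : ℕ, T.τ (u ^ (n + 1)) = 0) :
    Cv T (fun k => uu (Xk u k)) u := by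
  have hs := spectrum_subset_Sp hu
  set g : ℝ → ℂ := fun s => Complex.exp (Complex.I * (Θ s : ℂ)) with hg
  have hgc : Continuous g := by
    have := Θ_continuous
    rw [hg]
    fun_prop
  refine ⟨⟨1, fun k => ?_⟩, ?_⟩
  · simp only [uu_eq_fc]
    refine norm_fc_le (Xk_sa u k) zero_le_one le_rfl fun s _ => ?_
    rw [mul_comm, Complex.norm_exp_ofReal_mul_I]
  · have h1 : ∀ k, uu (Xk u k) - u = cfc (fun z : ℂ => g (fk k z) - z) u := by
      intro k
      rw [uu_eq_fc, fc_Xk hu k hgc]
      nth_rewrite 2 [← cfc_id' ℂ u (isStarNormal_of_unitary hu)]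
      rw [← cfc_sub (a := u) (fun z => g (fk k z)) (fun z => z)
        ((hgc.comp_continuousOn (fk_continuousOn k)).mono hs) continuousOn_id]
    have h2 : Tendsto (fun k => T.nrm2 (uu (Xk u k) - u) ^ 2) atTop (𝓝 0) := by
      have h3 : ∀ k, T.nrm2 (uu (Xk u k) - u) ^ 2 = ((1 / (2 * Real.pi) : ℂ) *
          ∫ θ in (-Real.pi)..Real.pi,
            star (g (mm k (Complex.exp (θ * Complex.I)) * xi θ) - Complex.exp (θ * Complex.I)) *
              (g (mm k (Complex.exp (θ * Complex.I)) * xi θ) - Complex.exp (θ * Complex.I))).re := by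
        intro k
        rw [h1, nrm2_cfc_sq (F := fun z : ℂ => g (fk k z) - z) hu h0
          ((hgc.comp_continuousOn (fk_continuousOn k)).sub continuousOn_id)]
        exact congrArg Complex.re (Mc_fk k (fun x z => star (g x - z) * (g x - z)))
      simp only [h3]
      have h4 := tendsto_cut (G := fun x θ => star (g x - Complex.exp (θ * Complex.I)) *
        (g x - Complex.exp (θ * Complex.I))) (by fun_prop)
      have h5 : ∫ θ in (-Real.pi)..Real.pi, star (g (xi θ) - Complex.exp (θ * Complex.I)) *
          (g (xi θ) - Complex.exp (θ * Complex.I)) = 0 := by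
        rw [← intervalIntegral.integral_zero (a := -Real.pi) (b := Real.pi) (μ := volume)]
        refine intervalIntegral.integral_congr fun θ hθ => ?_
        rw [Set.uIcc_of_le (by linarith [Real.pi_pos])] at hθ
        simp only [hg]
        rw [Θ_xi hθ, mul_comm Complex.I, sub_self, mul_zero]
      rw [h5] at h4
      have h6 := (Complex.continuous_re.tendsto _).comp (h4.const_mul (1 / (2 * Real.pi) : ℂ))
      rw [mul_zero, Complex.zero_re] at h6
      exact h6
    have h7 := (Real.continuous_sqrt.tendsto _).comp h2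
    rw [Real.sqrt_zero] at h7
    refine h7.congr fun k => ?_
    simp only [Function.comp_apply]
    exact Real.sqrt_sq (T.nrm2_nonneg _)

theorem tau_pow_of_freeHaar {G : Set A} (h1 : (1 : A) ∈ G) {u : A} (hu : FreeHaar T G u) (n : ℕ) :
    T.τ (u ^ (n + 1)) = 0 := by
  have := tau_pw h1 hu true n
  simpa [pw, sg] using this

theorem cfc_mem_W {u : A} {F : ℂ → ℂ} : cfc F u ∈ W T {u} := by
  have h1 : cfc F u ∈ StarAlgebra.elemental ℂ u := cfc_mem_elemental F u
  have h2 : StarAlgebra.elemental ℂ u ≤ W T {u} := by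
    refine StarSubalgebra.topologicalClosure_minimal ?_ (isClosed_W T _)
    exact adjoin_le_W T _
  exact h2 h1

/-- existence of the semicircular variable -/
theorem exists_X (hT : Amb T) {u : A} (hu : u ∈ unitary A) (h0 : ∀ n : ℕ, T.τ (u ^ (n + 1)) = 0) :
    ∃ X : A, IsSelfAdjoint X ∧ ‖X‖ ≤ 2 ∧ uu X = u ∧ X ∈ W T {u} ∧
      ∀ F : ℝ → ℂ, Continuous F → T.τ (fc X F) = Sc F := by
  obtain ⟨X, hX2, hX⟩ := hT.complete (Xk u) 2 (Xk_norm u) (by
    intro ε hε
    have h1 := tendsto_I
    rw [Metric.tendsto_atTop] at h1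
    obtain ⟨K, hK⟩ := h1 (ε ^ 2) (by positivity)
    refine ⟨K, fun k hk l hl => ?_⟩
    have h2 := hK k hk
    have h3 := hK l hl
    rw [Real.dist_0_eq_abs] at h2 h3
    have h4 := nrm2_Xk_sub (T := T) hu h0 k l
    have h5 := le_abs_self (∫ θ in (-Real.pi)..Real.pi,
      (mm k (Complex.exp (θ * Complex.I)) * xi θ - xi θ) ^ 2)
    have h6 := le_abs_self (∫ θ in (-Real.pi)..Real.pi,
      (mm l (Complex.exp (θ * Complex.I)) * xi θ - xi θ) ^ 2)
    have h7 : T.nrm2 (Xk u k - Xk u l) ^ 2 < ε ^ 2 := by
      refine h4.trans_lt ?_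
      have h8 : 1 / (2 * Real.pi) ≤ 1 / 6 :=
        one_div_le_one_div_of_le (by norm_num) (by linarith [Real.pi_gt_three])
      have h9 : 0 < 1 / (2 * Real.pi) := by positivity
      nlinarith
    exact lt_of_pow_lt_pow_left₀ 2 hε.le h7)
  have hcv : Cv T (Xk u) X := ⟨⟨2, Xk_norm u⟩, hX⟩
  have hsa : IsSelfAdjoint X := by
    have h1 := Cv.star hcv
    have h2 : (fun k => star (Xk u k)) = Xk u := by
      funext k
      exact Xk_sa u k
    rw [h2] at h1
    exact Cv.unique hT.faithful h1 hcv
  have hfc : ∀ F : ℝ → ℂ, Continuous F → Cv T (fun k => fc (Xk u k) F) (fc X F) :=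
    fun F hF => cv_fc hcv (Xk_sa u) hsa (Xk_norm u) hX2 hF
  refine ⟨X, hsa, hX2, ?_, ?_, fun F hF => ?_⟩
  · have h1 := hfc (fun s => Complex.exp (Complex.I * (Θ s : ℂ)))
      (by
        have := Θ_continuous
        fun_prop)
    exact Cv.unique hT.faithful h1 (Cv_uu_Xk hu h0)
  · refine mem_W_of_approx T fun ε hε => ?_
    obtain ⟨K, hK⟩ := (Metric.tendsto_atTop.1 hX) ε hε
    refine ⟨Xk u K, cfc_mem_W, ?_⟩
    have := hK K le_rfl
    rwa [Real.dist_0_eq_abs, abs_of_nonneg (T.nrm2_nonneg _), T.nrm2_sub_comm] at this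
  · exact tendsto_nhds_unique (Cv.tau (hfc F hF)) (tau_fc_Xk hu h0 hF)

end Conv

end Crest.Agent.R134
end

-- ▼ part R134/Conv

/-!
# R134 Conv: main results

* `exists_semicircular` : a Haar unitary free from `W T S` is `uu X` for a semicircular `X` free from
  `W T S`.
-/

set_option autoImplicit false
set_option linter.unusedSectionVars false

universe u

namespace Crest.Agent.R134

open Crest.Agent.R95 Filter Topology MeasureTheory Polynomial
open Crest.Agent.R134.Limit Crest.Agent.R134.Sm

namespace Conv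

variable {A : Type u} [CStarAlgebra A] {T : TracialState A}

/-! ### one variable Schwinger-Dyson from Chebyshev moments -/

variable (T) in
/-- the pair of a Chebyshev polynomial -/
noncomputable def chp (X : A) (n : ℕ) : PP A :=
  (ch X n, fun p q => ∑ a ∈ Finset.range n, T.τ (p * ch X a) * T.τ (ch X (n - 1 - a) * q))

theorem X_mul_ch (X : A) (n : ℕ) : X * ch X (n + 1) = ch X (n + 2) + ch X n := by
  rw [ch_add_two]
  abel

theorem lmX_chp_zero (X : A) : lmX T X (chp T X 0) = chp T X 1 := by
  ext p q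
  · simp [lmX, chp]
  · simp [lmX, chp]

theorem lmX_chp_succ (X : A) (n : ℕ) :
    lmX T X (chp T X (n + 1)) = chp T X (n + 2) + chp T X n := by
  ext p q
  · simp only [lmX, chp, Prod.fst_add]
    exact X_mul_ch X n
  · simp only [lmX, chp, Prod.snd_add, Pi.add_apply]
    have e1 : ∑ a ∈ Finset.range (n + 1), T.τ (p * X * ch X a) * T.τ (ch X (n + 1 - 1 - a) * q) =
        ∑ a ∈ Finset.range (n + 1), T.τ (p * ch X (a + 1)) * T.τ (ch X (n - a) * q) +
        ∑ a ∈ Finset.range n, T.τ (p * ch X a) * T.τ (ch X (n - 1 - a) * q) := by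
      rw [Finset.sum_range_succ', Finset.sum_range_succ' (fun a => T.τ (p * ch X (a + 1)) * _)]
      have e2 : ∀ a ∈ Finset.range n, T.τ (p * X * ch X (a + 1)) *
          T.τ (ch X (n + 1 - 1 - (a + 1)) * q) =
          T.τ (p * ch X (a + 1 + 1)) * T.τ (ch X (n - (a + 1)) * q) +
          T.τ (p * ch X a) * T.τ (ch X (n - 1 - a) * q) := by
        intro a _
        rw [mul_assoc p X, X_mul_ch, mul_add, map_add]
        have h1 : n + 1 - 1 - (a + 1) = n - (a + 1) := by omega
        have h2 : n - 1 - a = n - (a + 1) := by omega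
        rw [h1, h2]
        ring
      rw [Finset.sum_congr rfl e2, Finset.sum_add_distrib]
      simp only [ch_zero, ch_one, mul_one, zero_add, Nat.sub_zero, Nat.add_sub_cancel]
      ring
    rw [e1]
    rw [Finset.sum_range_succ' (fun a => T.τ (p * ch X a) * T.τ (ch X (n + 2 - 1 - a) * q))]
    have e3 : ∑ a ∈ Finset.range (n + 1), T.τ (p * ch X (a + 1)) *
        T.τ (ch X (n + 2 - 1 - (a + 1)) * q) =
        ∑ a ∈ Finset.range (n + 1), T.τ (p * ch X (a + 1)) * T.τ (ch X (n - a) * q) := by
      refine Finset.sum_congr rfl fun a _ => ?_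
      have h1 : n + 2 - 1 - (a + 1) = n - a := by omega
      rw [h1]
    rw [e3]
    simp only [ch_zero, mul_one, Nat.sub_zero]
    have h4 : n + 2 - 1 = n + 1 := by omega
    rw [h4]
    ring

theorem mem_chp {X c : A} {D : A → A → ℂ} (h : Der T ∅ X c D) :
    ((c, D) : PP A) ∈ Submodule.span ℂ (Set.range (chp T X)) := by
  refine mem_of_stable (T := T) (X := X) _ ?_ ?_ ?_ ?_ h
  · refine Submodule.subset_span ⟨0, ?_⟩
    ext p q <;> simp [chp]
  · intro P hP
    refine LinL.span ?_ hP
    rintro _ ⟨n, rfl⟩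
    refine ⟨fun p p' q => ?_, fun r p q => ?_⟩
    · simp only [chp, add_mul, map_add, Finset.sum_add_distrib]
    · simp only [chp, smul_mul_assoc, map_smul, smul_eq_mul, Finset.mul_sum, mul_assoc]
  · intro P hP
    refine lmX_mem_span ?_ hP
    rintro _ ⟨n, rfl⟩
    cases n with
    | zero =>
      rw [lmX_chp_zero]
      exact Submodule.subset_span ⟨1, rfl⟩
    | succ n =>
      rw [lmX_chp_succ]
      exact Submodule.add_mem _ (Submodule.subset_span ⟨n + 2, rfl⟩)
        (Submodule.subset_span ⟨n, rfl⟩)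
  · intro g hg
    exact absurd hg (Set.notMem_empty g)

/-- The one variable Schwinger-Dyson equation from the Chebyshev moments. -/
theorem sd_single' {X : A} (hm : ∀ n : ℕ, T.τ (ch X (n + 1)) = 0) {c : A} {D : A → A → ℂ}
    (h : Der T ∅ X c D) : T.τ (X * c) = D 1 1 := by
  have h1 := mem_chp h
  have hm' : ∀ n : ℕ, T.τ (ch X n) = if n = 0 then 1 else 0 := by
    intro n
    cases n with
    | zero => simp [T.one]
    | succ n => simpa using hm n
  have key : ∀ P ∈ Submodule.span ℂ (Set.range (chp T X)), T.τ (X * P.1) = P.2 1 1 := by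
    intro P hP
    induction hP using Submodule.span_induction with
    | mem P hP =>
      obtain ⟨n, rfl⟩ := hP
      simp only [chp, one_mul, mul_one, hm']
      cases n with
      | zero =>
        have := hm 0
        simpa using this
      | succ n =>
        rw [X_mul_ch, map_add, hm', hm']
        rw [Finset.sum_eq_single 0]
        · cases n with
          | zero => simp
          | succ n => simp
        · intro b _ hb
          rw [if_neg hb, zero_mul]
        · intro h
          exact absurd (Finset.mem_range.2 (Nat.succ_pos n)) h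
    | zero => simp
    | add P P' _ _ hP hP' =>
      simp only [Prod.fst_add, Prod.snd_add, mul_add, map_add, Pi.add_apply, hP, hP']
    | smul r P _ hP =>
      simp only [Prod.smul_fst, Prod.smul_snd, mul_smul_comm, map_smul, Pi.smul_apply, hP]
  exact key _ h1

/-- **main construction** -/
theorem exists_semicircular (hT : Amb T) {S : Set A} {u : A} (h : FreeHaar T (W T S : Set A) u) :
    ∃ X : A, SD T (W T S : Set A) X ∧ ‖X‖ ≤ 2 ∧ uu X = u ∧ X ∈ W T {u} := by
  have h1 : (1 : A) ∈ (W T S : Set A) := one_mem (W T S)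
  obtain ⟨X, hsa, hX2, huX, hXW, hlaw⟩ := exists_X hT h.1 (tau_pow_of_freeHaar h1 h)
  have hch : ∀ n : ℕ, T.τ (ch X (n + 1)) = 0 := by
    intro n
    have h2 := hlaw (fun s => (ch (Polynomial.X : ℂ[X]) (n + 1)).eval (s : ℂ)) (continuous_eval _)
    rw [fc_poly hsa, aeval_ch] at h2
    rw [h2]
    simp only [eval_ch]
    exact Sc_ch n
  refine ⟨X, ?_, hX2, huX, hXW⟩
  refine sd_of_free (C := W T {u}) hsa hXW ?_ (freeL_W h1 h) fun c D hD => sd_single' hch hD
  have := hch 0
  simpa using this

end Conv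

end Crest.Agent.R134
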