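import Mathlib
import Crest.Agent.R134.Data
import Crest.Agent.R95.Bridge
import Crest.Agent.R95.Factor5

-- ▼ part R134/FGWords
section

/-!
R134 (helper127): free group combinatorics.
-/

set_option autoImplicit false
set_option linter.unusedSectionVars false

namespace Crest.Agent.R134

open FreeGroup

variable {α : Type*} [DecidableEq α]

/-- the subgroup of elements whose reduced word only uses letters from `E` -/
def letterSub (E : Set α) : Subgroup (FreeGroup α) where
  carrier := {g | ∀ p ∈ g.toWord, p.1 ∈ E}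
  one_mem' := by simp
  mul_mem' := by
    intro a b ha hb p hp
    have := (toWord_mul_sublist a b).subset hp
    rcases List.mem_append.1 this with h | h
    · exact ha p h
    · exact hb p h
  inv_mem' := by
    intro a ha p hp
    rw [toWord_inv, invRev, List.mem_reverse, List.mem_map] at hp
    obtain ⟨q, hq, rfl⟩ := hp
    exact ha q hq


theorem of_mem_letterSub {E : Set α} {a : α} (ha : a ∈ E) : of a ∈ letterSub E := by
  intro p hp
  rw [toWord_of, List.mem_singleton] at hp
  rw [hp]
  exact ha

theorem mk_singleton (p : α × Bool) : (mk [p] : FreeGroup α) = if p.2 then of p.1 else (of p.1)⁻¹ := by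
  obtain ⟨a, b⟩ := p
  cases b
  · simp [of, invRev]
  · simp [of]

/-- induction principle: an element of `letterSub E` is a product of letters -/
theorem letterSub_le {E : Set α} {K : Subgroup (FreeGroup α)} (h : ∀ a ∈ E, of a ∈ K) :
    letterSub E ≤ K := by
  have key : ∀ L : List (α × Bool), (∀ p ∈ L, p.1 ∈ E) → (mk L : FreeGroup α) ∈ K := by
    intro L
    induction L with
    | nil => intro _; exact K.one_mem
    | cons p L ih =>
      intro hL
      have e : (mk (p :: L) : FreeGroup α) = mk [p] * mk L := by rw [mul_mk]; rfl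
      rw [e]
      refine K.mul_mem ?_ (ih (fun q hq => hL q (List.mem_cons_of_mem _ hq)))
      have hp := h _ (hL p List.mem_cons_self)
      rw [mk_singleton]
      split_ifs
      · exact hp
      · exact K.inv_mem hp
  intro g hg
  rw [← mk_toWord (x := g)]
  exact key _ hg

theorem letterSub_eq_closure (E : Set α) : letterSub E = Subgroup.closure (of '' E) := by
  apply le_antisymm
  · exact letterSub_le (fun a ha => Subgroup.subset_closure ⟨a, ha, rfl⟩)
  · rw [Subgroup.closure_le]
    rintro _ ⟨a, ha, rfl⟩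
    exact of_mem_letterSub ha

theorem toWord_mul_eq {g h : FreeGroup α}
    (hgh : ∀ x ∈ g.toWord.getLast?, ∀ y ∈ h.toWord.head?, x.1 = y.1 → x.2 = y.2) :
    (g * h).toWord = g.toWord ++ h.toWord := by
  rw [toWord_mul]
  refine IsReduced.reduce_eq ?_
  exact List.isChain_append.2 ⟨isReduced_toWord, isReduced_toWord, hgh⟩

/-- `x^b h w` starts with `x^b` -/
theorem start_mul {x : α} {E : Set α} (hx : x ∉ E) {h w : FreeGroup α} (hh : h ∈ letterSub E)
    {b b' : Bool} (hw : w ∈ startsWith (x, b')) (hne : b ≠ b' → h ≠ 1) :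
    mk [(x, b)] * (h * w) ∈ startsWith (x, b) := by
  refine startsWith_mk_mul (w := (x, b)) _ ?_
  by_cases h1 : h = 1
  · have hb : b = b' := by
      by_contra hb
      exact hne hb h1
    rw [h1, one_mul]
    intro hw'
    unfold startsWith at hw hw'
    simp only [Set.mem_ofPred_eq] at hw hw'
    rw [hw] at hw'
    simp [hb] at hw'
  · have e : (h * w).toWord = h.toWord ++ w.toWord := by
      refine toWord_mul_eq (fun p hp q hq hpq => ?_)
      exfalso
      have h2 : q = (x, b') := by
        unfold startsWith at hw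
        simp only [Set.mem_ofPred_eq] at hw
        rw [List.head?_eq_getElem?, hw] at hq
        simpa using hq.symm
      have h3 := hh p (List.mem_of_mem_getLast? hp)
      rw [hpq, h2] at h3
      exact hx h3
    intro hcon
    unfold startsWith at hcon
    simp only [Set.mem_ofPred_eq] at hcon
    have hne' : h.toWord ≠ [] := fun h' => h1 (toWord_eq_nil_iff.1 h')
    obtain ⟨p, t, hpt⟩ := List.exists_cons_of_ne_nil hne'
    rw [e, hpt] at hcon
    simp only [List.cons_append, List.getElem?_cons_zero, Option.some.injEq] at hcon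
    have h3 := hh p (by rw [hpt]; exact List.mem_cons_self)
    rw [hcon] at h3
    exact hx h3

theorem start_mul' {x : α} {E : Set α} (hx : x ∉ E) {h : FreeGroup α} (hh : h ∈ letterSub E)
    {b : Bool} : mk [(x, b)] * h ∈ startsWith (x, b) := by
  refine startsWith_mk_mul (w := (x, b)) _ ?_
  intro hcon
  unfold startsWith at hcon
  simp only [Set.mem_ofPred_eq] at hcon
  have h3 := hh (x, !b) (List.mem_of_getElem? hcon)
  exact hx h3

/-- stripping powers of a letter -/
theorem exists_strip (a : α) (g : FreeGroup α) : ∃ (p : ℤ) (w : FreeGroup α), g = of a ^ p * w ∧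
    ∀ q ∈ w.toWord.head?, q.1 ≠ a := by
  have key : ∀ L : List (α × Bool), IsReduced L → ∃ (p : ℤ) (w : FreeGroup α),
      (mk L : FreeGroup α) = of a ^ p * w ∧ ∀ q ∈ w.toWord.head?, q.1 ≠ a := by
    intro L
    induction L with
    | nil =>
      intro _
      refine ⟨0, 1, by simp [one_eq_mk], ?_⟩
      simp
    | cons s L ih =>
      intro hL
      by_cases hs : s.1 = a
      · have hL' : IsReduced L := List.IsChain.tail hL
        obtain ⟨p, w, hpw, hw⟩ := ih hL'
        have e : (mk (s :: L) : FreeGroup α) = mk [s] * mk L := by rw [mul_mk]; rfl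
        rw [e, hpw, mk_singleton, hs]
        split_ifs
        · exact ⟨1 + p, w, by rw [zpow_add, zpow_one, mul_assoc], hw⟩
        · exact ⟨-1 + p, w, by rw [zpow_add, zpow_neg_one, mul_assoc], hw⟩
      · refine ⟨0, mk (s :: L), by simp, ?_⟩
        rw [toWord_mk, hL.reduce_eq]
        intro q hq
        simp only [List.head?_cons, Option.mem_def, Option.some.injEq] at hq
        rw [← hq]
        exact hs
  have := key g.toWord isReduced_toWord
  rwa [mk_toWord] at this


/-- an element commuting with a positive power of a letter is a power of the letter -/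
theorem mem_of_commute_pow {a : α} {m : ℕ} (hm : 0 < m) {k : FreeGroup α}
    (h : of a ^ m * k = k * of a ^ m) : k ∈ letterSub ({a} : Set α) := by
  obtain ⟨p, w, rfl, hw⟩ := exists_strip a k
  have hap : of a ^ p ∈ letterSub ({a} : Set α) :=
    Subgroup.zpow_mem _ (of_mem_letterSub (Set.mem_singleton a)) p
  have h1 : of a ^ m * w = w * of a ^ m := by
    have e1 : of a ^ m * (of a ^ p * w) = of a ^ p * (of a ^ m * w) := by
      rw [← mul_assoc, ← mul_assoc]
      congr 1
      exact ((Commute.refl (of a)).pow_left m).zpow_right p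
    rw [e1, mul_assoc] at h
    exact mul_left_cancel h
  by_cases hw1 : w = 1
  · rw [hw1, mul_one]; exact hap
  exfalso
  have hne : w.toWord ≠ [] := fun h' => hw1 (toWord_eq_nil_iff.1 h')
  obtain ⟨q, t, hqt⟩ := List.exists_cons_of_ne_nil hne
  have hq : q.1 ≠ a := hw q (by rw [hqt]; rfl)
  have e1 : (of a ^ m * w).toWord = List.replicate m (a, true) ++ w.toWord := by
    rw [toWord_mul_eq, toWord_of_pow]
    intro x hx y hy hxy
    exfalso
    rw [toWord_of_pow] at hx
    have hx' := List.mem_of_mem_getLast? hx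
    rw [List.mem_replicate] at hx'
    rw [hqt] at hy
    simp only [List.head?_cons, Option.mem_def, Option.some.injEq] at hy
    rw [hx'.2, ← hy] at hxy
    exact hq hxy.symm
  have e2 : (w * of a ^ m).toWord = w.toWord ++ List.replicate m (a, true) := by
    have hsub := toWord_mul_sublist w (of a ^ m)
    rw [toWord_of_pow] at hsub
    refine hsub.eq_of_length ?_
    rw [← h1, e1, List.length_append, List.length_append, add_comm]
  rw [← h1, e1, hqt] at e2
  obtain ⟨m', rfl⟩ := Nat.exists_eq_succ_of_ne_zero hm.ne'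
  rw [List.replicate_succ] at e2
  simp only [List.cons_append, List.cons.injEq] at e2
  exact hq (by rw [← e2.1])

/-- infinitely many conjugates -/
theorem conj_injective {a : α} {k : FreeGroup α} (hk : k ∉ letterSub ({a} : Set α)) :
    Function.Injective (fun m : ℕ => of a ^ m * k * (of a ^ m)⁻¹) := by
  have key : ∀ m l : ℕ, m < l → of a ^ m * k * (of a ^ m)⁻¹ ≠ of a ^ l * k * (of a ^ l)⁻¹ := by
    intro m l hml h
    apply hk
    refine mem_of_commute_pow (a := a) (m := l - m) (by omega) ?_
    have hl : of a ^ l = of a ^ m * of a ^ (l - m) := by rw [← pow_add]; congr 1; omega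
    rw [hl] at h
    have h2 : k = of a ^ (l - m) * k * (of a ^ (l - m))⁻¹ := by
      have h3 : of a ^ m * k * (of a ^ m)⁻¹ =
          of a ^ m * (of a ^ (l - m) * k * (of a ^ (l - m))⁻¹) * (of a ^ m)⁻¹ := by
        rw [h]; group
      exact mul_left_cancel (mul_right_cancel h3)
    nth_rewrite 2 [h2]
    group
  intro m l h
  rcases lt_trichotomy m l with hlt | heq | hgt
  · exact absurd h (key m l hlt)
  · exact heq
  · exact absurd h.symm (key l m hgt)

end Crest.Agent.R134
end

-- ▼ part R134/Icc
section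

/-!
R134 (helper127): a trace preserving copy of an ICC group generates a II₁ factor.
-/

set_option autoImplicit false
set_option linter.unusedSectionVars false

open scoped InnerProductSpace ENNReal
open Filter Topology

namespace Crest.Agent.R134

open Crest.OpAlg Crest.Agent.R95

section span

variable {B : Type*} [Ring B] [StarRing B] [Algebra ℂ B] [StarModule ℂ B] {K : Type*} [Group K]

/-- the span of the image of a unitary representation is a star subalgebra -/
def spanSub (π : K →* B) (hstar : ∀ k, star (π k) = π k⁻¹) : StarSubalgebra ℂ B where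
  carrier := Submodule.span ℂ (Set.range π)
  mul_mem' := by
    intro a b ha hb
    have ha' : a ∈ Submodule.span ℂ (Set.range π) := ha
    have hb' : b ∈ Submodule.span ℂ (Set.range π) := hb
    have h1 := Submodule.mul_mem_mul ha' hb'
    rw [Submodule.span_mul_span] at h1
    refine Submodule.span_mono ?_ h1
    rintro _ ⟨_, ⟨k, rfl⟩, _, ⟨l, rfl⟩, rfl⟩
    exact ⟨k * l, map_mul π k l⟩
  add_mem' := fun ha hb => add_mem ha hb
  algebraMap_mem' := by
    intro r
    rw [Algebra.algebraMap_eq_smul_one]
    exact Submodule.smul_mem _ r (Submodule.subset_span ⟨1, map_one π⟩)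
  star_mem' := by
    intro a ha
    have ha' : a ∈ Submodule.span ℂ (Set.range π) := ha
    change star a ∈ Submodule.span ℂ (Set.range π)
    induction ha' using Submodule.span_induction with
    | mem x hx =>
      obtain ⟨k, rfl⟩ := hx
      rw [hstar]
      exact Submodule.subset_span ⟨_, rfl⟩
    | zero => rw [star_zero]; exact zero_mem _
    | add x y hx hy h1 h2 => rw [star_add]; exact add_mem (h1 hx) (h2 hy)
    | smul c x hx h1 => rw [star_smul]; exact Submodule.smul_mem _ _ (h1 hx)

theorem adjoin_le_spanSub (π : K →* B) (hstar : ∀ k, star (π k) = π k⁻¹) :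
    StarAlgebra.adjoin ℂ (Set.range π) ≤ spanSub π hstar :=
  StarAlgebra.adjoin_le Submodule.subset_span

end span

section icc

variable {H : Type*} [NormedAddCommGroup H] [InnerProductSpace ℂ H] [CompleteSpace H]
variable {M : VonNeumannAlgebra H} {ξ : ℕ → H} {K : Type*} [Group K]

theorem orthonormal_io (hξ : IsFaithfulTracialVectorState M ξ) (π : K →* (H →L[ℂ] H))
    (hstar : ∀ k, star (π k) = π k⁻¹) (htr : ∀ k, k ≠ 1 → tr ξ (π k) = 0) :
    Orthonormal ℂ (fun k => io (sqSum hξ) (π k)) := by
  classical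
  rw [orthonormal_iff_ite]
  intro i j
  rw [← tr_star_mul (sqSum hξ), hstar, ← map_mul]
  by_cases hij : i = j
  · subst hij
    rw [if_pos rfl, inv_mul_cancel, map_one, tr_one hξ]
  · rw [if_neg hij]
    exact htr _ (fun h => hij (inv_mul_eq_one.1 h))

theorem eq_zero_of_orth (hξ : IsFaithfulTracialVectorState M ξ) (π : K →* (H →L[ℂ] H))
    (hmem : ∀ k, π k ∈ M) (hstar : ∀ k, star (π k) = π k⁻¹) {y : H →L[ℂ] H}
    (hyN : y ∈ vnGen (Set.range π)) (hyort : ∀ k, tr ξ (star (π k) * y) = 0) : y = 0 := by
  have hle : vnGen (Set.range π) ≤ M := vnGen_le (by rintro _ ⟨k, rfl⟩; exact hmem k)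
  have hspan : ∀ a ∈ Submodule.span ℂ (Set.range π), tr ξ (star a * y) = 0 := by
    intro a ha
    induction ha using Submodule.span_induction with
    | mem a ha => obtain ⟨k, rfl⟩ := ha; exact hyort k
    | zero => simp
    | add a b _ _ h1 h2 => rw [star_add, add_mul, tr_add (sqSum hξ), h1, h2, add_zero]
    | smul c a _ h1 => rw [star_smul, smul_mul_assoc, tr_smul (sqSum hξ), h1, mul_zero]
  refine eq_zero_of_N2 hξ (hle hyN) ?_
  by_contra hne
  have hpos : 0 < N2 ξ y := lt_of_le_of_ne (N2_nonneg _) (Ne.symm hne)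
  obtain ⟨a, ha, hay⟩ := exists_near_of_mem_vnGen (sqSum hξ) hyN hpos
  have ha' : a ∈ Submodule.span ℂ (Set.range π) := adjoin_le_spanSub π hstar ha
  have h1 : tr ξ (star y * y) = tr ξ (star (y - a) * y) := by
    rw [star_sub, sub_mul, tr_sub (sqSum hξ), hspan a ha', sub_zero]
  have h2 := norm_tr_star_mul_le (sqSum hξ) (y - a) y
  rw [← h1, tr_star_mul_self (sqSum hξ), Complex.norm_real, Real.norm_of_nonneg (by positivity),
    N2_sub_comm y a] at h2
  nlinarith

theorem isII1_of_icc [Nontrivial K] (hξ : IsFaithfulTracialVectorState M ξ)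
    (π : K →* (H →L[ℂ] H)) (hmem : ∀ k, π k ∈ M)
    (hstar : ∀ k, star (π k) = π k⁻¹) (htr : ∀ k, k ≠ 1 → tr ξ (π k) = 0)
    (icc : ∀ k : K, k ≠ 1 → ∃ s : ℕ → K, Function.Injective fun m => s m * k * (s m)⁻¹) :
    IsII1 (vnGen (Set.range π)) ξ := by
  have hle : vnGen (Set.range π) ≤ M := vnGen_le (by rintro _ ⟨k, rfl⟩; exact hmem k)
  have hon := orthonormal_io hξ π hstar htr
  refine ⟨?_, ?_, ?_⟩
  · -- factor
    intro x hx hcomm
    have hxM : x ∈ M := hle hx
    refine ⟨tr ξ x, ?_⟩
    set f : K → ℂ := fun k => tr ξ (star (π k) * x) with hf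
    have hfio : ∀ k, f k = ⟪io (sqSum hξ) (π k), io (sqSum hξ) x⟫_ℂ := fun k =>
      tr_star_mul (sqSum hξ) _ _
    have hinv : ∀ s k, f (s * k * s⁻¹) = f k := by
      intro s k
      have hs : π s * x = x * π s := (hcomm _ (subset_vnGen _ _ ⟨s, rfl⟩)).symm
      simp only [hf]
      rw [hstar, mul_inv_rev, mul_inv_rev, inv_inv, map_mul, map_mul, hstar]
      have e1 : π s * (π k⁻¹ * π s⁻¹) * x = π s * (π k⁻¹ * (π s⁻¹ * x)) := by
        simp only [mul_assoc]
      have hs' : π s⁻¹ * x = x * π s⁻¹ := (hcomm _ (subset_vnGen _ _ ⟨s⁻¹, rfl⟩)).symm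
      rw [e1, hs', tr_mul_comm hξ (hmem s) (mul_mem (hmem _) (mul_mem hxM (hmem _)))]
      rw [mul_assoc, mul_assoc, ← map_mul, inv_mul_cancel, map_one, mul_one]
    have hsum : Summable fun k => ‖f k‖ ^ 2 := by
      simp_rw [hfio]
      exact hon.inner_products_summable (x := io (sqSum hξ) x)
    have hzero : ∀ k, k ≠ 1 → f k = 0 := by
      intro k hk
      obtain ⟨s, hs⟩ := icc k hk
      have h2 := (hsum.comp_injective hs).tendsto_atTop_zero
      have h3 : (fun m => ((fun k => ‖f k‖ ^ 2) ∘ fun m => s m * k * (s m)⁻¹) m) =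
          fun _ => ‖f k‖ ^ 2 := by
        funext m
        simp only [Function.comp_apply]
        rw [hinv]
      have h5 : Tendsto (fun _ : ℕ => ‖f k‖ ^ 2) atTop (𝓝 0) := by
        rw [← h3]; exact h2
      have h6 := tendsto_nhds_unique tendsto_const_nhds h5
      exact norm_eq_zero.1 (pow_eq_zero_iff (two_ne_zero) |>.1 h6)
    -- `y = x - τ(x)`
    set y := x - tr ξ x • (1 : H →L[ℂ] H) with hy
    have hyN : y ∈ vnGen (Set.range π) := sub_mem hx (smul_mem' _ (one_mem _))
    have hyort : ∀ k, tr ξ (star (π k) * y) = 0 := by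
      intro k
      rw [hy, mul_sub, mul_smul_comm, mul_one, tr_sub (sqSum hξ), tr_smul (sqSum hξ)]
      by_cases hk : k = 1
      · subst hk
        rw [map_one, star_one, one_mul, tr_one hξ, mul_one, sub_self]
      · have h1 := hzero k hk
        simp only [hf] at h1
        rw [h1, hstar, htr _ (fun h => hk (inv_eq_one.1 h)), mul_zero, sub_zero]
    have hy0 : y = 0 := eq_zero_of_orth hξ π hmem hstar hyN hyort
    rw [hy, sub_eq_zero] at hy0
    exact hy0
  · -- infinite dimensional
    intro hfd
    obtain ⟨k, hk⟩ := exists_ne (1 : K)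
    obtain ⟨s, hs⟩ := icc k hk
    let ev : (vnGen (Set.range π)).toStarSubalgebra →ₗ[ℂ] L2 H :=
      { toFun := fun x => io (sqSum hξ) (x : H →L[ℂ] H)
        map_add' := fun x y => map_add _ _ _
        map_smul' := fun c x => map_smul _ _ _ }
    let y : ℕ → (vnGen (Set.range π)).toStarSubalgebra :=
      fun m => ⟨π (s m * k * (s m)⁻¹), subset_vnGen _ _ ⟨_, rfl⟩⟩
    have hli : LinearIndependent ℂ y := by
      have h1 := (hon.comp _ hs).linearIndependent
      have h2 : ((fun k => io (sqSum hξ) (π k)) ∘ fun m => s m * k * (s m)⁻¹) = ev ∘ y := rfl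
      rw [h2] at h1
      exact h1.of_comp ev
    have := hli.lt_aleph0_of_finiteDimensional
    simp at this
  · exact ⟨hξ.1, fun x hx y hy => hξ.2.1 x (hle hx) y (hle hy),
      fun x hx h => hξ.2.2 x (hle hx) h⟩

end icc

section free

variable {α : Type*} [DecidableEq α]

/-- free groups with two letters are ICC -/
theorem icc_freeGroup {a b : α} (hab : a ≠ b) (k : FreeGroup α) (hk : k ≠ 1) :
    ∃ s : ℕ → FreeGroup α, Function.Injective fun m => s m * k * (s m)⁻¹ := by
  by_cases h1 : k ∈ letterSub ({a} : Set α)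
  · have h2 : k ∉ letterSub ({b} : Set α) := by
      intro h2
      apply hk
      rw [← FreeGroup.toWord_eq_nil_iff]
      by_contra hne
      obtain ⟨p, t, hpt⟩ := List.exists_cons_of_ne_nil hne
      have e1 := h1 p (by rw [hpt]; exact List.mem_cons_self)
      have e2 := h2 p (by rw [hpt]; exact List.mem_cons_self)
      rw [Set.mem_singleton_iff] at e1 e2
      exact hab (e1.symm.trans e2)
    exact ⟨_, conj_injective h2⟩
  · exact ⟨_, conj_injective h1⟩

end free

end Crest.Agent.R134
end

-- ▼ part R134/WordTrace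
section

/-!
R134 (helper127): traces of words in a free group representation, from `FreeHaar`.
-/

set_option autoImplicit false
set_option linter.unusedSectionVars false

namespace Crest.Agent.R134

open Crest.Agent.R95 FreeGroup

variable {A : Type*} [CStarAlgebra A] {T : TracialState A} {α : Type*} [DecidableEq α]

theorem coe_lift_mk_singleton (U : α → unitary A) (p : α × Bool) :
    ((FreeGroup.lift U (mk [p]) : unitary A) : A) = sg (U p.1 : A) p.2 := by
  rw [mk_singleton]
  unfold sg
  split_ifs with h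
  · rw [lift_apply_of]
  · rw [_root_.map_inv, lift_apply_of]; rfl

theorem coe_lift_mk_cons (U : α → unitary A) (p : α × Bool) (L : List (α × Bool)) :
    ((FreeGroup.lift U (mk (p :: L)) : unitary A) : A) =
      sg (U p.1 : A) p.2 * ((FreeGroup.lift U (mk L) : unitary A) : A) := by
  have e : (mk (p :: L) : FreeGroup α) = mk [p] * mk L := by rw [mul_mk]; rfl
  rw [e, _root_.map_mul, Submonoid.coe_mul, coe_lift_mk_singleton]

theorem sg_mem_wt {G : StarSubalgebra ℂ A} {u : A} (hu : u ∈ G) (b : Bool) : sg u b ∈ G := by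
  unfold sg
  split_ifs
  · exact hu
  · exact star_mem hu

theorem lift_mem {G : StarSubalgebra ℂ A} (U : α → unitary A) (L : List (α × Bool))
    (h : ∀ p ∈ L, (U p.1 : A) ∈ G) : ((FreeGroup.lift U (mk L) : unitary A) : A) ∈ G := by
  induction L with
  | nil =>
    have : (mk ([] : List (α × Bool)) : FreeGroup α) = 1 := rfl
    rw [this, _root_.map_one]
    exact one_mem G
  | cons p L ih =>
    rw [coe_lift_mk_cons]
    exact mul_mem (sg_mem_wt (h p List.mem_cons_self) _)
      (ih (fun q hq => h q (List.mem_cons_of_mem _ hq)))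

theorem dec_wt {G : StarSubalgebra ℂ A} {z : α} (U : α → unitary A)
    (hG : ∀ i, i ≠ z → (U i : A) ∈ G)
    (htr : ∀ k ∈ letterSub {i : α | i ≠ z}, k ≠ 1 →
      T.τ ((FreeGroup.lift U k : unitary A) : A) = 0) :
    ∀ L : List (α × Bool), IsReduced L → ∃ (P : List (α × Bool)) (l : List (Bool × A)),
      (∀ p ∈ P, p.1 ≠ z) ∧ ((l = [] ∧ P = L) ∨ (∃ b g t L', l = (b, g) :: t ∧
        L = P ++ (z, b) :: L')) ∧ (∀ p ∈ l, p.2 ∈ G) ∧ Alt T l ∧
      ((FreeGroup.lift U (mk L) : unitary A) : A) =
        ((FreeGroup.lift U (mk P) : unitary A) : A) * word (U z : A) l := by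
  intro L
  induction L with
  | nil =>
    intro _
    refine ⟨[], [], by simp, Or.inl ⟨rfl, rfl⟩, by simp, trivial, ?_⟩
    simp [word]
  | cons q L ih =>
    intro hL
    have hL' : IsReduced L := List.IsChain.tail hL
    obtain ⟨P, l, hP, hstruct, hlG, halt, heq⟩ := ih hL'
    obtain ⟨i, b⟩ := q
    by_cases hi : i = z
    · subst hi
      refine ⟨[], (b, ((FreeGroup.lift U (mk P) : unitary A) : A)) :: l, by simp,
        Or.inr ⟨b, _, l, L, rfl, rfl⟩, ?_, ?_, ?_⟩
      · intro p hp
        rcases List.mem_cons.1 hp with rfl | hp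
        · exact lift_mem U P (fun p hp => hG _ (hP p hp))
        · exact hlG p hp
      · rcases hstruct with ⟨rfl, rfl⟩ | ⟨b', g, t, L', rfl, rfl⟩
        · trivial
        · refine ⟨fun hb => ?_, halt⟩
          have hPne : P ≠ [] := by
            rintro rfl
            rw [List.nil_append] at hL
            have := (List.isChain_cons_cons.1 hL).1 rfl
            exact hb this
          have hPred : IsReduced P := List.IsChain.left_of_append hL'
          apply htr
          · intro p hp
            rw [toWord_mk, hPred.reduce_eq] at hp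
            exact hP p hp
          · intro h1
            rw [← toWord_eq_nil_iff, toWord_mk, hPred.reduce_eq] at h1
            exact hPne h1
      · rw [coe_lift_mk_cons, heq]
        have e1 : (mk ([] : List (α × Bool)) : FreeGroup α) = 1 := rfl
        rw [e1, _root_.map_one, OneMemClass.coe_one, one_mul]
        simp only [word]
        rw [mul_assoc]
    · refine ⟨(i, b) :: P, l, ?_, ?_, hlG, halt, ?_⟩
      · intro p hp
        rcases List.mem_cons.1 hp with rfl | hp
        · exact hi
        · exact hP p hp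
      · rcases hstruct with ⟨rfl, rfl⟩ | ⟨b', g, t, L', rfl, rfl⟩
        · exact Or.inl ⟨rfl, rfl⟩
        · exact Or.inr ⟨b', g, t, L', rfl, rfl⟩
      · rw [coe_lift_mk_cons, coe_lift_mk_cons, heq, mul_assoc]

theorem word_mul_mem {G : StarSubalgebra ℂ A} {u : A} : ∀ l : List (Bool × A), l ≠ [] →
    (∀ p ∈ l, p.2 ∈ G) → Alt T l → ∀ g ∈ G, ∃ l' : List (Bool × A), l' ≠ [] ∧
      (∀ p ∈ l', p.2 ∈ G) ∧ Alt T l' ∧ word u l * g = word u l' ∧
      (l'.map Prod.fst = l.map Prod.fst) := by
  intro l
  induction l with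
  | nil => intro h; exact absurd rfl h
  | cons p l ih =>
    intro _ hlG halt g hg
    obtain ⟨b, a⟩ := p
    rcases l with _ | ⟨⟨b', a'⟩, l⟩
    · refine ⟨[(b, a * g)], by simp, ?_, trivial, ?_, by simp⟩
      · intro p hp
        rw [List.mem_singleton] at hp
        subst hp
        exact mul_mem (hlG (b, a) List.mem_cons_self) hg
      · simp only [word, mul_one, mul_assoc]
    · obtain ⟨l', hne, hl'G, halt', heq, hmap⟩ := ih (by simp)
        (fun p hp => hlG p (List.mem_cons_of_mem _ hp)) halt.2 g hg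
      rcases l' with _ | ⟨⟨b'', a''⟩, l'⟩
      · exact absurd rfl hne
      · have hb : b'' = b' := by
          simp only [List.map_cons, List.cons.injEq] at hmap
          exact hmap.1
        refine ⟨(b, a) :: (b'', a'') :: l', by simp, ?_, ⟨?_, halt'⟩, ?_, ?_⟩
        · intro p hp
          rcases List.mem_cons.1 hp with rfl | hp
          · exact hlG _ List.mem_cons_self
          · exact hl'G p hp
        · rw [hb]; exact halt.1
        · rw [word, mul_assoc, heq]; rfl
        · simp only [List.map_cons] at hmap ⊢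
          rw [hmap]

theorem tau_lift {G : StarSubalgebra ℂ A} {z : α} (U : α → unitary A)
    (hG : ∀ i, i ≠ z → (U i : A) ∈ G) (hz : FreeHaar T (G : Set A) (U z : A))
    (htr : ∀ k ∈ letterSub {i : α | i ≠ z}, k ≠ 1 →
      T.τ ((FreeGroup.lift U k : unitary A) : A) = 0) (k : FreeGroup α) (hk : k ≠ 1) :
    T.τ ((FreeGroup.lift U k : unitary A) : A) = 0 := by
  obtain ⟨P, l, hP, hstruct, hlG, halt, heq⟩ := dec_wt U hG htr k.toWord isReduced_toWord
  rw [mk_toWord] at heq
  rcases hstruct with ⟨hl, hPk⟩ | ⟨b, g, t, L', hl, -⟩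
  · refine htr k ?_ hk
    intro p hp
    rw [← hPk] at hp
    exact hP p hp
  · rw [heq, T.tr]
    obtain ⟨l', hne, hl'G, halt', heq', -⟩ := word_mul_mem (u := (U z : A)) l (by rw [hl]; simp)
      hlG halt _ (lift_mem U P (fun p hp => hG _ (hP p hp)))
    rw [heq']
    exact hz.2 l' hne hl'G halt'

end Crest.Agent.R134
end

-- ▼ part R134/FreePauli

/-!
R134 (helper127): two *-free Haar unitaries generate a II₁ factor, hence contain Pauli pairs.
-/

set_option autoImplicit false
set_option linter.unusedSectionVars false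

open scoped InnerProductSpace ENNReal
open Filter Topology

namespace Crest.Agent.R134

open Crest.OpAlg Crest.Agent.R95

/-- two *-free Haar unitaries generate an algebra containing commuting Pauli pairs -/
def HasFreePauli {A : Type*} [CStarAlgebra A] (T : TracialState A) : Prop :=
  ∀ a b : A, a ∈ unitary A → (∀ k : ℕ, 0 < k → T.τ (a ^ k) = 0) → FreeHaar T (W T {a} : Set A) b →
    ∃ u v : ℕ → A, Pairs u v ∧ (∀ j, u j ∈ W T {a, b}) ∧ (∀ j, v j ∈ W T {a, b})

section conc

variable {H : Type*} [NormedAddCommGroup H] [InnerProductSpace ℂ H] [CompleteSpace H]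
variable {M : VonNeumannAlgebra H} {ξ : ℕ → H}

/-- from the concrete generated von Neumann algebra to the abstract 2-norm closure -/
theorem mem_W_of_mem_vnGen (hξ : IsFaithfulTracialVectorState M ξ) {s : Set (H →L[ℂ] H)}
    {S : Set M.toStarSubalgebra}
    (hs : ∀ x ∈ s, ∃ y ∈ StarAlgebra.adjoin ℂ S, (y : H →L[ℂ] H) = x)
    (x : M.toStarSubalgebra) (hx : (x : H →L[ℂ] H) ∈ vnGen s) : x ∈ W (vnTrace hξ) S := by
  intro ε hε
  obtain ⟨y, hy, hyx⟩ := exists_near_of_mem_vnGen (sqSum hξ) hx hε
  have hle : StarAlgebra.adjoin ℂ s ≤ (StarAlgebra.adjoin ℂ S).map M.toStarSubalgebra.subtype := by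
    refine StarAlgebra.adjoin_le ?_
    intro z hz
    obtain ⟨w, hw, hwz⟩ := hs z hz
    exact ⟨w, hw, hwz⟩
  obtain ⟨w, hw, hwy⟩ := hle hy
  refine ⟨w, hw, ?_⟩
  rw [vnTrace_nrm2]
  have e : ((x - w : M.toStarSubalgebra) : H →L[ℂ] H) = (x : H →L[ℂ] H) - y := by
    rw [← hwy]; rfl
  rw [e, N2_sub_comm]
  exact hyx

/-- the concrete representation of a free group attached to unitaries of `M` -/
noncomputable def crep {α : Type*} (U : α → unitary M.toStarSubalgebra) :
    FreeGroup α →* (H →L[ℂ] H) :=
  ((M.toStarSubalgebra.subtype : M.toStarSubalgebra →⋆ₐ[ℂ] (H →L[ℂ] H)) :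
    M.toStarSubalgebra →* (H →L[ℂ] H)).comp
    (((unitary M.toStarSubalgebra).subtype).comp (FreeGroup.lift U))

theorem crep_apply {α : Type*} (U : α → unitary M.toStarSubalgebra) (k : FreeGroup α) :
    crep U k = (((FreeGroup.lift U k : unitary M.toStarSubalgebra) : M.toStarSubalgebra) :
      H →L[ℂ] H) := rfl

theorem crep_mem {α : Type*} (U : α → unitary M.toStarSubalgebra) (k : FreeGroup α) :
    crep U k ∈ M := by
  rw [crep_apply]
  exact ((FreeGroup.lift U k : unitary M.toStarSubalgebra) : M.toStarSubalgebra).2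

theorem star_crep {α : Type*} (U : α → unitary M.toStarSubalgebra) (k : FreeGroup α) :
    star (crep U k) = crep U k⁻¹ := by
  rw [crep_apply, crep_apply, map_inv]
  rfl

theorem lift_mem_adjoin {α : Type*} [DecidableEq α] {A : Type*} [CStarAlgebra A]
    (U : α → unitary A) (k : FreeGroup α) :
    ((FreeGroup.lift U k : unitary A) : A) ∈ StarAlgebra.adjoin ℂ (Set.range fun i => (U i : A)) := by
  rw [← FreeGroup.mk_toWord (x := k)]
  exact lift_mem U _ (fun p _ => StarAlgebra.subset_adjoin ℂ _ ⟨p.1, rfl⟩)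

theorem tau_zpow {A : Type*} [CStarAlgebra A] (T : TracialState A) (a : unitary A)
    (ha : ∀ k : ℕ, 0 < k → T.τ ((a : A) ^ k) = 0) (n : ℤ) (hn : n ≠ 0) :
    T.τ ((a ^ n : unitary A) : A) = 0 := by
  obtain ⟨k, rfl | rfl⟩ := n.eq_nat_or_neg
  · rw [zpow_natCast]
    have := ha k (Nat.pos_of_ne_zero (by simpa using hn))
    simpa using this
  · rw [zpow_neg, zpow_natCast]
    have h1 := ha k (Nat.pos_of_ne_zero (by simpa using hn))
    have h2 : (((a ^ k)⁻¹ : unitary A) : A) = star ((a : A) ^ k) := by
      rw [← Unitary.star_eq_inv]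
      simp
    rw [h2, T.star', h1, map_zero]

theorem hasFreePauli (hξ : IsFaithfulTracialVectorState M ξ) : HasFreePauli (vnTrace hξ) := by
  intro a b ha hta hb
  let U : Fin 2 → unitary M.toStarSubalgebra := ![⟨a, ha⟩, ⟨b, hb.1⟩]
  have hU0 : (U 0 : M.toStarSubalgebra) = a := rfl
  have hU1 : (U 1 : M.toStarSubalgebra) = b := rfl
  have htau : ∀ k : FreeGroup (Fin 2), k ≠ 1 →
      (vnTrace hξ).τ ((FreeGroup.lift U k : unitary M.toStarSubalgebra) : M.toStarSubalgebra) = 0 := by
    refine tau_lift (G := W (vnTrace hξ) {a}) (z := 1) U ?_ ?_ ?_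
    · intro i hi
      have : i = 0 := by omega
      subst this
      rw [hU0]
      exact subset_W _ _ rfl
    · rw [hU1]; exact hb
    · intro k hk hk1
      have e : {i : Fin 2 | i ≠ 1} = {0} := by
        ext i
        simp only [Set.mem_ofPred_eq, Set.mem_singleton_iff]
        omega
      rw [e, letterSub_eq_closure, Set.image_singleton, Subgroup.mem_closure_singleton] at hk
      obtain ⟨n, rfl⟩ := hk
      rw [map_zpow, FreeGroup.lift_apply_of]
      refine tau_zpow _ (U 0) ?_ n ?_
      · rw [hU0]; exact hta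
      · rintro rfl
        exact hk1 (zpow_zero _)
  have hII : IsII1 (vnGen (Set.range (crep U))) ξ := by
    refine isII1_of_icc hξ (crep U) (crep_mem U) (star_crep U) ?_
      (icc_freeGroup (a := (0 : Fin 2)) (b := 1) (by decide))
    intro k hk
    exact htau k hk
  obtain ⟨u, v, huv⟩ := hII.exists_hasPauli
  have hle : vnGen (Set.range (crep U)) ≤ M := vnGen_le (by rintro _ ⟨k, rfl⟩; exact crep_mem U k)
  have hrange : Set.range (fun i => (U i : M.toStarSubalgebra)) ⊆ ({a, b} : Set M.toStarSubalgebra) := by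
    rintro _ ⟨i, rfl⟩
    fin_cases i
    · exact Or.inl rfl
    · exact Or.inr rfl
  have hW : ∀ (x : H →L[ℂ] H) (hx : x ∈ vnGen (Set.range (crep U))),
      (⟨x, hle hx⟩ : M.toStarSubalgebra) ∈ W (vnTrace hξ) {a, b} := by
    intro x hx
    refine mem_W_of_mem_vnGen hξ (s := Set.range (crep U)) ?_ _ hx
    rintro _ ⟨k, rfl⟩
    exact ⟨_, StarAlgebra.adjoin_mono hrange (lift_mem_adjoin U k), rfl⟩
  refine ⟨fun j => ⟨u j, hle (huv.1 j).1⟩, fun j => ⟨v j, hle (huv.1 j).2.1⟩, ⟨?_, ?_⟩,
    fun j => hW _ (huv.1 j).1, fun j => hW _ (huv.1 j).2.1⟩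
  · intro j
    obtain ⟨-, -, h1, h2, h3, h4, h5⟩ := huv.1 j
    exact ⟨Subtype.ext h1, Subtype.ext h2, Subtype.ext h3, Subtype.ext h4, Subtype.ext h5⟩
  · intro j k hjk
    obtain ⟨h1, h2, h3⟩ := huv.2 j k hjk
    exact ⟨Subtype.ext h1, Subtype.ext h2, Subtype.ext h3⟩

end conc

end Crest.Agent.R134
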