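import Crest.Agent.R134.Transport
import Crest.Agent.R95.Bridge
import Crest.Agent.R95.Factor5
import Crest.Agent.R134.Defs
import Crest.Agent.R134.FreePauli

-- ▼ part R134/GroupSide
section

/-!
R134 (helper127): group side. `vH H` = von Neumann algebra generated by `λ(H)` in `L(G)`,
supports, ICC factors, freeness of `vH A` and `vH B`.
-/

set_option autoImplicit false
set_option linter.unusedSectionVars false
set_option linter.unusedSimpArgs false

open scoped InnerProductSpace ENNReal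
open Filter Topology

namespace Crest.Agent.R134

open Crest.OpAlg Crest.Agent.R95

section basics

variable {G : Type*} [Group G] [DecidableEq G]

/-- the trace vectors `(δ, 0, 0, …)` -/
noncomputable def xi (G : Type*) [Group G] [DecidableEq G] : ℕ → ltwo G :=
  fun n => if n = 0 then dl 1 else 0

theorem norm_dl (g : G) : ‖(dl g : ltwo G)‖ = 1 := by
  have h : ‖(dl g : ltwo G)‖ ^ 2 = 1 := by
    have h1 : ((‖(dl g : ltwo G)‖ ^ 2 : ℝ) : ℂ) = ⟪(dl g : ltwo G), dl g⟫_ℂ := by
      rw [inner_self_eq_norm_sq_to_K]; norm_cast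
    rw [inner_dl_dl, if_pos rfl] at h1
    exact_mod_cast h1
  nlinarith [norm_nonneg (dl g : ltwo G)]

theorem vectorState_xi (x : ltwo G →L[ℂ] ltwo G) : vectorState (xi G) x = groupTrace G x := by
  unfold vectorState
  rw [tsum_eq_single 0]
  · simp [xi, groupTrace_eq]
  · intro n hn
    simp [xi, hn]

theorem traceNormSq_xi (x : ltwo G →L[ℂ] ltwo G) : traceNormSq (xi G) x = ‖x (dl 1)‖ ^ 2 := by
  unfold traceNormSq
  rw [tsum_eq_single 0]
  · simp [xi]
  · intro n hn
    simp [xi, hn]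

theorem N2_xi (x : ltwo G →L[ℂ] ltwo G) : N2 (xi G) x = ‖x (dl 1)‖ := by
  rw [N2, traceNormSq_xi, Real.sqrt_sq (norm_nonneg _)]

theorem xi_tracial : IsFaithfulTracialVectorState (groupVNA G) (xi G) := by
  refine ⟨?_, ?_, ?_⟩
  · have : (fun n => ‖xi G n‖ ^ 2) = fun n => if n = 0 then (1 : ℝ) else 0 := by
      ext n
      by_cases hn : n = 0
      · simp [xi, hn, norm_dl]
      · simp [xi, hn]
    rw [this]
    exact hasSum_ite_eq 0 1
  · intro x hx y hy
    rw [vectorState_xi, vectorState_xi, groupTrace_mul_comm hx hy]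
  · intro x hx h
    exact eq_zero_of_dl hx (by simpa [xi] using h 0)


/-- the convolution formula -/
theorem apply_eq_tsum {x : ltwo G →L[ℂ] ltwo G} (hx : x ∈ groupVNA G) (v : ltwo G) (g : G) :
    (x v : ltwo G) g = ∑' h, (x (dl 1) : ltwo G) (g * h⁻¹) * (v : ltwo G) h := by
  have h1 : (x v : ltwo G) g = ⟪(star x) (dl g), v⟫_ℂ := by
    rw [← inner_dl_left, ContinuousLinearMap.star_eq_adjoint,
      ContinuousLinearMap.adjoint_inner_left]
  rw [h1, lp.inner_eq_tsum]
  refine tsum_congr (fun h => ?_)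
  rw [apply_dl_of_mem (star_mem hx), rightRegular_apply, star_apply_dl hx]
  simp [mul_comm]

/-- `v` is supported in `E` -/
def SuppIn (E : Set G) (v : ltwo G) : Prop := ∀ g, g ∉ E → (v : ltwo G) g = 0

theorem SuppIn.mono {E F : Set G} {v : ltwo G} (h : SuppIn E v) (hEF : E ⊆ F) : SuppIn F v :=
  fun g hg => h g (fun hg' => hg (hEF hg'))

theorem SuppIn.add {E : Set G} {v w : ltwo G} (h : SuppIn E v) (h' : SuppIn E w) :
    SuppIn E (v + w) := fun g hg => by
  have e : ((v + w : ltwo G) : G → ℂ) g = v g + w g := rfl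
  rw [e, h g hg, h' g hg, add_zero]

theorem SuppIn.smul {E : Set G} {v : ltwo G} (c : ℂ) (h : SuppIn E v) :
    SuppIn E (c • v) := fun g hg => by
  have e : ((c • v : ltwo G) : G → ℂ) g = c * v g := rfl
  rw [e, h g hg, mul_zero]

theorem SuppIn.zero (E : Set G) : SuppIn E (0 : ltwo G) := fun _ _ => rfl

theorem suppIn_dl {E : Set G} {g : G} (hg : g ∈ E) : SuppIn E (dl g : ltwo G) := by
  intro h hh
  rw [dl_apply, if_neg]
  rintro rfl
  exact hh hg

/-- closedness of supports, `ε` form -/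
theorem suppIn_of_forall {E : Set G} {v : ltwo G}
    (h : ∀ ε : ℝ, 0 < ε → ∃ w : ltwo G, SuppIn E w ∧ ‖w - v‖ < ε) : SuppIn E v := by
  intro g hg
  by_contra hne
  obtain ⟨w, hw, hwv⟩ := h ‖(v : ltwo G) g‖ (norm_pos_iff.2 hne)
  have h1 : ‖(w - v : ltwo G) g‖ ≤ ‖w - v‖ := lp.norm_apply_le_norm (by norm_num) (w - v) g
  have h2 : ((w - v : ltwo G) : G → ℂ) g = w g - v g := rfl
  rw [h2, hw g hg, zero_sub, norm_neg] at h1
  linarith

theorem SuppIn.apply {x : ltwo G →L[ℂ] ltwo G} (hx : x ∈ groupVNA G) {A B C : Set G}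
    (hxA : SuppIn A (x (dl 1))) {v : ltwo G} (hv : SuppIn B v)
    (hC : ∀ a ∈ A, ∀ b ∈ B, a * b ∈ C) : SuppIn C (x v) := by
  intro g hg
  rw [apply_eq_tsum hx]
  have : ∀ h, (x (dl 1) : ltwo G) (g * h⁻¹) * (v : ltwo G) h = 0 := by
    intro h
    by_cases hb : h ∈ B
    · by_cases ha : g * h⁻¹ ∈ A
      · exact absurd (by simpa using hC _ ha _ hb) hg
      · rw [hxA _ ha, zero_mul]
    · rw [hv _ hb, mul_zero]
  simp [this]

/-- the von Neumann algebra generated by a subgroup -/
noncomputable def vH (H : Subgroup G) : VonNeumannAlgebra (ltwo G) :=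
  vnGen (leftRegular '' (H : Set G))

theorem leftRegular_mem_vH {H : Subgroup G} {g : G} (hg : g ∈ H) : leftRegular g ∈ vH H :=
  subset_vnGen _ _ ⟨g, hg, rfl⟩

theorem vH_le (H : Subgroup G) : vH H ≤ groupVNA G := by
  apply vnGen_le
  rintro _ ⟨g, -, rfl⟩
  exact leftRegular_mem g

theorem suppIn_of_mem_vH {H : Subgroup G} {x : ltwo G →L[ℂ] ltwo G} (hx : x ∈ vH H) :
    SuppIn (H : Set G) (x (dl 1)) := by
  have hmul : ∀ g ∈ H, ∀ v : ltwo G, SuppIn (H : Set G) v →
      SuppIn (H : Set G) (leftRegular g v) := by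
    intro g hg v hv k hk
    rw [leftRegular_apply]
    refine hv _ (fun h => hk ?_)
    have := H.mul_mem hg h
    simpa using this
  have key : ∀ y ∈ StarAlgebra.adjoin ℂ (leftRegular '' (H : Set G)),
      (∀ v : ltwo G, SuppIn (H : Set G) v → SuppIn (H : Set G) (y v)) ∧
      (∀ v : ltwo G, SuppIn (H : Set G) v → SuppIn (H : Set G) ((star y) v)) := by
    intro y hy
    induction hy using StarAlgebra.adjoin_induction with
    | mem y hy =>
      obtain ⟨g, hg, rfl⟩ := hy
      refine ⟨hmul g hg, ?_⟩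
      rw [star_leftRegular]
      exact hmul _ (H.inv_mem hg)
    | algebraMap r =>
      refine ⟨fun v hv => ?_, fun v hv => ?_⟩
      · have : (algebraMap ℂ (ltwo G →L[ℂ] ltwo G) r) v = r • v := rfl
        rw [this]
        exact hv.smul r
      · rw [← algebraMap_star_comm]
        have : (algebraMap ℂ (ltwo G →L[ℂ] ltwo G) (star r)) v = (star r) • v := rfl
        rw [this]
        exact hv.smul _
    | add a b _ _ ha hb =>
      refine ⟨fun v hv => (ha.1 v hv).add (hb.1 v hv), fun v hv => ?_⟩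
      rw [star_add]
      exact (ha.2 v hv).add (hb.2 v hv)
    | mul a b _ _ ha hb =>
      refine ⟨fun v hv => ha.1 _ (hb.1 v hv), fun v hv => ?_⟩
      rw [star_mul]
      exact hb.2 _ (ha.2 v hv)
    | star a _ ha => exact ⟨ha.2, by rw [star_star]; exact ha.1⟩
  refine suppIn_of_forall (fun ε hε => ?_)
  obtain ⟨y, hy, hyx⟩ := exists_near_of_mem_vnGen (sqSum xi_tracial) hx hε
  refine ⟨y (dl 1), (key y hy).1 _ (suppIn_dl H.one_mem), ?_⟩
  rw [N2_xi] at hyx
  exact hyx

/-- finitely supported approximation -/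
theorem exists_finset_approx (v : ltwo G) {ε : ℝ} (hε : 0 < ε) :
    ∃ s : Finset G, ‖∑ g ∈ s, (v : ltwo G) g • (dl g : ltwo G) - v‖ < ε := by
  have h := lp.hasSum_single (E := fun _ : G => ℂ) (p := 2) (by norm_num) v
  have h' : HasSum (fun g => (v : ltwo G) g • (dl g : ltwo G)) v := by
    have e : (fun g => (v : ltwo G) g • (dl g : ltwo G)) =
        fun g => lp.single (E := fun _ : G => ℂ) 2 g (v g) := by
      funext g
      unfold dl
      rw [← lp.single_smul, smul_eq_mul, mul_one]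
    rw [e]
    exact h
  obtain ⟨s, hs⟩ := (Metric.tendsto_atTop.1 h') ε hε
  exact ⟨s, by simpa [dist_eq_norm] using hs s le_rfl⟩

theorem mem_vH_of_suppIn {H : Subgroup G} {x : ltwo G →L[ℂ] ltwo G} (hx : x ∈ groupVNA G)
    (hs : SuppIn (H : Set G) (x (dl 1))) : x ∈ vH H := by
  refine mem_of_forall_N2_lt xi_tracial (vH_le H) hx (fun ε hε => ?_)
  obtain ⟨s, hsum⟩ := exists_finset_approx (x (dl 1)) hε
  refine ⟨∑ g ∈ s, (x (dl 1) : ltwo G) g • leftRegular g, ?_, ?_⟩
  · refine sum_mem (fun g _ => ?_)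
    by_cases hg : g ∈ H
    · exact smul_mem' _ (leftRegular_mem_vH hg)
    · rw [hs g hg, zero_smul]
      exact zero_mem _
  · rw [N2_xi, ContinuousLinearMap.sub_apply, ContinuousLinearMap.sum_apply]
    simpa [leftRegular_dl] using hsum

theorem vH_top : vH (⊤ : Subgroup G) = groupVNA G := by
  apply le_antisymm (vH_le _)
  intro x hx
  exact mem_vH_of_suppIn hx (fun g hg => absurd (Subgroup.mem_top g) hg)





end basics

end Crest.Agent.R134
end

-- ▼ part R134/Std
section

/-!
R134 (helper954): standard form of a finite von Neumann algebra (cyclic trace vector).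
-/

set_option autoImplicit false

namespace Crest.Agent.R134

open Crest.Agent.R95

variable {H : Type*} [NormedAddCommGroup H] [InnerProductSpace ℂ H] [CompleteSpace H]

/-- the sequence `Ω, 0, 0, …` -/
def vec (Ω : H) : ℕ → H := fun n => if n = 0 then Ω else 0

/-- `M` is in standard form with cyclic (and separating) trace vector `Ω` -/
structure Std (M : VonNeumannAlgebra H) (Ω : H) : Prop where
  ft : Crest.OpAlg.IsFaithfulTracialVectorState M (vec Ω)
  cyc : Dense {y : H | ∃ x ∈ M, x Ω = y}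

/-- the tracial state of `M` -/
noncomputable abbrev Std.T {M : VonNeumannAlgebra H} {Ω : H} (h : Std M Ω) :
    TracialState M.toStarSubalgebra := vnTrace h.ft

end Crest.Agent.R134
end

-- ▼ part R134/GNS
section

/-!
R134 (helper954): GNS uniqueness and `Std M Ω → Amb h.T`.
-/

set_option autoImplicit false
set_option linter.unusedSectionVars false

open scoped InnerProductSpace
open Filter Topology

namespace Crest.Agent.R134

open Crest.Agent.R95 Crest.OpAlg

universe u

section gns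

variable {H K : Type*} [NormedAddCommGroup H] [InnerProductSpace ℂ H] [CompleteSpace H]
  [NormedAddCommGroup K] [InnerProductSpace ℂ K] [CompleteSpace K]

theorem star_prod_map {J : Type*} {σ : J → J} {S : J → H →L[ℂ] H}
    (hσ : ∀ j, star (S j) = S (σ j)) (l : List J) :
    star (l.map S).prod = ((l.reverse.map σ).map S).prod := by
  induction l with
  | nil => simp
  | cons a l ih => simp [ih, hσ]

theorem inner_word {J : Type*} {σ : J → J} {S : J → H →L[ℂ] H}
    (hσ : ∀ j, star (S j) = S (σ j)) (Ω : H) (l m : List J) :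
    ⟪(l.map S).prod Ω, (m.map S).prod Ω⟫_ℂ =
      ⟪Ω, (((l.reverse.map σ) ++ m).map S).prod Ω⟫_ℂ := by
  rw [List.map_append, List.prod_append, ← star_prod_map hσ,
    ContinuousLinearMap.star_eq_adjoint]
  change _ = ⟪Ω, (ContinuousLinearMap.adjoint (l.map S).prod) ((m.map S).prod Ω)⟫_ℂ
  rw [ContinuousLinearMap.adjoint_inner_right]

/-- GNS uniqueness: two families with the same joint moments are spatially equivalent. -/
theorem exists_lie {J : Type*} {σ : J → J} {S : J → H →L[ℂ] H} {S' : J → K →L[ℂ] K}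
    (hσ : ∀ j, star (S j) = S (σ j)) (hσ' : ∀ j, star (S' j) = S' (σ j)) {Ω : H} {Ω' : K}
    (hmom : ∀ l : List J, ⟪Ω, (l.map S).prod Ω⟫_ℂ = ⟪Ω', (l.map S').prod Ω'⟫_ℂ)
    (hd : Dense (Submodule.span ℂ (Set.range fun l : List J => (l.map S).prod Ω) : Set H))
    (hd' : Dense (Submodule.span ℂ (Set.range fun l : List J => (l.map S').prod Ω') : Set K)) :
    ∃ Φ : H ≃ₗᵢ[ℂ] K, Φ Ω = Ω' ∧ ∀ j x, Φ (S j x) = S' j (Φ x) := by
  let e₁ : (List J →₀ ℂ) →ₗ[ℂ] H :=
    Finsupp.linearCombination ℂ (fun l : List J => (l.map S).prod Ω)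
  let e₂ : (List J →₀ ℂ) →ₗ[ℂ] K :=
    Finsupp.linearCombination ℂ (fun l : List J => (l.map S').prod Ω')
  have hr₁ : DenseRange e₁ := by
    have : Set.range e₁ =
        (Submodule.span ℂ (Set.range fun l : List J => (l.map S).prod Ω) : Set H) := by
      rw [← Finsupp.range_linearCombination]; rfl
    rw [DenseRange, this]; exact hd
  have hr₂ : DenseRange e₂ := by
    have : Set.range e₂ =
        (Submodule.span ℂ (Set.range fun l : List J => (l.map S').prod Ω') : Set K) := by
      rw [← Finsupp.range_linearCombination]; rfl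
    rw [DenseRange, this]; exact hd'
  have hin : ∀ v : List J →₀ ℂ, ⟪e₂ v, e₂ v⟫_ℂ = ⟪e₁ v, e₁ v⟫_ℂ := by
    intro v
    simp only [e₁, e₂, Finsupp.linearCombination_apply, Finsupp.sum, sum_inner, inner_sum,
      inner_smul_left, inner_smul_right]
    refine Finset.sum_congr rfl fun l _ => ?_
    congr 1
    refine Finset.sum_congr rfl fun m _ => ?_
    rw [inner_word hσ, inner_word hσ', hmom]
  have hnorm : ∀ v : List J →₀ ℂ, ‖e₂ ((LinearEquiv.refl ℂ (List J →₀ ℂ)) v)‖ = ‖e₁ v‖ := by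
    intro v
    have h1 := hin v
    rw [inner_self_eq_norm_sq_to_K, inner_self_eq_norm_sq_to_K] at h1
    have h2 : ‖e₂ v‖ ^ 2 = ‖e₁ v‖ ^ 2 := by exact_mod_cast h1
    simpa using (sq_eq_sq₀ (norm_nonneg _) (norm_nonneg _)).1 h2
  let Φ := (LinearEquiv.refl ℂ (List J →₀ ℂ)).extendOfIsometry e₁ e₂ hr₁ hr₂ hnorm
  have hΦ : ∀ v, Φ (e₁ v) = e₂ v := fun v =>
    LinearEquiv.extendOfIsometry_eq (LinearEquiv.refl ℂ (List J →₀ ℂ)) e₁ e₂ hr₁ hr₂ hnorm v
  have hw : ∀ l : List J, Φ ((l.map S).prod Ω) = (l.map S').prod Ω' := by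
    intro l
    have := hΦ (Finsupp.single l 1)
    simpa [e₁, e₂] using this
  refine ⟨Φ, by simpa using hw [], fun j => ?_⟩
  have hcl : IsClosed {x : H | Φ (S j x) = S' j (Φ x)} :=
    isClosed_eq (Φ.continuous.comp (S j).continuous) ((S' j).continuous.comp Φ.continuous)
  have hall : {x : H | Φ (S j x) = S' j (Φ x)} = Set.univ := by
    refine Set.eq_univ_of_forall fun x => ?_
    refine hr₁.induction_on x hcl fun v => ?_
    change Φ (S j (e₁ v)) = S' j (Φ (e₁ v))
    induction v using Finsupp.induction_linear with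
    | zero => simp
    | add f g hf hg => simp only [map_add, hf, hg]
    | single l c =>
      have e1 : e₁ (Finsupp.single l c) = c • ((l.map S).prod Ω) := by simp [e₁]
      rw [e1, map_smul, map_smul, map_smul, map_smul, hw]
      have h2 := hw (j :: l)
      simp only [List.map_cons, List.prod_cons] at h2
      have h3 : S j ((l.map S).prod Ω) = (S j * (l.map S).prod) Ω := rfl
      rw [h3, h2]; rfl
  intro x
  have : x ∈ {x : H | Φ (S j x) = S' j (Φ x)} := by rw [hall]; trivial
  exact this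

end gns

section std

variable {H : Type u} [NormedAddCommGroup H] [InnerProductSpace ℂ H] [CompleteSpace H]
  {M : VonNeumannAlgebra H} {Ω : H}

theorem tr_vec (Ω : H) (x : H →L[ℂ] H) : tr (vec Ω) x = ⟪Ω, x Ω⟫_ℂ := by
  rw [tr, vectorState, tsum_eq_single 0]
  · simp [vec]
  · intro n hn; simp [vec, hn]

theorem N2_vec (Ω : H) (x : H →L[ℂ] H) : N2 (vec Ω) x = ‖x Ω‖ := by
  rw [N2, traceNormSq, tsum_eq_single 0]
  · simp [vec, Real.sqrt_sq]
  · intro n hn; simp [vec, hn]

theorem Std.tau (h : Std M Ω) (x : M.toStarSubalgebra) :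
    h.T.τ x = ⟪Ω, (x : H →L[ℂ] H) Ω⟫_ℂ := tr_vec Ω _

theorem Std.nrm2 (h : Std M Ω) (x : M.toStarSubalgebra) :
    h.T.nrm2 x = ‖(x : H →L[ℂ] H) Ω‖ := by
  rw [vnTrace_nrm2, N2_vec]

theorem coe_prod_map {J : Type*} (S : J → M.toStarSubalgebra) (l : List J) :
    (((l.map S).prod : M.toStarSubalgebra) : H →L[ℂ] H) =
      (l.map fun j => (S j : H →L[ℂ] H)).prod := by
  induction l with
  | nil => rfl
  | cons a l ih => simp [ih]

/-- the span of the words is the generated star algebra -/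
theorem adjoin_eq_span_words {A : Type*} [Ring A] [StarRing A] [Algebra ℂ A] [StarModule ℂ A]
    {J : Type*} {σ : J → J} {S : J → A} (hσ : ∀ j, star (S j) = S (σ j)) :
    ∀ x ∈ StarAlgebra.adjoin ℂ (Set.range S),
      x ∈ Submodule.span ℂ (Set.range fun l : List J => (l.map S).prod) := by
  intro x hx
  have h1 : (StarAlgebra.adjoin ℂ (Set.range S)).toSubalgebra =
      Algebra.adjoin ℂ (Set.range S ∪ star (Set.range S)) :=
    StarAlgebra.adjoin_toSubalgebra ℂ _
  have h2 : Set.range S ∪ star (Set.range S) = Set.range S := by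
    rw [Set.union_eq_left]
    rintro y ⟨j, hj⟩
    refine ⟨σ j, ?_⟩
    rw [← hσ, hj, star_star]
  have hx' : x ∈ Algebra.adjoin ℂ (Set.range S) := by
    rw [← h2, ← h1]; exact hx
  rw [← Subalgebra.mem_toSubmodule, Algebra.adjoin_eq_span] at hx'
  refine Submodule.span_mono ?_ hx'
  intro y hy
  induction hy using Submonoid.closure_induction with
  | mem y hy => obtain ⟨j, rfl⟩ := hy; exact ⟨[j], by simp⟩
  | one => exact ⟨[], rfl⟩
  | mul a b _ _ ha hb =>
    obtain ⟨l, rfl⟩ := ha
    obtain ⟨m, rfl⟩ := hb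
    exact ⟨l ++ m, by simp⟩

theorem Std.dense_words (h : Std M Ω) {J : Type*} {σ : J → J} {S : J → M.toStarSubalgebra}
    (hσ : ∀ j, star (S j) = S (σ j)) (hgen : ∀ x, x ∈ W h.T (Set.range S)) :
    Dense (Submodule.span ℂ (Set.range fun l : List J =>
      (l.map fun j => (S j : H →L[ℂ] H)).prod Ω) : Set H) := by
  set V := Submodule.span ℂ (Set.range fun l : List J =>
      (l.map fun j => (S j : H →L[ℂ] H)).prod Ω) with hV
  have hmem : ∀ x ∈ StarAlgebra.adjoin ℂ (Set.range S), (x : H →L[ℂ] H) Ω ∈ V := by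
    intro x hx
    have h1 := adjoin_eq_span_words hσ x hx
    refine Submodule.span_induction
      (p := fun (x : M.toStarSubalgebra) _ => (x : H →L[ℂ] H) Ω ∈ V) ?_ ?_ ?_ ?_ h1
    · rintro _ ⟨l, rfl⟩
      refine Submodule.subset_span ⟨l, ?_⟩
      change _ = (((l.map S).prod : M.toStarSubalgebra) : H →L[ℂ] H) Ω
      rw [coe_prod_map]
    · change (0 : H →L[ℂ] H) Ω ∈ V
      simp
    · intro a b _ _ ha hb
      change ((a : H →L[ℂ] H) + (b : H →L[ℂ] H)) Ω ∈ V
      exact V.add_mem ha hb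
    · intro c a _ ha
      change (c • (a : H →L[ℂ] H)) Ω ∈ V
      exact V.smul_mem c ha
  intro y
  rw [Metric.mem_closure_iff]
  intro ε hε
  obtain ⟨_, ⟨x, hx, rfl⟩, hxy⟩ := Metric.mem_closure_iff.1 (h.cyc y) (ε / 2) (by positivity)
  obtain ⟨z, hz, hzx⟩ := hgen ⟨x, hx⟩ (ε / 2) (by positivity)
  refine ⟨(z : H →L[ℂ] H) Ω, hmem z hz, ?_⟩
  rw [h.nrm2] at hzx
  have h2 : dist (x Ω) ((z : H →L[ℂ] H) Ω) < ε / 2 := by
    rw [dist_eq_norm]; exact hzx
  calc dist y ((z : H →L[ℂ] H) Ω) ≤ dist y (x Ω) + dist (x Ω) ((z : H →L[ℂ] H) Ω) :=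
        dist_triangle _ _ _
    _ < ε := by linarith

/-- a von Neumann subalgebra with dense orbit of the trace vector is everything -/
theorem Std.mem_of_dense (h : Std M Ω) {N : VonNeumannAlgebra H} (hN : ∀ x ∈ N, x ∈ M)
    (hd : ∀ x ∈ M, ∀ ε > 0, ∃ y ∈ N, ‖(x - y) Ω‖ < ε) : ∀ x ∈ M, x ∈ N := by
  intro x hx
  refine mem_of_forall_N2_lt h.ft hN hx fun ε hε => ?_
  obtain ⟨y, hy, hxy⟩ := hd x hx ε hε
  refine ⟨y, hy, ?_⟩
  rw [N2_sub_comm, N2_vec]; exact hxy

/-- conjugation by `Φ` maps `vnGen S` to `vnGen S'` when `Φ S_j Φ* = S'_j`. -/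
theorem conj_mem_vnGen {K : Type*} [NormedAddCommGroup K] [InnerProductSpace ℂ K]
    [CompleteSpace K] {J : Type*} {S : J → H →L[ℂ] H} {S' : J → K →L[ℂ] K} (Φ : H ≃ₗᵢ[ℂ] K)
    (hΦ : ∀ j, Φ.conjStarAlgEquiv (S j) = S' j) {x : H →L[ℂ] H}
    (hx : x ∈ vnGen (Set.range S)) : Φ.conjStarAlgEquiv x ∈ vnGen (Set.range S') := by
  rw [← SetLike.mem_coe, coe_vnGen] at hx ⊢
  intro y hy
  have hy' : Φ.conjStarAlgEquiv.symm y ∈ (Set.range S ∪ star (Set.range S)).centralizer := by
    intro s hs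
    have hs' : Φ.conjStarAlgEquiv s ∈ Set.range S' ∪ star (Set.range S') := by
      rcases hs with ⟨j, rfl⟩ | ⟨j, hj⟩
      · exact Or.inl ⟨j, (hΦ j).symm⟩
      · refine Or.inr ⟨j, ?_⟩
        rw [← hΦ, hj, map_star]
    have h1 := hy _ hs'
    apply EquivLike.injective Φ.conjStarAlgEquiv
    rw [map_mul, map_mul, StarAlgEquiv.apply_symm_apply]
    exact h1
  have h2 := hx _ hy'
  have h3 := congrArg Φ.conjStarAlgEquiv h2
  rw [map_mul, map_mul, StarAlgEquiv.apply_symm_apply] at h3
  exact h3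

theorem Std.mem_vnGen (h : Std M Ω) {J : Type*} {S : J → M.toStarSubalgebra}
    (hgen : ∀ x, x ∈ W h.T (Set.range S)) (x : M.toStarSubalgebra) :
    (x : H →L[ℂ] H) ∈ vnGen (Set.range fun j => (S j : H →L[ℂ] H)) := by
  have hle : vnGen (Set.range fun j => (S j : H →L[ℂ] H)) ≤ M := by
    refine vnGen_le ?_
    rintro _ ⟨j, rfl⟩
    exact (S j).2
  refine h.mem_of_dense (N := vnGen (Set.range fun j => (S j : H →L[ℂ] H)))
    (fun y hy => hle hy) ?_ x x.2
  intro y hy ε hε
  obtain ⟨z, hz, hzy⟩ := hgen ⟨y, hy⟩ ε hε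
  refine ⟨z, ?_, ?_⟩
  · have h1 : StarAlgebra.adjoin ℂ (Set.range S) ≤
        (vnGen (Set.range fun j => (S j : H →L[ℂ] H))).toStarSubalgebra.comap
          M.toStarSubalgebra.subtype := by
      rw [StarAlgebra.adjoin_le_iff]
      rintro _ ⟨j, rfl⟩
      exact subset_vnGen _ _ ⟨j, rfl⟩
    exact h1 hz
  · rw [h.nrm2] at hzy
    exact hzy

theorem Std.amb (h : Std M Ω) : Amb h.T where
  faithful a ha := by
    rw [vnTrace_nrm2] at ha
    exact Subtype.ext (eq_zero_of_N2 h.ft a.2 ha)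
  complete x C hC hcauchy := by
    obtain ⟨y, hy, hyC, hlim, -⟩ := exists_lim_of_cauchy h.ft (x := fun k => (x k : H →L[ℂ] H))
      (fun k => (x k).2) hC (fun ε hε => by
        obtain ⟨N, hN⟩ := hcauchy ε hε
        refine ⟨N, fun m hm n hn => ?_⟩
        have := hN m hm n hn
        rw [vnTrace_nrm2] at this
        exact this)
    refine ⟨⟨y, hy⟩, hyC, ?_⟩
    refine hlim.congr fun k => ?_
    rw [vnTrace_nrm2]
    rfl
  ext J σ S S' hσ hσ' hmom hgen hgen' := by
    have hσ₀ : ∀ j, star (S j) = S (σ j) := fun j => (hσ j).symm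
    have hσ₀' : ∀ j, star (S' j) = S' (σ j) := fun j => (hσ' j).symm
    have hσ₁ : ∀ j, star ((S j : H →L[ℂ] H)) = S (σ j) := fun j => congrArg Subtype.val (hσ₀ j)
    have hσ₂ : ∀ j, star ((S' j : H →L[ℂ] H)) = S' (σ j) := fun j => congrArg Subtype.val (hσ₀' j)
    obtain ⟨Φ, hΦΩ, hΦ⟩ := exists_lie (Ω := Ω) (Ω' := Ω) hσ₁ hσ₂ (fun l => by
      have := hmom l
      rw [h.tau, h.tau, coe_prod_map, coe_prod_map] at this
      exact this) (h.dense_words hσ₀ hgen) (h.dense_words hσ₀' hgen')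
    have hconj : ∀ j, Φ.conjStarAlgEquiv (S j : H →L[ℂ] H) = S' j := by
      intro j
      ext y
      rw [LinearIsometryEquiv.conjStarAlgEquiv_apply_apply, hΦ, Φ.apply_symm_apply]
    have hconj' : ∀ j, Φ.symm.conjStarAlgEquiv (S' j : H →L[ℂ] H) = S j := by
      intro j
      rw [← hconj]
      ext y; simp
    have hmap : ∀ x : M.toStarSubalgebra, Φ.conjStarAlgEquiv (x : H →L[ℂ] H) ∈ M := by
      intro x
      have h1 := conj_mem_vnGen Φ hconj (h.mem_vnGen hgen x)
      refine vnGen_le ?_ h1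
      rintro _ ⟨j, rfl⟩
      exact (S' j).2
    have hmap' : ∀ x : M.toStarSubalgebra, Φ.symm.conjStarAlgEquiv (x : H →L[ℂ] H) ∈ M := by
      intro x
      have h1 := conj_mem_vnGen Φ.symm hconj' (h.mem_vnGen hgen' x)
      refine vnGen_le ?_ h1
      rintro _ ⟨j, rfl⟩
      exact (S j).2
    let α : M.toStarSubalgebra ≃⋆ₐ[ℂ] M.toStarSubalgebra :=
      { toFun := fun x => ⟨Φ.conjStarAlgEquiv (x : H →L[ℂ] H), hmap x⟩
        invFun := fun x => ⟨Φ.symm.conjStarAlgEquiv (x : H →L[ℂ] H), hmap' x⟩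
        left_inv := fun x => by
          apply Subtype.ext
          ext y; simp
        right_inv := fun x => by
          apply Subtype.ext
          ext y; simp
        map_mul' := fun x y => Subtype.ext (map_mul Φ.conjStarAlgEquiv _ _)
        map_add' := fun x y => Subtype.ext (map_add Φ.conjStarAlgEquiv _ _)
        map_star' := fun x => Subtype.ext (map_star Φ.conjStarAlgEquiv _)
        map_smul' := fun c x => Subtype.ext (map_smul Φ.conjStarAlgEquiv c _) }
    refine ⟨α, fun x => ?_, fun j => Subtype.ext (hconj j)⟩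
    rw [h.tau, h.tau]
    change ⟪Ω, Φ ((x : H →L[ℂ] H) (Φ.symm Ω))⟫_ℂ = _
    have h1 : Φ.symm Ω = Ω := by rw [LinearIsometryEquiv.symm_apply_eq, hΦΩ]
    rw [h1]
    calc ⟪Ω, Φ ((x : H →L[ℂ] H) Ω)⟫_ℂ = ⟪Φ Ω, Φ ((x : H →L[ℂ] H) Ω)⟫_ℂ := by rw [hΦΩ]
      _ = _ := Φ.inner_map_map _ _

end std

end Crest.Agent.R134
end

-- ▼ part R134/Ends
section

/-!
R134 (helper127): the concrete algebra `L(F_N)`: freeness of the generators, and the final
isomorphism from a generating free family.
-/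

set_option autoImplicit false
set_option linter.unusedSectionVars false

open scoped InnerProductSpace ENNReal
open Filter Topology

namespace Crest.Agent.R134

open Crest.OpAlg Crest.Agent.R95

section std

variable (G : Type*) [Group G] [DecidableEq G]

theorem dense_span_dl : Dense (Submodule.span ℂ (Set.range fun g : G => (dl g : ltwo G)) :
    Set (ltwo G)) := by
  rw [Metric.dense_iff]
  intro v ε hε
  obtain ⟨s, hs⟩ := exists_finset_approx v hε
  refine ⟨_, ?_, sum_mem (t := s) (f := fun g => (v : ltwo G) g • (dl g : ltwo G))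
    (fun g _ => Submodule.smul_mem _ _ (Submodule.subset_span ⟨g, rfl⟩))⟩
  rw [Metric.mem_ball, dist_eq_norm]
  exact hs

/-- `L(G)` is in standard form -/
theorem stdG : Std (groupVNA G) (dl (1 : G) : ltwo G) where
  ft := xi_tracial
  cyc := by
    refine (dense_span_dl G).mono ?_
    intro v hv
    induction hv using Submodule.span_induction with
    | mem v hv =>
      obtain ⟨g, rfl⟩ := hv
      exact ⟨leftRegular g, leftRegular_mem g, by rw [leftRegular_dl, mul_one]⟩
    | zero => exact ⟨0, zero_mem _, rfl⟩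
    | add v w _ _ hv hw =>
      obtain ⟨x, hx, rfl⟩ := hv
      obtain ⟨y, hy, rfl⟩ := hw
      exact ⟨x + y, add_mem hx hy, rfl⟩
    | smul c v _ hv =>
      obtain ⟨x, hx, rfl⟩ := hv
      exact ⟨c • x, smul_mem' c hx, rfl⟩

/-- the tracial state of `L(G)` -/
noncomputable abbrev TG : TracialState (groupVNA G).toStarSubalgebra := (stdG G).T

variable {G}

theorem TG_tau (x : (groupVNA G).toStarSubalgebra) :
    (TG G).τ x = groupTrace G (x : ltwo G →L[ℂ] ltwo G) := by
  rw [← vectorState_xi]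
  rfl

theorem TG_nrm2 (x : (groupVNA G).toStarSubalgebra) :
    (TG G).nrm2 x = ‖(x : ltwo G →L[ℂ] ltwo G) (dl 1)‖ := by
  rw [← N2_xi]
  exact vnTrace_nrm2 _ _

/-- the canonical unitaries of `L(G)` -/
noncomputable def lam (g : G) : (groupVNA G).toStarSubalgebra := ⟨leftRegular g, leftRegular_mem g⟩

theorem coe_lam (g : G) : ((lam g : (groupVNA G).toStarSubalgebra) : ltwo G →L[ℂ] ltwo G) =
    leftRegular g := rfl

theorem lam_mul (g h : G) : (lam (g * h) : (groupVNA G).toStarSubalgebra) = lam g * lam h :=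
  Subtype.ext (leftRegular_mul g h)

theorem lam_one : (lam (1 : G) : (groupVNA G).toStarSubalgebra) = 1 :=
  Subtype.ext leftRegular_one

theorem star_lam (g : G) : star (lam g : (groupVNA G).toStarSubalgebra) = lam g⁻¹ :=
  Subtype.ext (star_leftRegular g)

theorem lam_unitary (g : G) : (lam g : (groupVNA G).toStarSubalgebra) ∈ unitary _ := by
  rw [Unitary.mem_iff, star_lam, ← lam_mul, ← lam_mul]
  simp [lam_one]

/-- `λ` as a homomorphism to the unitary group -/
noncomputable def lamU : G →* unitary (groupVNA G).toStarSubalgebra where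
  toFun g := ⟨lam g, lam_unitary g⟩
  map_one' := Subtype.ext lam_one
  map_mul' g h := Subtype.ext (lam_mul g h)

theorem coe_lamU (g : G) : ((lamU g : unitary (groupVNA G).toStarSubalgebra) :
    (groupVNA G).toStarSubalgebra) = lam g := rfl

theorem tau_lam (g : G) (hg : g ≠ 1) : (TG G).τ (lam g) = 0 := by
  rw [TG_tau, coe_lam, groupTrace_eq, leftRegular_dl, mul_one, inner_dl_dl, if_neg (Ne.symm hg)]

theorem coe_mem_of_mem_W {N : VonNeumannAlgebra (ltwo G)} (hN : N ≤ groupVNA G)
    {S : Set (groupVNA G).toStarSubalgebra} (hS : ∀ s ∈ S, (s : ltwo G →L[ℂ] ltwo G) ∈ N)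
    {x : (groupVNA G).toStarSubalgebra} (hx : x ∈ W (TG G) S) :
    (x : ltwo G →L[ℂ] ltwo G) ∈ N := by
  refine mem_of_forall_N2_lt xi_tracial hN x.2 (fun ε hε => ?_)
  obtain ⟨a, ha, hxa⟩ := hx ε hε
  refine ⟨(a : ltwo G →L[ℂ] ltwo G), ?_, ?_⟩
  · have hle : StarAlgebra.adjoin ℂ S ≤
        N.toStarSubalgebra.comap (groupVNA G).toStarSubalgebra.subtype :=
      StarAlgebra.adjoin_le (fun s hs => hS s hs)
    exact hle ha
  · rw [TG_nrm2] at hxa
    rw [N2_sub_comm, N2_xi]
    exact hxa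

theorem iso_of_gens {n : ℕ} (U : Fin n → unitary (groupVNA G).toStarSubalgebra)
    (htau : ∀ k : FreeGroup (Fin n), k ≠ 1 → (TG G).τ ((FreeGroup.lift U k :
      unitary (groupVNA G).toStarSubalgebra) : (groupVNA G).toStarSubalgebra) = 0)
    (hgen : ∀ z, z ∈ W (TG G) (Set.range fun i => (U i : (groupVNA G).toStarSubalgebra))) :
    ∃ Φ : (groupVNA (FreeGroup (Fin n))).toStarSubalgebra ≃⋆ₐ[ℂ] (groupVNA G).toStarSubalgebra,
      ∀ x : (groupVNA (FreeGroup (Fin n))).toStarSubalgebra,
        groupTrace G ((Φ x : (groupVNA G).toStarSubalgebra) : ltwo G →L[ℂ] ltwo G) =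
          groupTrace (FreeGroup (Fin n)) (x : ltwo (FreeGroup (Fin n)) →L[ℂ] ltwo (FreeGroup (Fin n))) := by
  refine transport (crep U) (crep_mem U) (star_crep U) ?_ ?_
  · intro k hk
    rw [crep_apply, ← TG_tau]
    exact htau k hk
  · rw [top_le_iff, ← Submodule.dense_iff_topologicalClosure_eq_top]
    have h1 : (Set.range fun g : G => (dl g : ltwo G)) ⊆
        (Submodule.span ℂ (Set.range fun k => crep U k (dl 1))).topologicalClosure := by
      rintro _ ⟨g, rfl⟩
      change dl g ∈ closure _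
      rw [Metric.mem_closure_iff]
      intro ε hε
      obtain ⟨a, ha, hga⟩ := hgen (lam g) ε hε
      have hle : (StarAlgebra.adjoin ℂ (Set.range fun i => (U i : (groupVNA G).toStarSubalgebra))) ≤
          (spanSub (crep U) (star_crep U)).comap (groupVNA G).toStarSubalgebra.subtype := by
        refine StarAlgebra.adjoin_le ?_
        rintro _ ⟨i, rfl⟩
        refine Submodule.subset_span ⟨FreeGroup.of i, ?_⟩
        rw [crep_apply, FreeGroup.lift_apply_of]
        rfl
      have h2 : (a : ltwo G →L[ℂ] ltwo G) ∈ Submodule.span ℂ (Set.range (crep U)) := hle ha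
      refine ⟨(a : ltwo G →L[ℂ] ltwo G) (dl 1), ?_, ?_⟩
      · have hmap : (Submodule.span ℂ (Set.range fun k => crep U k (dl 1))) =
            (Submodule.span ℂ (Set.range (crep U))).map
              ((ContinuousLinearMap.apply ℂ (ltwo G) (dl 1)).toLinearMap) := by
          rw [Submodule.map_span, ← Set.range_comp]
          rfl
        rw [hmap]
        exact ⟨_, h2, rfl⟩
      · rw [TG_nrm2] at hga
        rw [dist_eq_norm]
        have e : ((lam g - a : (groupVNA G).toStarSubalgebra) : ltwo G →L[ℂ] ltwo G) (dl 1) =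
            dl g - (a : ltwo G →L[ℂ] ltwo G) (dl 1) := by
          change (leftRegular g) (dl 1) - _ = _
          rw [leftRegular_dl, mul_one]
          rfl
        rw [← e]
        exact hga
    have h3 : (Submodule.span ℂ (Set.range fun g : G => (dl g : ltwo G)) : Set (ltwo G)) ⊆
        (Submodule.span ℂ (Set.range fun k => crep U k (dl 1))).topologicalClosure :=
      Submodule.span_le.2 h1
    have h4 := (dense_span_dl G).mono h3
    rw [Submodule.dense_iff_topologicalClosure_eq_top] at h4 ⊢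
    rw [← h4]
    exact (Submodule.isClosed_topologicalClosure _).submodule_topologicalClosure_eq.symm

end std

section free

variable {α : Type*} [DecidableEq α]

/-- the set of generators `λ(a)`, `a ∈ E` -/
noncomputable def gens (E : Set α) : Set (groupVNA (FreeGroup α)).toStarSubalgebra :=
  (fun a => lam (FreeGroup.of a)) '' E

theorem suppIn_of_mem_W {E : Set α} {x : (groupVNA (FreeGroup α)).toStarSubalgebra}
    (hx : x ∈ W (TG (FreeGroup α)) (gens E)) :
    SuppIn (letterSub E : Set (FreeGroup α))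
      ((x : ltwo (FreeGroup α) →L[ℂ] ltwo (FreeGroup α)) (dl 1)) := by
  apply suppIn_of_mem_vH
  refine coe_mem_of_mem_W (vH_le _) ?_ hx
  rintro _ ⟨a, ha, rfl⟩
  exact leftRegular_mem_vH (of_mem_letterSub ha)

theorem SuppIn.left {G : Type*} [Group G] [DecidableEq G] {B C : Set G} {v : ltwo G}
    (hv : SuppIn B v) (g : G) (h : ∀ b ∈ B, g * b ∈ C) : SuppIn C (leftRegular g v) := by
  intro k hk
  rw [leftRegular_apply]
  refine hv _ (fun hb => hk ?_)
  have := h _ hb
  rwa [mul_inv_cancel_left] at this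

theorem sg_lam (z : α) (b : Bool) :
    ((sg (lam (FreeGroup.of z)) b : (groupVNA (FreeGroup α)).toStarSubalgebra) :
      ltwo (FreeGroup α) →L[ℂ] ltwo (FreeGroup α)) = leftRegular (FreeGroup.mk [(z, b)]) := by
  rw [mk_singleton]
  unfold sg
  split_ifs
  · rfl
  · rw [star_lam]; rfl

/-- the vector `x δ` -/
noncomputable def vc {G : Type*} [Group G] [DecidableEq G] (x : (groupVNA G).toStarSubalgebra) :
    ltwo G := (x : ltwo G →L[ℂ] ltwo G) (dl 1)

theorem vc_mul {G : Type*} [Group G] [DecidableEq G] (x y : (groupVNA G).toStarSubalgebra) :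
    vc (x * y) = (x : ltwo G →L[ℂ] ltwo G) (vc y) := rfl

theorem suppIn_word {E : Set α} {z : α} (hz : z ∉ E) :
    ∀ (L : List (Bool × (groupVNA (FreeGroup α)).toStarSubalgebra)) (b : Bool)
      (a : (groupVNA (FreeGroup α)).toStarSubalgebra),
      (∀ p ∈ (b, a) :: L, p.2 ∈ (W (TG (FreeGroup α)) (gens E) : Set _)) →
      Alt (TG (FreeGroup α)) ((b, a) :: L) →
      SuppIn (FreeGroup.startsWith (z, b)) (vc (word (lam (FreeGroup.of z)) ((b, a) :: L))) := by
  intro L
  induction L with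
  | nil =>
    intro b a hmem _
    have ha := suppIn_of_mem_W (hmem (b, a) List.mem_cons_self)
    have e : vc (word (lam (FreeGroup.of z)) [(b, a)]) = leftRegular (FreeGroup.mk [(z, b)])
          ((a : ltwo (FreeGroup α) →L[ℂ] ltwo (FreeGroup α)) (dl 1)) := by
      rw [← sg_lam]
      simp only [word, mul_one]
      rfl
    rw [e]
    exact ha.left _ (fun h hh => start_mul' hz hh)
  | cons q L ih =>
    intro b a hmem halt
    obtain ⟨b', a'⟩ := q
    have hv := ih b' a' (fun p hp => hmem p (List.mem_cons_of_mem _ hp)) halt.2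
    have ha := suppIn_of_mem_W (hmem (b, a) List.mem_cons_self)
    set v := vc (word (lam (FreeGroup.of z)) ((b', a') :: L)) with hvdef
    have e : vc (word (lam (FreeGroup.of z)) ((b, a) :: (b', a') :: L)) =
        leftRegular (FreeGroup.mk [(z, b)])
          ((a : ltwo (FreeGroup α) →L[ℂ] ltwo (FreeGroup α)) v) := by
      rw [← sg_lam, hvdef]
      rw [word, mul_assoc, vc_mul, vc_mul]
    rw [e]
    by_cases hb : b = b'
    · have h1 : SuppIn {k | ∃ h ∈ letterSub E, ∃ w ∈ FreeGroup.startsWith (z, b'), k = h * w}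
          ((a : ltwo (FreeGroup α) →L[ℂ] ltwo (FreeGroup α)) v) :=
        SuppIn.apply a.2 ha hv (fun h hh w hw => ⟨h, hh, w, hw, rfl⟩)
      refine h1.left _ ?_
      rintro _ ⟨h, hh, w, hw, rfl⟩
      exact start_mul hz hh hw (fun hne => absurd hb hne)
    · have hτ : (TG (FreeGroup α)).τ a = 0 := halt.1 hb
      have ha' : SuppIn {h | h ∈ letterSub E ∧ h ≠ 1}
          ((a : ltwo (FreeGroup α) →L[ℂ] ltwo (FreeGroup α)) (dl 1)) := by
        intro h hh
        by_cases h1 : h = 1
        · rw [TG_tau, groupTrace_eq, inner_dl_left] at hτ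
          rw [h1]; exact hτ
        · exact ha h (fun h2 => hh ⟨h2, h1⟩)
      have h1 : SuppIn {k | ∃ h ∈ letterSub E, h ≠ 1 ∧ ∃ w ∈ FreeGroup.startsWith (z, b'), k = h * w}
          ((a : ltwo (FreeGroup α) →L[ℂ] ltwo (FreeGroup α)) v) :=
        SuppIn.apply a.2 ha' hv (fun h hh w hw => ⟨h, hh.1, hh.2, w, hw, rfl⟩)
      refine h1.left _ ?_
      rintro _ ⟨h, hh, hne, w, hw, rfl⟩
      exact start_mul hz hh hw (fun _ => hne)

/-- the generator `λ(z)` is a Haar unitary free from the algebra of the generators in `E ∌ z`. -/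
theorem freeHaar_lam {E : Set α} {z : α} (hz : z ∉ E) :
    FreeHaar (TG (FreeGroup α)) (W (TG (FreeGroup α)) (gens E) : Set _)
      (lam (FreeGroup.of z)) := by
  refine ⟨lam_unitary _, ?_⟩
  intro L hL hmem halt
  obtain ⟨⟨b, a⟩, t, rfl⟩ := List.exists_cons_of_ne_nil hL
  have h := suppIn_word hz t b a hmem halt
  rw [TG_tau, groupTrace_eq, inner_dl_left]
  refine h 1 ?_
  intro h1
  exact FreeGroup.startsWith.ne_one _ h1 rfl

theorem gen_lam : ∀ x, x ∈ W (TG (FreeGroup α)) (gens (Set.univ : Set α)) := by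
  intro x
  have hx : (x : ltwo (FreeGroup α) →L[ℂ] ltwo (FreeGroup α)) ∈ vH (⊤ : Subgroup (FreeGroup α)) := by
    rw [vH_top]; exact x.2
  refine mem_W_of_mem_vnGen (stdG (FreeGroup α)).ft (s := leftRegular '' _) ?_ x hx
  rintro _ ⟨g, -, rfl⟩
  refine ⟨lam g, ?_, rfl⟩
  have h1 : FreeGroup.lift (fun a : α => (lamU (FreeGroup.of a) :
      unitary (groupVNA (FreeGroup α)).toStarSubalgebra)) g = lamU g := by
    have : FreeGroup.lift (fun a : α => (lamU (FreeGroup.of a) :
      unitary (groupVNA (FreeGroup α)).toStarSubalgebra)) = lamU := by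
      ext a
      simp
    rw [this]
  have h2 := lift_mem_adjoin (fun a : α => (lamU (FreeGroup.of a) :
      unitary (groupVNA (FreeGroup α)).toStarSubalgebra)) g
  rw [h1] at h2
  refine StarAlgebra.adjoin_mono ?_ h2
  rintro _ ⟨a, rfl⟩
  exact ⟨a, Set.mem_univ _, rfl⟩

end free

section final

/-- the isomorphism from a free Haar unitary over the algebra of the other generators -/
theorem iso_final {m N : ℕ} (e' : Fin (m + 1) → Fin N) (he : Function.Injective e')
    {b' : (groupVNA (FreeGroup (Fin N))).toStarSubalgebra}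
    (hb : FreeHaar (TG (FreeGroup (Fin N)))
      (W (TG (FreeGroup (Fin N))) (gens (e' '' {i | i ≠ Fin.last m})) : Set _) b')
    (hgen : ∀ z, z ∈ W (TG (FreeGroup (Fin N))) (gens (e' '' {i | i ≠ Fin.last m}) ∪ {b'})) :
    ∃ Φ : (groupVNA (FreeGroup (Fin (m + 1)))).toStarSubalgebra ≃⋆ₐ[ℂ]
        (groupVNA (FreeGroup (Fin N))).toStarSubalgebra,
      ∀ x : (groupVNA (FreeGroup (Fin (m + 1)))).toStarSubalgebra,
        groupTrace (FreeGroup (Fin N)) ((Φ x : (groupVNA (FreeGroup (Fin N))).toStarSubalgebra) :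
          ltwo (FreeGroup (Fin N)) →L[ℂ] ltwo (FreeGroup (Fin N))) =
        groupTrace (FreeGroup (Fin (m + 1)))
          (x : ltwo (FreeGroup (Fin (m + 1))) →L[ℂ] ltwo (FreeGroup (Fin (m + 1)))) := by
  classical
  let U : Fin (m + 1) → unitary (groupVNA (FreeGroup (Fin N))).toStarSubalgebra :=
    fun i => if i = Fin.last m then ⟨b', hb.1⟩ else lamU (FreeGroup.of (e' i))
  have hUl : (U (Fin.last m) : (groupVNA (FreeGroup (Fin N))).toStarSubalgebra) = b' := by
    simp [U]
  have hUi : ∀ i, i ≠ Fin.last m → U i = lamU (FreeGroup.of (e' i)) := by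
    intro i hi
    simp [U, hi]
  refine iso_of_gens U ?_ ?_
  · refine tau_lift (G := W (TG (FreeGroup (Fin N))) (gens (e' '' {i | i ≠ Fin.last m})))
      (z := Fin.last m) U ?_ ?_ ?_
    · intro i hi
      rw [hUi i hi]
      exact subset_W _ _ ⟨e' i, ⟨i, hi, rfl⟩, rfl⟩
    · rw [hUl]; exact hb
    · intro k hk hk1
      have h1 : letterSub {i : Fin (m + 1) | i ≠ Fin.last m} ≤
          MonoidHom.eqLocus (FreeGroup.lift U) (lamU.comp (FreeGroup.map e')) := by
        refine letterSub_le ?_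
        intro i hi
        change FreeGroup.lift U (FreeGroup.of i) = lamU (FreeGroup.map e' (FreeGroup.of i))
        rw [FreeGroup.lift_apply_of, FreeGroup.map.of, hUi i hi]
      have h2 : FreeGroup.lift U k = lamU (FreeGroup.map e' k) := h1 hk
      rw [h2, coe_lamU]
      apply tau_lam
      intro h3
      apply hk1
      have h4 : FreeGroup.map e' k = FreeGroup.map e' 1 := by rw [h3, map_one]
      exact FreeGroup.map_injective he h4
  · intro z
    refine W_mono _ ?_ (hgen z)
    rintro x (⟨_, ⟨i, hi, rfl⟩, rfl⟩ | hx)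
    · exact ⟨i, by simp only; rw [hUi i hi]; rfl⟩
    · exact ⟨Fin.last m, by simp only; rw [hUl]; exact hx.symm⟩

end final

end Crest.Agent.R134
end

-- ▼ part R134/Final

/-!
R134 (helper127): S0183 and S0184 from the abstract conclusions `two_three` and `many`.
-/

set_option autoImplicit false
set_option linter.unusedSectionVars false

namespace Crest.Agent.R134

open Crest.OpAlg Crest.Agent.R95

/-- the exact statement of `Iface2.many` for one algebra -/
def ManyStatement {A : Type*} [CStarAlgebra A] (T : TracialState A) : Prop :=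
  ∀ {S : Set A} {b c : A} (u v : ℕ → A), Pairs u v → (∀ j, u j ∈ W T S) → (∀ j, v j ∈ W T S) →
    FreeHaar T (W T (S ∪ {c}) : Set A) b → FreeHaar T (W T (S ∪ {b}) : Set A) c →
    (∀ z, z ∈ W T (S ∪ {b, c})) →
    ∃ b' : A, FreeHaar T (W T S : Set A) b' ∧ ∀ z, z ∈ W T (S ∪ {b'})

/-- the exact statement of `Iface2.two_three` for one algebra -/
def TwoThreeStatement {A : Type*} [CStarAlgebra A] (T : TracialState A) : Prop :=
  ∀ {a b c : A}, a ∈ unitary A → (∀ k : ℕ, 0 < k → T.τ (a ^ k) = 0) →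
    FreeHaar T (W T {a, c} : Set A) b → FreeHaar T (W T {a, b} : Set A) c →
    (∀ z, z ∈ W T {a, b, c}) →
    ∃ b' : A, FreeHaar T (W T {a} : Set A) b' ∧ ∀ z, z ∈ W T {a, b'}

theorem gens_insert {α : Type*} [DecidableEq α] (E : Set α) (z : α) :
    gens (E ∪ {z}) = gens E ∪ {lam (FreeGroup.of z)} := by
  unfold gens
  rw [Set.image_union, Set.image_singleton]

theorem gens_singleton {α : Type*} [DecidableEq α] (z : α) :
    gens ({z} : Set α) = {lam (FreeGroup.of z)} := by
  unfold gens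
  rw [Set.image_singleton]

theorem lam_pow {G : Type*} [Group G] [DecidableEq G] (g : G) (k : ℕ) :
    (lam g : (groupVNA G).toStarSubalgebra) ^ k = lam (g ^ k) := by
  induction k with
  | zero => rw [pow_zero, pow_zero, lam_one]
  | succ k ih => rw [pow_succ, pow_succ, lam_mul, ih]

theorem tau_lam_pow {α : Type*} [DecidableEq α] (a : α) (k : ℕ) (hk : 0 < k) :
    (TG (FreeGroup α)).τ (lam (FreeGroup.of a) ^ k) = 0 := by
  rw [lam_pow]
  apply tau_lam
  intro h
  have h1 := FreeGroup.norm_of_pow a k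
  rw [h, FreeGroup.norm_one] at h1
  omega

/-- Pauli pairs from two generators -/
theorem exists_pairs {α : Type*} [DecidableEq α] {a b : α} (hab : a ≠ b) :
    ∃ u v : ℕ → (groupVNA (FreeGroup α)).toStarSubalgebra, Pairs u v ∧
      (∀ j, u j ∈ W (TG (FreeGroup α)) (gens {a, b})) ∧
      (∀ j, v j ∈ W (TG (FreeGroup α)) (gens {a, b})) := by
  have h := hasFreePauli (stdG (FreeGroup α)).ft (lam (FreeGroup.of a)) (lam (FreeGroup.of b))
    (lam_unitary _) (tau_lam_pow a) ?_
  · have e : gens ({a, b} : Set α) = {lam (FreeGroup.of a), lam (FreeGroup.of b)} := by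
      unfold gens
      rw [Set.image_pair]
    rw [e]
    exact h
  · have := freeHaar_lam (E := {a}) (z := b) (fun h => hab (Set.mem_singleton_iff.1 h).symm)
    rwa [gens_singleton] at this

theorem s0184_of_many (n : ℕ) (hn : 3 ≤ n)
    (hmany : ManyStatement (TG (FreeGroup (Fin (n + 1))))) :
    ∃ Φ : (groupVNA (FreeGroup (Fin n))).toStarSubalgebra ≃⋆ₐ[ℂ]
        (groupVNA (FreeGroup (Fin (n + 1)))).toStarSubalgebra,
      ∀ x : (groupVNA (FreeGroup (Fin n))).toStarSubalgebra,
        groupTrace (FreeGroup (Fin (n + 1))) ((Φ x : (groupVNA (FreeGroup (Fin (n + 1)))).toStarSubalgebra) :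
          ltwo (FreeGroup (Fin (n + 1))) →L[ℂ] ltwo (FreeGroup (Fin (n + 1)))) =
        groupTrace (FreeGroup (Fin n))
          (x : ltwo (FreeGroup (Fin n)) →L[ℂ] ltwo (FreeGroup (Fin n))) := by
  obtain ⟨m, rfl⟩ : ∃ m, n = m + 1 := ⟨n - 1, by omega⟩
  set e' : Fin (m + 1) → Fin (m + 1 + 1) := Fin.castSucc with he'
  have hinj : Function.Injective e' := Fin.castSucc_injective _
  set E : Set (Fin (m + 1 + 1)) := e' '' {i | i ≠ Fin.last m} with hE
  set b0 : Fin (m + 1 + 1) := e' (Fin.last m) with hb0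
  set c0 : Fin (m + 1 + 1) := Fin.last (m + 1) with hc0
  have hbE : b0 ∉ E := by
    rintro ⟨i, hi, h⟩
    exact hi (hinj h)
  have hcE : c0 ∉ E := by
    rintro ⟨i, hi, h⟩
    exact (Fin.castSucc_lt_last i).ne h
  have hbc : b0 ≠ c0 := (Fin.castSucc_lt_last _).ne
  have h0E : (⟨0, by omega⟩ : Fin (m + 1 + 1)) ∈ E :=
    ⟨⟨0, by omega⟩, fun h => by
      have := congrArg Fin.val h
      simp only [Fin.val_last] at this
      omega, rfl⟩
  have h1E : (⟨1, by omega⟩ : Fin (m + 1 + 1)) ∈ E :=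
    ⟨⟨1, by omega⟩, fun h => by
      have := congrArg Fin.val h
      simp only [Fin.val_last] at this
      omega, rfl⟩
  obtain ⟨u, v, huv, hu, hv⟩ := exists_pairs (α := Fin (m + 1 + 1)) (a := ⟨0, by omega⟩)
    (b := ⟨1, by omega⟩) (by intro h; have := congrArg Fin.val h; simp at this)
  have hsub : gens ({⟨0, by omega⟩, ⟨1, by omega⟩} : Set (Fin (m + 1 + 1))) ⊆ gens E := by
    unfold gens
    refine Set.image_mono ?_
    rintro x (rfl | rfl)
    · exact h0E
    · exact h1E
  have hb : FreeHaar (TG (FreeGroup (Fin (m + 1 + 1))))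
      (W (TG (FreeGroup (Fin (m + 1 + 1)))) (gens E ∪ {lam (FreeGroup.of c0)}) : Set _)
      (lam (FreeGroup.of b0)) := by
    rw [← gens_insert]
    refine freeHaar_lam ?_
    rintro (h | h)
    · exact hbE h
    · exact hbc h
  have hc : FreeHaar (TG (FreeGroup (Fin (m + 1 + 1))))
      (W (TG (FreeGroup (Fin (m + 1 + 1)))) (gens E ∪ {lam (FreeGroup.of b0)}) : Set _)
      (lam (FreeGroup.of c0)) := by
    rw [← gens_insert]
    refine freeHaar_lam ?_
    rintro (h | h)
    · exact hcE h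
    · exact hbc h.symm
  have hg : ∀ z, z ∈ W (TG (FreeGroup (Fin (m + 1 + 1))))
      (gens E ∪ {lam (FreeGroup.of b0), lam (FreeGroup.of c0)}) := by
    intro z
    refine W_mono _ ?_ (gen_lam z)
    rintro _ ⟨i, -, rfl⟩
    by_cases h1 : i = c0
    · subst h1; exact Or.inr (Or.inr rfl)
    by_cases h2 : i = b0
    · subst h2; exact Or.inr (Or.inl rfl)
    left
    refine ⟨i, ?_, rfl⟩
    obtain ⟨j, rfl⟩ : ∃ j, i = Fin.castSucc j := ⟨i.castPred h1, by simp⟩
    exact ⟨j, fun hj => h2 (by rw [hb0, he', hj]), rfl⟩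
  obtain ⟨b', hb', hgen⟩ := hmany (S := gens E) u v huv (fun j => W_mono _ hsub (hu j))
    (fun j => W_mono _ hsub (hv j)) hb hc hg
  exact iso_final e' hinj hb' hgen

theorem s0183_of_two_three (h23 : TwoThreeStatement (TG (FreeGroup (Fin 3)))) :
    ∃ Φ : (groupVNA (FreeGroup (Fin 2))).toStarSubalgebra ≃⋆ₐ[ℂ]
        (groupVNA (FreeGroup (Fin 3))).toStarSubalgebra,
      ∀ x : (groupVNA (FreeGroup (Fin 2))).toStarSubalgebra,
        groupTrace (FreeGroup (Fin 3)) ((Φ x : (groupVNA (FreeGroup (Fin 3))).toStarSubalgebra) :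
          ltwo (FreeGroup (Fin 3)) →L[ℂ] ltwo (FreeGroup (Fin 3))) =
        groupTrace (FreeGroup (Fin 2))
          (x : ltwo (FreeGroup (Fin 2)) →L[ℂ] ltwo (FreeGroup (Fin 2))) := by
  have key : ∀ z w : Fin 3, z ≠ w → z ≠ 0 → w ≠ 0 → FreeHaar (TG (FreeGroup (Fin 3)))
      (W (TG (FreeGroup (Fin 3))) {lam (FreeGroup.of 0), lam (FreeGroup.of w)} : Set _)
      (lam (FreeGroup.of z)) := by
    intro z w hzw hz hw
    have h := freeHaar_lam (E := ({0, w} : Set (Fin 3))) (z := z)
      (by rintro (h | h); exacts [hz h, hzw h])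
    have e : gens ({0, w} : Set (Fin 3)) = {lam (FreeGroup.of 0), lam (FreeGroup.of w)} := by
      unfold gens
      rw [Set.image_pair]
    rwa [e] at h
  obtain ⟨b', hb', hgen⟩ := h23 (a := lam (FreeGroup.of 0)) (b := lam (FreeGroup.of 1))
    (c := lam (FreeGroup.of 2)) (lam_unitary _) (tau_lam_pow 0)
    (key 1 2 (by decide) (by decide) (by decide)) (key 2 1 (by decide) (by decide) (by decide))
    (by
      intro z
      refine W_mono _ ?_ (gen_lam z)
      rintro _ ⟨i, -, rfl⟩
      fin_cases i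
      · exact Or.inl rfl
      · exact Or.inr (Or.inl rfl)
      · exact Or.inr (Or.inr rfl))
  have hE : (Fin.castSucc : Fin 2 → Fin 3) '' {i : Fin (1 + 1) | i ≠ Fin.last 1} = {0} := by
    ext i
    simp only [Set.mem_image, Set.mem_ofPred_eq, Set.mem_singleton_iff]
    constructor
    · rintro ⟨j, hj, rfl⟩
      fin_cases j
      · rfl
      · exact absurd rfl hj
    · rintro rfl
      exact ⟨0, by decide, rfl⟩
  refine iso_final (m := 1) (N := 3) Fin.castSucc (Fin.castSucc_injective _) (b' := b') ?_ ?_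
  · rw [hE, gens_singleton]; exact hb'
  · rw [hE, gens_singleton]
    intro z
    exact hgen z

end Crest.Agent.R134
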