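import Crest.Agent.R134.Data

/-!
R134 (helper954): basic properties of `FreeHaar` and the extension lemma for automorphisms.
-/

set_option autoImplicit false

universe u

namespace Crest.Agent.R134

open Crest.Agent.R95 Filter Topology

variable {A : Type u} [CStarAlgebra A] (T : TracialState A)



theorem star_sg (u : A) (b : Bool) : star (sg u b) = sg u (!b) := by
  cases b
  · simp [sg]
  · simp [sg]

theorem sg_mul_sg {u : A} (hu : u ∈ unitary A) {b b' : Bool} (h : b ≠ b') :
    sg u b * sg u b' = 1 := by
  cases b <;> cases b' <;> simp_all [sg, Unitary.mem_iff]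

theorem word_append (u : A) (L₁ L₂ : List (Bool × A)) :
    word u (L₁ ++ L₂) = word u L₁ * word u L₂ := by
  induction L₁ with
  | nil => simp [word]
  | cons p L ih =>
    obtain ⟨b, a⟩ := p
    simp only [List.cons_append, word, ih, mul_assoc]

theorem alt_cons (p : Bool × A) (L : List (Bool × A)) :
    Alt T (p :: L) ↔
      (∀ e, (L.map Prod.fst).head? = some e → p.1 ≠ e → T.τ p.2 = 0) ∧ Alt T L := by
  obtain ⟨b, a⟩ := p
  cases L with
  | nil => simp [Alt]
  | cons q L =>
    obtain ⟨b', a'⟩ := q
    simp [Alt]

/-- replacing one coefficient -/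
theorem Alt.replace {L₁ L₂ : List (Bool × A)} {b : Bool} {x x' : A}
    (h : Alt T (L₁ ++ (b, x) :: L₂)) (hx : T.τ x = 0 → T.τ x' = 0) :
    Alt T (L₁ ++ (b, x') :: L₂) := by
  induction L₁ with
  | nil =>
    simp only [List.nil_append] at h ⊢
    rw [alt_cons] at h ⊢
    exact ⟨fun e he hne => hx (h.1 e he hne), h.2⟩
  | cons p L ih =>
    simp only [List.cons_append] at h ⊢
    rw [alt_cons] at h ⊢
    refine ⟨?_, ih h.2⟩
    simpa using h.1

/-- multiply the last coefficient -/
theorem exists_mul_last {G : StarSubalgebra ℂ A} (L : List (Bool × A)) (hL : L ≠ [])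
    (hG : ∀ p ∈ L, p.2 ∈ G) {c : A} (hc : c ∈ G) :
    ∃ L' : List (Bool × A), L'.map Prod.fst = L.map Prod.fst ∧ (∀ p ∈ L', p.2 ∈ G) ∧
      (Alt T L → Alt T L') ∧ ∀ u, word u L * c = word u L' := by
  induction L with
  | nil => exact absurd rfl hL
  | cons p L ih =>
    obtain ⟨b, a⟩ := p
    by_cases hL0 : L = []
    · subst hL0
      refine ⟨[(b, a * c)], rfl, ?_, fun _ => trivial, fun u => ?_⟩
      · intro p hp
        rw [List.mem_singleton] at hp
        subst hp
        exact mul_mem (hG (b, a) (by simp)) hc
      · simp [word, mul_assoc]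
    · obtain ⟨L', h1, h2, h3, h4⟩ := ih hL0 (fun p hp => hG p (by simp [hp]))
      refine ⟨(b, a) :: L', by simp [h1], ?_, ?_, fun u => ?_⟩
      · intro p hp
        rcases List.mem_cons.1 hp with rfl | hp
        · exact hG _ (by simp)
        · exact h2 p hp
      · intro h
        rw [alt_cons] at h ⊢
        rw [h1]
        exact ⟨h.1, h3 h.2⟩
      · simp only [word]
        rw [mul_assoc, h4]

omit [CStarAlgebra A] in
theorem ne_nil_of_map_fst {L L' : List (Bool × A)} (h : L'.map Prod.fst = L.map Prod.fst)
    (hL : L ≠ []) : L' ≠ [] := by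
  rintro rfl
  apply hL
  simpa using h.symm

theorem FreeHaar.zero {G : StarSubalgebra ℂ A} {u : A} (h : FreeHaar T (G : Set A) u)
    {L : List (Bool × A)} (hL : L ≠ []) (hG : ∀ p ∈ L, p.2 ∈ G) (hA : Alt T L)
    {a c : A} (ha : a ∈ G) (hc : c ∈ G) : T.τ (a * word u L * c) = 0 := by
  rw [mul_assoc, T.tr, mul_assoc]
  obtain ⟨L', h1, h2, h3, h4⟩ := exists_mul_last T L hL hG (mul_mem hc ha)
  rw [h4]
  exact h.2 L' (ne_nil_of_map_fst h1 hL) h2 (h3 hA)

theorem tau_abs_le (a x c : A) : ‖T.τ (a * x * c)‖ ≤ ‖a‖ * ‖c‖ * T.nrm2 x := by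
  rw [mul_assoc, T.tr, mul_assoc]
  refine (T.norm_tau_mul_le _ _).trans ?_
  have h1 : T.nrm2 (c * a) ≤ ‖c‖ * ‖a‖ := (T.nrm2_le_norm _).trans (norm_mul_le _ _)
  calc T.nrm2 x * T.nrm2 (c * a) ≤ T.nrm2 x * (‖c‖ * ‖a‖) := by
        gcongr; exact T.nrm2_nonneg _
    _ = _ := by ring

/-- freeness from a star algebra extends to its 2-norm closure -/
theorem FreeHaar.closure {S : Set A} {u : A}
    (h : FreeHaar T (StarAlgebra.adjoin ℂ S : Set A) u) : FreeHaar T (W T S : Set A) u := by
  refine ⟨h.1, ?_⟩
  -- `L₁` has entries in the closure, `L₂` entries in the algebra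
  have key : ∀ L₁ L₂ : List (Bool × A), L₁ ++ L₂ ≠ [] → (∀ p ∈ L₁, p.2 ∈ W T S) →
      (∀ p ∈ L₂, p.2 ∈ StarAlgebra.adjoin ℂ S) → Alt T (L₁ ++ L₂) →
      T.τ (word u (L₁ ++ L₂)) = 0 := by
    intro L₁
    induction L₁ using List.reverseRecOn with
    | nil =>
      intro L₂ hne _ h2 hA
      simp only [List.nil_append] at hne hA ⊢
      exact h.2 L₂ hne h2 hA
    | append_singleton L₁ p ih =>
      intro L₂ _ h1 h2 hA
      obtain ⟨b, x⟩ := p
      have hxW : x ∈ W T S := h1 (b, x) (by simp)
      rw [List.append_assoc, List.singleton_append] at hA ⊢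
      -- it suffices to bound by every ε
      have hval : ∀ y, T.τ (word u (L₁ ++ (b, y) :: L₂)) =
          T.τ (word u L₁ * sg u b * y * word u L₂) := by
        intro y
        rw [word_append]
        simp only [word, mul_assoc]
      set K := ‖word u L₁ * sg u b‖ * ‖word u L₂‖ with hK
      have hK0 : 0 ≤ K := by positivity
      rw [← norm_le_zero_iff]
      refine le_of_forall_pos_le_add fun ε hε => ?_
      rw [zero_add]
      obtain ⟨a, ha, hxa⟩ := hxW (ε / (2 * (K + 1))) (by positivity)
      obtain ⟨x', hx', hτ, hxx'⟩ : ∃ x' ∈ StarAlgebra.adjoin ℂ S,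
          (T.τ x = 0 → T.τ x' = 0) ∧ T.nrm2 (x - x') ≤ 2 * T.nrm2 (x - a) := by
        by_cases hx0 : T.τ x = 0
        · refine ⟨a - T.τ a • (1 : A), sub_mem ha (SMulMemClass.smul_mem _ (one_mem _)),
            fun _ => ?_, ?_⟩
          · rw [map_sub, map_smul, T.one, smul_eq_mul, mul_one, sub_self]
          · have e : x - (a - T.τ a • (1 : A)) = (x - a) + T.τ a • (1 : A) := by abel
            rw [e]
            refine (T.nrm2_add_le _ _).trans ?_
            rw [T.nrm2_smul, T.nrm2_one, mul_one]
            have h3 : ‖T.τ a‖ ≤ T.nrm2 (x - a) := by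
              have e2 : T.τ a = - T.τ ((x - a) * 1) := by
                rw [mul_one, map_sub, hx0, zero_sub, neg_neg]
              rw [e2, norm_neg]
              refine (T.norm_tau_mul_le _ _).trans ?_
              rw [T.nrm2_one, mul_one]
            linarith
        · exact ⟨a, ha, fun h => absurd h hx0, by linarith [T.nrm2_nonneg (x - a)]⟩
      have h0 := ih ((b, x') :: L₂) (by simp) (fun p hp => h1 p (by simp [hp]))
        (by
          intro p hp
          rcases List.mem_cons.1 hp with rfl | hp
          · exact hx'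
          · exact h2 p hp) (hA.replace T hτ)
      rw [hval] at h0 ⊢
      have e3 : T.τ (word u L₁ * sg u b * x * word u L₂) =
          T.τ (word u L₁ * sg u b * (x - x') * word u L₂) := by
        rw [mul_sub, sub_mul, map_sub, h0, sub_zero]
      rw [e3]
      refine (tau_abs_le T _ _ _).trans ?_
      rw [← hK]
      calc K * T.nrm2 (x - x') ≤ K * (2 * T.nrm2 (x - a)) := by gcongr
        _ ≤ K * (2 * (ε / (2 * (K + 1)))) := by gcongr
        _ ≤ ε := by
          rw [mul_div_assoc', mul_div_assoc', div_le_iff₀ (by positivity)]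
          nlinarith
  intro L hL hG hA
  have := key L [] (by simpa using hL) hG (by simp) (by simpa using hA)
  simpa using this

/-! ### multiplication by unitaries of `G` -/

theorem FreeHaar.mul_aux {G : StarSubalgebra ℂ A} {u V V' : A}
    (hV : V ∈ unitary A) (hVG : V ∈ G) (hV' : V' ∈ unitary A) (hVG' : V' ∈ G)
    (L : List (Bool × A)) (hL : L ≠ []) (hG : ∀ p ∈ L, p.2 ∈ G) (hA : Alt T L) :
    ∃ (L' : List (Bool × A)) (b₀ : Bool), L'.map Prod.fst = L.map Prod.fst ∧
      (L.map Prod.fst).head? = some b₀ ∧ (∀ p ∈ L', p.2 ∈ G) ∧ Alt T L' ∧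
      word (V * u * V') L = (if b₀ then V else star V') * word u L' := by
  have hpre : ∀ b : Bool, (if b then V else star V') ∈ G := by
    intro b; cases b
    · exact star_mem hVG'
    · exact hVG
  have hpost : ∀ b : Bool, (if b then V' else star V) ∈ G := by
    intro b; cases b
    · exact star_mem hVG
    · exact hVG'
  have hsg : ∀ b : Bool, sg (V * u * V') b =
      (if b then V else star V') * sg u b * (if b then V' else star V) := by
    intro b; cases b
    · simp [sg, mul_assoc]
    · simp [sg]
  induction L with
  | nil => exact absurd rfl hL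
  | cons p L ih =>
    obtain ⟨b, a⟩ := p
    have ha : a ∈ G := hG (b, a) (by simp)
    by_cases hL0 : L = []
    · subst hL0
      refine ⟨[(b, (if b then V' else star V) * a)], b, rfl, rfl, ?_, trivial, ?_⟩
      · intro p hp
        rw [List.mem_singleton] at hp
        subst hp
        exact mul_mem (hpost b) ha
      · simp only [word]
        rw [hsg]
        simp only [mul_one, mul_assoc]
    · rw [alt_cons] at hA
      obtain ⟨L', b₀, h1, h2, h3, h4, h5⟩ := ih hL0 (fun p hp => hG p (by simp [hp])) hA.2
      refine ⟨(b, (if b then V' else star V) * a * (if b₀ then V else star V')) :: L', b,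
        by simp [h1], rfl, ?_, ?_, ?_⟩
      · intro p hp
        rcases List.mem_cons.1 hp with rfl | hp
        · exact mul_mem (mul_mem (hpost b) ha) (hpre b₀)
        · exact h3 p hp
      · rw [alt_cons]
        refine ⟨fun e he hne => ?_, h4⟩
        rw [h1, h2] at he
        obtain rfl : b₀ = e := by simpa using he
        have h0 : T.τ a = 0 := hA.1 b₀ h2 hne
        rw [T.tr, ← mul_assoc]
        cases b <;> cases b₀
        · exact absurd rfl hne
        · simp only [if_true, Bool.false_eq_true, if_false]
          rw [(Unitary.mem_iff.1 hV).2, one_mul, h0]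
        · simp only [if_true, Bool.false_eq_true, if_false]
          rw [(Unitary.mem_iff.1 hV').1, one_mul, h0]
        · exact absurd rfl hne
      · simp only [word]
        rw [hsg, h5]
        simp only [mul_assoc]

theorem FreeHaar.mul {G : StarSubalgebra ℂ A} {u V V' : A} (h : FreeHaar T (G : Set A) u)
    (hV : V ∈ unitary A) (hVG : V ∈ G) (hV' : V' ∈ unitary A) (hVG' : V' ∈ G) :
    FreeHaar T (G : Set A) (V * u * V') := by
  refine ⟨mul_mem (mul_mem hV h.1) hV', ?_⟩
  intro L hL hG hA
  obtain ⟨L', b₀, h1, -, h3, h4, h5⟩ := FreeHaar.mul_aux T (u := u) hV hVG hV' hVG' L hL hG hA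
  rw [h5, ← mul_one (_ * word u L')]
  refine h.zero T (ne_nil_of_map_fst h1 hL) h3 h4 ?_ (one_mem _)
  cases b₀
  · exact star_mem hVG'
  · exact hVG

/-! ### uniqueness of moments -/

include T in
theorem exists_absorb {G : StarSubalgebra ℂ A} (L : List (Bool × A))
    (hG : ∀ p ∈ L, p.2 ∈ G) {g c : A} (hg : g ∈ G) (hc : c ∈ G) :
    ∃ (g' : A) (L' : List (Bool × A)), g' ∈ G ∧ L'.length = L.length ∧ (∀ p ∈ L', p.2 ∈ G) ∧
      ∀ v, g * word v L * c = g' * word v L' := by
  by_cases hL : L = []
  · subst hL
    exact ⟨g * c, [], mul_mem hg hc, rfl, by simp, fun v => by simp [word]⟩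
  · obtain ⟨L', h1, h2, -, h4⟩ := exists_mul_last T L hL hG hc
    refine ⟨g, L', hg, ?_, h2, fun v => by rw [mul_assoc, h4]⟩
    have := congrArg List.length h1
    simpa using this

theorem FreeHaar.moment_eq {G : StarSubalgebra ℂ A} {u u' : A} (hu : FreeHaar T (G : Set A) u)
    (hu' : FreeHaar T (G : Set A) u') (n : ℕ) :
    ∀ (g : A) (L : List (Bool × A)), g ∈ G → L.length = n → (∀ p ∈ L, p.2 ∈ G) →
      T.τ (g * word u L) = T.τ (g * word u' L) := by
  induction n using Nat.strong_induction_on with
  | _ n IH =>
    -- move from left to right through the word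
    have key : ∀ (L₂ L₁ : List (Bool × A)) (g : A), g ∈ G → (L₁ ++ L₂).length = n →
        (∀ p ∈ L₁ ++ L₂, p.2 ∈ G) → (L₁ ++ L₂ ≠ []) → Alt T (L₁ ++ L₂.take 1) →
        T.τ (g * word u (L₁ ++ L₂)) = T.τ (g * word u' (L₁ ++ L₂)) := by
      intro L₂
      induction L₂ with
      | nil =>
        intro L₁ g hg _ hG hne hA
        simp only [List.take_nil, List.append_nil] at hA hne hG ⊢
        rw [← mul_one (g * word u L₁), ← mul_one (g * word u' L₁),
          hu.zero T hne hG hA hg (one_mem _), hu'.zero T hne hG hA hg (one_mem _)]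
      | cons p L₂ ih =>
        intro L₁ g hg hlen hG hne hA
        cases L₂ with
        | nil =>
          simp only [List.take_succ_cons, List.take_zero] at hA
          rw [← mul_one (g * word u _), ← mul_one (g * word u' _),
            hu.zero T hne hG hA hg (one_mem _), hu'.zero T hne hG hA hg (one_mem _)]
        | cons q L₂ =>
          obtain ⟨b, a⟩ := p
          obtain ⟨b', a'⟩ := q
          have ha : a ∈ G := hG (b, a) (by simp)
          have ha' : a' ∈ G := hG (b', a') (by simp)
          have hAx : ∀ x : A, (b ≠ b' → T.τ x = 0) → Alt T (L₁ ++ [(b, x), (b', a')]) := by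
            intro x hx
            clear hG hne ih hlen
            induction L₁ with
            | nil => exact ⟨hx, trivial⟩
            | cons r L₁ ihL =>
              simp only [List.cons_append, List.take_succ_cons, List.take_zero] at hA ⊢
              rw [alt_cons] at hA ⊢
              refine ⟨?_, ihL hA.2⟩
              have h1 := hA.1
              cases L₁ with
              | nil => simpa using h1
              | cons r' L₁ => simpa using h1
          by_cases hbb : b = b'
          · have h := ih (L₁ ++ [(b, a)]) g hg (by simpa using hlen) (by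
              intro p hp; exact hG p (by simpa using hp)) (by simp) (by
              simp only [List.take_succ_cons, List.take_zero, List.append_assoc,
                List.singleton_append]
              exact hAx a (fun h => absurd hbb h))
            simpa using h
          · -- centre the coefficient
            set t := T.τ a with ht
            have h1 := ih (L₁ ++ [(b, a - t • (1 : A))]) g hg (by simpa using hlen) (by
              intro p hp
              have hp' : p ∈ L₁ ∨ p = (b, a - t • (1 : A)) ∨ p = (b', a') ∨ p ∈ L₂ := by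
                simpa using hp
              rcases hp' with hp | rfl | rfl | hp
              · exact hG p (by simp [hp])
              · exact sub_mem ha (SMulMemClass.smul_mem _ (one_mem _))
              · exact ha'
              · exact hG p (by simp [hp])) (by simp) (by
              simp only [List.take_succ_cons, List.take_zero, List.append_assoc,
                List.singleton_append]
              refine hAx _ fun _ => ?_
              rw [map_sub, map_smul, T.one, smul_eq_mul, mul_one, ht, sub_self])
            obtain ⟨g', L', hg', hlen', hG', hw⟩ := exists_absorb T L₁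
              (fun p hp => hG p (by simp [hp])) hg ha'
            have h2 : T.τ (g' * word u (L' ++ L₂)) = T.τ (g' * word u' (L' ++ L₂)) := by
              refine IH (L' ++ L₂).length ?_ g' _ hg' rfl ?_
              · simp only [List.length_append, hlen']
                simp only [List.length_append, List.length_cons] at hlen
                omega
              · intro p hp
                rcases List.mem_append.1 hp with hp | hp
                · exact hG' p hp
                · exact hG p (by simp [hp])
            have hexp : ∀ v ∈ unitary A, g * word v (L₁ ++ (b, a) :: (b', a') :: L₂) =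
                g * word v ((L₁ ++ [(b, a - t • (1 : A))]) ++ (b', a') :: L₂) +
                  t • (g' * word v (L' ++ L₂)) := by
              intro v hv
              have e1 : g' * word v (L' ++ L₂) =
                  g * word v L₁ * (sg v b * sg v b') * a' * word v L₂ := by
                rw [sg_mul_sg hv hbb, mul_one, word_append, ← mul_assoc, ← hw]
              rw [e1]
              simp only [word_append, word, mul_one]
              simp only [mul_sub, sub_mul, mul_smul_comm, smul_mul_assoc, mul_one, mul_assoc]
              abel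
            rw [hexp u hu.1, hexp u' hu'.1, map_add, map_add, map_smul, map_smul, h1, h2]
    intro g L hg hlen hG
    by_cases hL : L = []
    · subst hL; simp [word]
    · refine key L [] g hg (by simpa using hlen) (by simpa using hG) (by simpa using hL) ?_
      cases L with
      | nil => exact absurd rfl hL
      | cons p L =>
        simp only [List.nil_append, List.take_succ_cons, List.take_zero]
        exact trivial

/-! ### extension of automorphisms -/

theorem FreeHaar.ext (hT : Amb T) {R G : StarSubalgebra ℂ A} (hR : TensorPos T (R : Set A))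
    (hRG : ∀ r ∈ R, ∀ g ∈ G, r * g = g * r) {u u' : A} (hRu : ∀ r ∈ R, r * u = u * r)
    (hRu' : ∀ r ∈ R, r * u' = u' * r) (hu : FreeHaar T (G : Set A) u)
    (hu' : FreeHaar T (G : Set A) u')
    (hgen : ∀ x, x ∈ W T ((R : Set A) ∪ G ∪ {u})) (hgen' : ∀ x, x ∈ W T ((R : Set A) ∪ G ∪ {u'})) :
    ∃ α : A ≃⋆ₐ[ℂ] A, Pres T α ∧ Fixes α (R : Set A) ∧ Fixes α (G : Set A) ∧ α u = u' := by
  let f : A → (R ⊕ G ⊕ Bool) → A := fun v j =>
    match j with
    | Sum.inl r => r
    | Sum.inr (Sum.inl g) => g
    | Sum.inr (Sum.inr b) => sg v b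
  let s : (R ⊕ G ⊕ Bool) → (R ⊕ G ⊕ Bool) := fun j =>
    match j with
    | Sum.inl r => Sum.inl (star r)
    | Sum.inr (Sum.inl g) => Sum.inr (Sum.inl (star g))
    | Sum.inr (Sum.inr b) => Sum.inr (Sum.inr (!b))
  have hs : ∀ v j, f v (s j) = star (f v j) := by
    intro v j
    rcases j with r | g | b
    · rfl
    · rfl
    · exact (star_sg v b).symm
  have hrange : ∀ v, (R : Set A) ∪ G ∪ {v} ⊆ Set.range (f v) := by
    rintro v x ((hx | hx) | hx)
    · exact ⟨Sum.inl ⟨x, hx⟩, rfl⟩
    · exact ⟨Sum.inr (Sum.inl ⟨x, hx⟩), rfl⟩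
    · rw [Set.mem_singleton_iff] at hx
      subst hx
      exact ⟨Sum.inr (Sum.inr true), rfl⟩
  -- words commute with `R`
  have hcw : ∀ v, (∀ r ∈ R, r * v = v * r) → ∀ L : List (Bool × A), (∀ p ∈ L, p.2 ∈ G) →
      ∀ r ∈ R, r * word v L = word v L * r := by
    intro v hv L hL
    have hsgv : ∀ b, ∀ r ∈ R, r * sg v b = sg v b * r := by
      intro b r hr
      cases b
      · have := congrArg star (hv (star r) (star_mem hr))
        rw [star_mul, star_mul, star_star] at this
        exact this.symm
      · exact hv r hr
    induction L with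
    | nil => intro r _; simp [word]
    | cons p L ih =>
      obtain ⟨b, a⟩ := p
      intro r hr
      have h1 := ih (fun p hp => hL p (by simp [hp])) r hr
      have h2 := hRG r hr a (hL (b, a) (by simp))
      simp only [word]
      calc r * (sg v b * a * word v L) = (r * sg v b) * a * word v L := by simp only [mul_assoc]
        _ = sg v b * (r * a) * word v L := by rw [hsgv b r hr]; simp only [mul_assoc]
        _ = sg v b * a * (r * word v L) := by rw [h2]; simp only [mul_assoc]
        _ = _ := by rw [h1]; simp only [mul_assoc]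
  -- normal form
  have hnf : ∀ L : List (R ⊕ G ⊕ Bool), ∃ r ∈ R, ∃ g ∈ G, ∃ l : List (Bool × A),
      (∀ p ∈ l, p.2 ∈ G) ∧ ∀ v, (∀ r ∈ R, r * v = v * r) →
        (L.map (f v)).prod = r * (g * word v l) := by
    intro L
    induction L with
    | nil => exact ⟨1, one_mem _, 1, one_mem _, [], by simp, fun v _ => by simp [word]⟩
    | cons j L ih =>
      obtain ⟨r, hr, g, hg, l, hl, hw⟩ := ih
      rcases j with r₀ | g₀ | b
      · refine ⟨r₀ * r, mul_mem r₀.2 hr, g, hg, l, hl, fun v hv => ?_⟩
        rw [List.map_cons, List.prod_cons, hw v hv]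
        simp only [f, mul_assoc]
      · refine ⟨r, hr, g₀ * g, mul_mem g₀.2 hg, l, hl, fun v hv => ?_⟩
        rw [List.map_cons, List.prod_cons, hw v hv]
        change (g₀ : A) * (r * (g * word v l)) = _
        rw [← mul_assoc, ← hRG r hr g₀ g₀.2]
        simp only [mul_assoc]
      · refine ⟨r, hr, 1, one_mem _, (b, g) :: l, ?_, fun v hv => ?_⟩
        · intro p hp
          rcases List.mem_cons.1 hp with rfl | hp
          · exact hg
          · exact hl p hp
        · rw [List.map_cons, List.prod_cons, hw v hv]
          change sg v b * (r * (g * word v l)) = _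
          have h1 : r * sg v b = sg v b * r := by
            have := hcw v hv [(b, 1)] (by
              intro p hp
              rw [List.mem_singleton] at hp
              subst hp
              exact one_mem _) r hr
            simpa [word] using this
          rw [← mul_assoc, ← h1]
          simp only [word, one_mul, mul_assoc]
  obtain ⟨α, hα, hα'⟩ := hT.ext (R ⊕ G ⊕ Bool) s (f u) (f u') (hs u) (hs u') (by
    intro L
    obtain ⟨r, hr, g, hg, l, hl, hw⟩ := hnf L
    rw [hw u hRu, hw u' hRu']
    have hq : ∀ v, (∀ r ∈ R, r * v = v * r) → ∀ r' ∈ (R : Set A),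
        r' * (g * word v l) = g * word v l * r' := by
      intro v hv r' hr'
      rw [← mul_assoc, hRG r' hr' g hg, mul_assoc, hcw v hv l hl r' hr', mul_assoc]
    rw [hR r hr _ (hq u hRu), hR r hr _ (hq u' hRu'),
      FreeHaar.moment_eq T hu hu' l.length g l hg rfl hl])
    (fun x => W_mono T (hrange u) (hgen x)) (fun x => W_mono T (hrange u') (hgen' x))
  exact ⟨α, hα, fun r hr => hα' (Sum.inl ⟨r, hr⟩),
    fun g hg => hα' (Sum.inr (Sum.inl ⟨g, hg⟩)), hα' (Sum.inr (Sum.inr true))⟩

end Crest.Agent.R134
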