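import Crest.Agent.R95.PauliAlg
import Crest.Agent.R134.Data

/-!
# R134: Pauli coordinates of a semicircular element (helper301)

`F : PauliSys A ι` inside `G`, `SD T G X`. The coordinates
`coo F X i = √(card ι) • F.E (F.f i * X)` satisfy the Schwinger-Dyson equations over
`(G ∩ {F}') ∪ {coo F X j : j ≠ i}`.
-/

set_option autoImplicit false
set_option linter.unusedSectionVars false

universe u

namespace Crest.Agent.R134

open Crest.Agent.R95

variable {A : Type u} [CStarAlgebra A] (T : TracialState A)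

/-! ## generalities on `Der` -/

theorem Der.sum {G : Set A} {X : A} {α : Type*} (s : Finset α) (w : α → A)
    (D : α → A → A → ℂ) (h : ∀ k ∈ s, Der T G X (w k) (D k)) :
    Der T G X (∑ k ∈ s, w k) (fun p q => ∑ k ∈ s, D k p q) := by
  classical
  induction s using Finset.induction_on with
  | empty => simpa using Der.zero (T := T)
  | insert k s hk ih =>
    simp only [Finset.sum_insert hk]
    exact Der.add (h k (Finset.mem_insert_self k s))
      (ih fun j hj => h j (Finset.mem_insert_of_mem hj))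

section Pauli

variable {ι : Type} [Fintype ι] [DecidableEq ι] (F : PauliSys A ι)

/-- `√(card ι)` -/
noncomputable def rt (ι : Type) [Fintype ι] : ℝ := Real.sqrt (Fintype.card ι)

/-- the normalised coordinates -/
noncomputable def coo (X : A) (i : ι) : A := ((rt ι : ℝ) : ℂ) • F.E (F.f i * X)

include F in
theorem rt_pos : 0 < rt ι := Real.sqrt_pos.2 (by exact_mod_cast F.card_pos)

theorem rt_sq : rt ι * rt ι = Fintype.card ι := Real.mul_self_sqrt (by positivity)

include F in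
theorem rt_mul_inv : ((rt ι : ℝ) : ℂ) * (Fintype.card ι : ℂ)⁻¹ = ((rt ι : ℝ) : ℂ)⁻¹ := by
  have h0 : ((rt ι : ℝ) : ℂ) ≠ 0 := by exact_mod_cast (rt_pos F).ne'
  have h1 : ((rt ι : ℝ) : ℂ) * ((rt ι : ℝ) : ℂ) = (Fintype.card ι : ℂ) := by
    exact_mod_cast rt_sq (ι := ι)
  rw [← h1]
  field_simp

theorem coo_inQ (X : A) (i : ι) : F.InQ (coo F X i) := F.inQ_smul _ (F.E_inQ _)

theorem coo_sa {X : A} (hX : IsSelfAdjoint X) (i : ι) : IsSelfAdjoint (coo F X i) := by
  unfold coo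
  rw [isSelfAdjoint_iff, star_smul, (F.E_sa hX i).star_eq]
  congr 1
  exact Complex.conj_ofReal _

/-- `X = (√card)⁻¹ ∑ f_i x_i` -/
theorem coo_decomp (X : A) : X = ((rt ι : ℝ) : ℂ)⁻¹ • ∑ i, F.f i * coo F X i := by
  have h0 : ((rt ι : ℝ) : ℂ) ≠ 0 := by exact_mod_cast (rt_pos F).ne'
  conv_lhs => rw [F.decomp X]
  rw [Finset.smul_sum]
  refine Finset.sum_congr rfl fun i _ => ?_
  unfold coo
  rw [mul_smul_comm, smul_smul, inv_mul_cancel₀ h0, one_smul]

theorem coo_mem (S : StarSubalgebra ℂ A) (hS : ∀ i, F.f i ∈ S) {X : A} (hX : X ∈ S) (i : ι) :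
    coo F X i ∈ S := S.smul_mem (F.E_mem hS (mul_mem (hS i) hX)) _

/-- the element is in any star subalgebra containing the system and its coordinates -/
theorem mem_of_coo_mem (S : StarSubalgebra ℂ A) (hS : ∀ i, F.f i ∈ S) {X : A}
    (hX : ∀ i, coo F X i ∈ S) : X ∈ S := by
  rw [coo_decomp F X]
  exact S.smul_mem (sum_mem fun i _ => mul_mem (hS i) (hX i)) _

/-- 2-norm through the coordinates -/
theorem nrm2_sq_coo (X : A) :
    T.nrm2 X ^ 2 = (Fintype.card ι : ℝ)⁻¹ * ∑ i, T.nrm2 (coo F X i) ^ 2 := by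
  rw [F.nrm2_sq_eq_sum T X, Finset.mul_sum]
  refine Finset.sum_congr rfl fun i _ => ?_
  unfold coo
  have h1 : rt ι ^ 2 = Fintype.card ι := by rw [sq]; exact rt_sq
  rw [T.nrm2_smul, Complex.norm_real, mul_pow, Real.norm_eq_abs, sq_abs, h1]
  have : (Fintype.card ι : ℝ) ≠ 0 := by exact_mod_cast F.card_pos.ne'
  field_simp

theorem coo_sub (X Y : A) (i : ι) : coo F (X - Y) i = coo F X i - coo F Y i := by
  unfold coo
  rw [mul_sub, F.E_sub, smul_sub]

theorem nrm2_sub_sq_coo (X Y : A) :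
    T.nrm2 (X - Y) ^ 2 = (Fintype.card ι : ℝ)⁻¹ * ∑ i, T.nrm2 (coo F X i - coo F Y i) ^ 2 := by
  rw [nrm2_sq_coo T F]
  simp_rw [coo_sub]

/-- if all coordinates are `ε`-close then the elements are `ε`-close -/
theorem nrm2_sub_le_of_coo {X Y : A} {ε : ℝ} (hε : 0 ≤ ε)
    (h : ∀ i, T.nrm2 (coo F X i - coo F Y i) ≤ ε) : T.nrm2 (X - Y) ≤ ε := by
  refine abs_le_of_sq_le_sq' ?_ hε |>.2
  rw [nrm2_sub_sq_coo T F]
  have hc : (0 : ℝ) < Fintype.card ι := by exact_mod_cast F.card_pos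
  have h1 : ∑ i, T.nrm2 (coo F X i - coo F Y i) ^ 2 ≤ ∑ _i : ι, ε ^ 2 :=
    Finset.sum_le_sum fun i _ => pow_le_pow_left₀ (T.nrm2_nonneg _) (h i) 2
  rw [Finset.sum_const, Finset.card_univ, nsmul_eq_mul] at h1
  calc (Fintype.card ι : ℝ)⁻¹ * ∑ i, T.nrm2 (coo F X i - coo F Y i) ^ 2
      ≤ (Fintype.card ι : ℝ)⁻¹ * ((Fintype.card ι : ℝ) * ε ^ 2) :=
        mul_le_mul_of_nonneg_left h1 (by positivity)
    _ = ε ^ 2 := by field_simp

/-- the coordinates of `∑ f_j y_j / √card` are the `y_j` -/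
theorem coo_sum (y : ι → A) (hy : ∀ i, F.InQ (y i)) (i : ι) :
    coo F (((rt ι : ℝ) : ℂ)⁻¹ • ∑ j, F.f j * y j) i = y i := by
  have h0 : ((rt ι : ℝ) : ℂ) ≠ 0 := by exact_mod_cast (rt_pos F).ne'
  unfold coo
  rw [mul_smul_comm, F.E_smul, F.coord y hy, smul_smul, mul_inv_cancel₀ h0, one_smul]

/-- an automorphism fixing the Pauli system commutes with taking coordinates -/
theorem coo_map (α : A ≃⋆ₐ[ℂ] A) (hα : ∀ i, α (F.f i) = F.f i) (X : A) (i : ι) :
    coo F (α X) i = α (coo F X i) := by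
  unfold coo
  rw [F.E_def, F.E_def]
  simp only [map_smul, map_sum, map_mul, hα]

/-- the bilinear form of the derivative of a coordinate -/
theorem der_coo {G : Set A} (hG : ∀ i, F.f i ∈ G) (X : A) (j : ι) :
    Der T G X (coo F X j) (fun p q => ((rt ι : ℝ) : ℂ)⁻¹ *
      ∑ h, T.τ (p * (F.f h * F.f j)) * T.τ (F.f h * q)) := by
  have h1 : ∀ h : ι, Der T G X (F.f h * (F.f j * X) * F.f h)
      (fun p q => T.τ (p * (F.f h * F.f j)) * T.τ (F.f h * q)) := by
    intro h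
    have hd := Der.mul (Der.mul (Der.coef (T := T) (X := X) (hG h))
      (Der.mul (Der.coef (T := T) (X := X) (hG j)) (Der.var (T := T) (G := G) (X := X))))
      (Der.coef (T := T) (X := X) (hG h))
    convert hd using 1
    funext p q
    simp only [zero_add, add_zero, mul_assoc]
  have h2 := Der.smul (((rt ι : ℝ) : ℂ)⁻¹) (Der.sum T Finset.univ _ _ fun h _ => h1 h)
  convert h2 using 1
  unfold coo
  rw [F.E_def, smul_smul, rt_mul_inv F]

/-- orthogonality computation behind `Pauli ⇒ SD family` -/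
theorem sum_tau_tau {p q : A} (hp : F.InQ p) (hq : F.InQ q) (i j : ι) :
    ∑ h, T.τ (p * (F.f h * F.f j)) * T.τ (F.f h * (q * F.f i))
      = if j = i then T.τ p * T.τ q else 0 := by
  have h1 : ∀ h, T.τ (p * (F.f h * F.f j)) = if h = j then T.τ p else 0 := by
    intro h
    rw [T.tr, F.orth T hp]
  have h2 : ∀ h, T.τ (F.f h * (q * F.f i)) = if h = i then T.τ q else 0 := by
    intro h
    rw [← hq i, ← mul_assoc, F.orth T hq]
  simp_rw [h1, h2]
  rw [Finset.sum_eq_single j (fun h _ hj => by rw [if_neg hj, zero_mul])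
    (fun h => absurd (Finset.mem_univ _) h), if_pos rfl]
  split_ifs <;> simp

/-- coefficients for the coordinate `i` -/
def cooG (G : Set A) (X : A) (i : ι) : Set A :=
  {a | (a ∈ G ∧ F.InQ a) ∨ ∃ j, j ≠ i ∧ a = coo F X j}

theorem der_lift {G : Set A} (hG : ∀ i, F.f i ∈ G) (X : A) (i : ι) {w : A} {D' : A → A → ℂ}
    (h : Der T (cooG F G X i) (coo F X i) w D') :
    F.InQ w ∧ ∃ D, Der T G X w D ∧ ∀ p q, F.InQ p → F.InQ q →
      ((rt ι : ℝ) : ℂ) * D p (q * F.f i) = D' p q := by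
  have h0 : ((rt ι : ℝ) : ℂ) ≠ 0 := by exact_mod_cast (rt_pos F).ne'
  have hcoo : ∀ j, ∀ p q, F.InQ p → F.InQ q → ((rt ι : ℝ) : ℂ) * (((rt ι : ℝ) : ℂ)⁻¹ *
      ∑ h, T.τ (p * (F.f h * F.f j)) * T.τ (F.f h * (q * F.f i)))
        = if j = i then T.τ p * T.τ q else 0 := by
    intro j p q hp hq
    rw [← mul_assoc, mul_inv_cancel₀ h0, one_mul, sum_tau_tau T F hp hq]
  induction h with
  | one => exact ⟨F.inQ_one, _, Der.one, fun p q _ _ => by simp⟩
  | coef ha =>
    rcases ha with ⟨ha, hQ⟩ | ⟨j, hj, rfl⟩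
    · exact ⟨hQ, _, Der.coef ha, fun p q _ _ => by simp⟩
    · exact ⟨coo_inQ F X j, _, der_coo T F hG X j, fun p q hp hq => by
        have := hcoo j p q hp hq
        rwa [if_neg hj] at this⟩
  | var =>
    exact ⟨coo_inQ F X i, _, der_coo T F hG X i, fun p q hp hq => by
        have := hcoo i p q hp hq
        rwa [if_pos rfl] at this⟩
  | add _ _ ih ih' =>
    obtain ⟨hw, D, hD, e⟩ := ih
    obtain ⟨hw', D', hD', e'⟩ := ih'
    exact ⟨F.inQ_add hw hw', _, Der.add hD hD', fun p q hp hq => by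
      rw [mul_add, e p q hp hq, e' p q hp hq]⟩
  | smul c _ ih =>
    obtain ⟨hw, D, hD, e⟩ := ih
    exact ⟨F.inQ_smul c hw, _, Der.smul c hD, fun p q hp hq => by
      rw [mul_left_comm, e p q hp hq]⟩
  | mul _ _ ih ih' =>
    obtain ⟨hw, D, hD, e⟩ := ih
    obtain ⟨hw', D', hD', e'⟩ := ih'
    exact ⟨F.inQ_mul hw hw', _, Der.mul hD hD', fun p q hp hq => by
      rw [mul_add, e' _ q (F.inQ_mul hp hw) hq, ← mul_assoc, e p _ hp (F.inQ_mul hw' hq)]⟩

/-- **Pauli transfer.** -/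
theorem SD.coo {G : Set A} (hG : ∀ i, F.f i ∈ G) {X : A} (hX : SD T G X) (i : ι) :
    SD T (cooG F G X i) (coo F X i) := by
  refine ⟨coo_sa F hX.1 i, fun w D' hD' => ?_⟩
  obtain ⟨hw, D, hD, e⟩ := der_lift T F hG X i hD'
  have h1 : T.τ (X * (w * F.f i)) = D 1 (F.f i) := by
    have := hX.2 _ _ (Der.mul hD (Der.coef (T := T) (X := X) (hG i)))
    rw [this]
    simp
  have h2 : T.τ (R134.coo F X i * w) = ((rt ι : ℝ) : ℂ) * T.τ (X * (w * F.f i)) := by
    unfold R134.coo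
    rw [smul_mul_assoc, map_smul, smul_eq_mul, ← F.tau_E_right T hw, mul_assoc, T.tr (F.f i),
      mul_assoc]
  have h3 := e 1 1 F.inQ_one F.inQ_one
  rw [h2, h1, ← h3, one_mul]


end Pauli

end Crest.Agent.R134
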