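import Mathlib
import Crest.Agent.R134.Semi
import Crest.Agent.R134.Data
import Crest.Agent.R134.PauliSD
import Crest.Agent.R134.FreeHaar
import Crest.Agent.R134.Limit

-- ▼ part R134/Design
section

/-!
# R134: the overlapping line design (purely combinatorial)

`4^J` variables, `4^J` ordered lines (lists without repetition), two different lines have at most
one common variable, the sum of `1/length^2` over the lines through a variable is `≤ ε` and the
sum of `1/length^2` over the *later* lines that cross a given line is `≤ ε`.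
-/

set_option autoImplicit false

namespace Crest.Agent.R134

open Finset

/-- An ordered family of `N` lines `L 0, …, L (N-1)` (lists of variables in `ι`). -/
structure Design (ι : Type*) [DecidableEq ι] (N : ℕ) (ε : ℝ) where
  L : ℕ → List ι
  pos : ∀ b < N, 0 < (L b).length
  nodup : ∀ b < N, (L b).Nodup
  inter : ∀ b < N, ∀ b' < N, b ≠ b' → ∀ i j, i ∈ L b → i ∈ L b' → j ∈ L b → j ∈ L b' → i = j
  deg : ∀ i, ∑ b ∈ (range N).filter (fun b => i ∈ L b), (1 / ((L b).length : ℝ) ^ 2) ≤ ε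
  cross : ∀ b < N, ∑ b' ∈ (range N).filter (fun b' => b < b' ∧ ∃ i ∈ L b, i ∈ L b'),
    (1 / ((L b').length : ℝ) ^ 2) ≤ ε

namespace DesignAux

/-- lines: round `k`, slope `2^k + r`, block `β`, offset `u` -/
abbrev Ln (e P J : ℕ) : Type := Σ k : Fin P, Fin (2 ^ (k : ℕ)) × Fin (2 ^ (J - e - k)) × ZMod (2 ^ J)

variable {e P J : ℕ}

/-- slope -/
def slope (t : Ln e P J) : ℕ := 2 ^ (t.1 : ℕ) + (t.2.1 : ℕ)

/-- length -/
def len (t : Ln e P J) : ℕ := 2 ^ (e + (t.1 : ℕ))

/-- the line -/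
def line (t : Ln e P J) : List (ZMod (2 ^ J) × ZMod (2 ^ J)) :=
  (List.range (len t)).map fun l =>
    (((t.2.2.1 * len t + l : ℕ) : ZMod (2 ^ J)),
      t.2.2.2 + (slope t : ZMod (2 ^ J)) * ((t.2.2.1 * len t + l : ℕ) : ZMod (2 ^ J)))

theorem len_pos (t : Ln e P J) : 0 < len t := by unfold len; positivity

theorem length_line (t : Ln e P J) : (line t).length = len t := by simp [line]

theorem lt_q (hJ : e + 2 * P ≤ J) (t : Ln e P J) {l : ℕ} (hl : l < len t) :
    t.2.2.1 * len t + l < 2 ^ J := by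
  have h1 : (t.2.2.1 : ℕ) < 2 ^ (J - e - t.1) := t.2.2.1.2
  have hk : (t.1 : ℕ) < P := t.1.2
  have h2 : 2 ^ J = 2 ^ (J - e - t.1) * len t := by
    unfold len
    rw [← pow_add]
    congr 1
    omega
  calc (t.2.2.1 : ℕ) * len t + l < t.2.2.1 * len t + len t := by omega
    _ = (t.2.2.1 + 1) * len t := by ring
    _ ≤ 2 ^ (J - e - t.1) * len t := Nat.mul_le_mul_right _ h1
    _ = 2 ^ J := h2.symm

theorem mem_line (hJ : e + 2 * P ≤ J) (t : Ln e P J) (i : ZMod (2 ^ J) × ZMod (2 ^ J)) :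
    i ∈ line t ↔ (i.1.val / len t = t.2.2.1 ∧ t.2.2.2 = i.2 - (slope t : ZMod (2 ^ J)) * i.1) := by
  constructor
  · intro h
    simp only [line, List.mem_map, List.mem_range] at h
    obtain ⟨l, hl, rfl⟩ := h
    refine ⟨?_, ?_⟩
    · simp only
      rw [ZMod.val_natCast_of_lt (lt_q hJ t hl)]
      rw [Nat.add_comm, Nat.add_mul_div_right _ _ (len_pos t), Nat.div_eq_of_lt hl, zero_add]
    · simp
  · rintro ⟨h1, h2⟩
    simp only [line, List.mem_map, List.mem_range]
    refine ⟨i.1.val % len t, Nat.mod_lt _ (len_pos t), ?_⟩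
    have h3 : t.2.2.1 * len t + i.1.val % len t = i.1.val := by
      rw [← h1]
      exact Nat.div_add_mod' _ _
    rw [h3, h2]
    ext <;> simp

theorem nodup_line (hJ : e + 2 * P ≤ J) (t : Ln e P J) : (line t).Nodup := by
  unfold line
  refine List.Nodup.map_on ?_ List.nodup_range
  intro x hx y hy h
  rw [List.mem_range] at hx hy
  have h1 := congrArg (fun z => z.1.val) h
  simp only at h1
  rw [ZMod.val_natCast_of_lt (lt_q hJ t hx), ZMod.val_natCast_of_lt (lt_q hJ t hy)] at h1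
  omega

theorem slope_lt (t : Ln e P J) : slope t < 2 ^ P := by
  have h1 : (t.2.1 : ℕ) < 2 ^ (t.1 : ℕ) := t.2.1.2
  have h2 : (t.1 : ℕ) + 1 ≤ P := t.1.2
  calc slope t < 2 ^ (t.1 : ℕ) + 2 ^ (t.1 : ℕ) := by unfold slope; omega
    _ = 2 ^ ((t.1 : ℕ) + 1) := by ring
    _ ≤ 2 ^ P := Nat.pow_le_pow_right (by norm_num) h2

theorem slope_inj {t t' : Ln e P J} (h : slope t = slope t') (hb : (t.2.2.1 : ℕ) = t'.2.2.1)
    (hu : t.2.2.2 = t'.2.2.2) : t = t' := by
  obtain ⟨k, r, β, u⟩ := t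
  obtain ⟨k', r', β', u'⟩ := t'
  simp only [slope] at h hb hu
  have hr : (r : ℕ) < 2 ^ (k : ℕ) := r.2
  have hr' : (r' : ℕ) < 2 ^ (k' : ℕ) := r'.2
  have hk : (k : ℕ) = k' := by
    rcases lt_trichotomy (k : ℕ) k' with h1 | h1 | h1
    · exfalso
      have : 2 ^ ((k : ℕ) + 1) ≤ 2 ^ (k' : ℕ) := Nat.pow_le_pow_right (by norm_num) h1
      have h3 : 2 ^ ((k : ℕ) + 1) = 2 ^ (k : ℕ) + 2 ^ (k : ℕ) := by ring
      omega
    · exact h1
    · exfalso
      have : 2 ^ ((k' : ℕ) + 1) ≤ 2 ^ (k : ℕ) := Nat.pow_le_pow_right (by norm_num) h1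
      have h3 : 2 ^ ((k' : ℕ) + 1) = 2 ^ (k' : ℕ) + 2 ^ (k' : ℕ) := by ring
      omega
  have hk' : k = k' := Fin.ext hk
  subst hk'
  have hr2 : r = r' := Fin.ext (by omega)
  have hb2 : β = β' := Fin.ext hb
  subst hr2 hb2 hu
  rfl

theorem inter_line (hJ : e + 2 * P ≤ J) {t t' : Ln e P J} (hne : t ≠ t')
    {i j : ZMod (2 ^ J) × ZMod (2 ^ J)} (hi : i ∈ line t) (hi' : i ∈ line t') (hj : j ∈ line t)
    (hj' : j ∈ line t') : i = j := by
  rw [mem_line hJ] at hi hi' hj hj'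
  by_cases hs : slope t = slope t'
  · exfalso
    refine hne (slope_inj hs ?_ ?_)
    · -- the rounds agree
      have hk : t.1 = t'.1 := by
        have hr : (t.2.1 : ℕ) < 2 ^ (t.1 : ℕ) := t.2.1.2
        have hr' : (t'.2.1 : ℕ) < 2 ^ (t'.1 : ℕ) := t'.2.1.2
        unfold slope at hs
        refine Fin.ext ?_
        rcases lt_trichotomy (t.1 : ℕ) t'.1 with h1 | h1 | h1
        · exfalso
          have : 2 ^ ((t.1 : ℕ) + 1) ≤ 2 ^ (t'.1 : ℕ) := Nat.pow_le_pow_right (by norm_num) h1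
          have h3 : 2 ^ ((t.1 : ℕ) + 1) = 2 ^ (t.1 : ℕ) + 2 ^ (t.1 : ℕ) := by ring
          omega
        · exact h1
        · exfalso
          have : 2 ^ ((t'.1 : ℕ) + 1) ≤ 2 ^ (t.1 : ℕ) := Nat.pow_le_pow_right (by norm_num) h1
          have h3 : 2 ^ ((t'.1 : ℕ) + 1) = 2 ^ (t'.1 : ℕ) + 2 ^ (t'.1 : ℕ) := by ring
          omega
      have hl : len t = len t' := by unfold len; rw [hk]
      rw [← hi.1, ← hi'.1, hl]
    · rw [hi.2, hi'.2, hs]
  · have hk : (t.1 : ℕ) < P := t.1.2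
    have key : ((((slope t : ℤ) - slope t') * ((i.1.val : ℤ) - j.1.val) : ℤ) : ZMod (2 ^ J)) = 0 := by
      push_cast
      rw [ZMod.natCast_zmod_val, ZMod.natCast_zmod_val]
      have e1 : i.2 - (slope t : ZMod (2 ^ J)) * i.1 = j.2 - (slope t : ZMod (2 ^ J)) * j.1 := by
        rw [← hi.2, ← hj.2]
      have e2 : i.2 - (slope t' : ZMod (2 ^ J)) * i.1 = j.2 - (slope t' : ZMod (2 ^ J)) * j.1 := by
        rw [← hi'.2, ← hj'.2]
      linear_combination e2 - e1
    rw [ZMod.intCast_zmod_eq_zero_iff_dvd] at key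
    have hsl : |(slope t : ℤ) - slope t'| < 2 ^ P := by
      have h1 := slope_lt t
      have h2 := slope_lt t'
      have h1' : (slope t : ℤ) < 2 ^ P := by exact_mod_cast h1
      have h2' : (slope t' : ℤ) < 2 ^ P := by exact_mod_cast h2
      rw [abs_lt]
      constructor <;> linarith [Int.natCast_nonneg (slope t), Int.natCast_nonneg (slope t')]
    have hx : |(i.1.val : ℤ) - j.1.val| < 2 ^ (e + P) := by
      have h1 := Nat.div_add_mod' i.1.val (len t)
      have h2 := Nat.div_add_mod' j.1.val (len t)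
      rw [hi.1] at h1
      rw [hj.1] at h2
      have h3 := Nat.mod_lt i.1.val (len_pos t)
      have h4 := Nat.mod_lt j.1.val (len_pos t)
      have h5 : len t ≤ 2 ^ (e + P) := by
        unfold len
        exact Nat.pow_le_pow_right (by norm_num) (by omega)
      have h5' : (len t : ℤ) ≤ 2 ^ (e + P) := by exact_mod_cast h5
      have h6 : |(i.1.val : ℤ) - j.1.val| < len t := by
        rw [abs_lt]
        constructor <;> omega
      linarith
    have hprod : |((slope t : ℤ) - slope t') * ((i.1.val : ℤ) - j.1.val)| < ((2 ^ J : ℕ) : ℤ) := by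
      rw [abs_mul]
      calc |(slope t : ℤ) - slope t'| * |(i.1.val : ℤ) - j.1.val| < 2 ^ P * 2 ^ (e + P) :=
            mul_lt_mul'' hsl hx (abs_nonneg _) (abs_nonneg _)
        _ = 2 ^ (e + 2 * P) := by ring
        _ ≤ 2 ^ J := pow_le_pow_right₀ (by norm_num) hJ
        _ = ((2 ^ J : ℕ) : ℤ) := by push_cast; rfl
    have h0 := Int.eq_zero_of_abs_lt_dvd key hprod
    rcases mul_eq_zero.1 h0 with h | h
    · exact absurd (by omega) hs
    · have hval : i.1.val = j.1.val := by omega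
      have h1 : i.1 = j.1 := ZMod.val_injective _ hval
      have h2 : i.2 = j.2 := by
        have e1 : i.2 - (slope t : ZMod (2 ^ J)) * i.1 = j.2 - (slope t : ZMod (2 ^ J)) * j.1 := by
          rw [← hi.2, ← hj.2]
        rw [h1] at e1
        exact sub_left_injective e1
      exact Prod.ext h1 h2

theorem card_Ln (hJ : e + 2 * P ≤ J) (hP : P = 2 ^ e) : Fintype.card (Ln e P J) = 4 ^ J := by
  have h : ∀ k : Fin P, Fintype.card (Fin (2 ^ (k : ℕ)) × Fin (2 ^ (J - e - k)) × ZMod (2 ^ J)) =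
      2 ^ (2 * J - e) := by
    intro k
    have hk : (k : ℕ) < P := k.2
    rw [Fintype.card_prod, Fintype.card_prod, Fintype.card_fin, Fintype.card_fin, ZMod.card,
      ← pow_add, ← pow_add]
    congr 1
    omega
  rw [Fintype.card_sigma, Finset.sum_congr rfl (fun k _ => h k), Finset.sum_const, Finset.card_univ,
    Fintype.card_fin, smul_eq_mul]
  calc P * 2 ^ (2 * J - e) = 2 ^ e * 2 ^ (2 * J - e) := by rw [← hP]
    _ = 2 ^ (2 * J) := by
      rw [← pow_add]
      congr 1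
      omega
    _ = 4 ^ J := by
      rw [pow_mul]
      norm_num

theorem sum_exists_le {α β : Type*} (s : Finset α) (u : Finset β) (p : α → β → Prop)
    [∀ i, DecidablePred (p i)] [DecidablePred fun t => ∃ i ∈ s, p i t] (f : β → ℝ)
    (hf : ∀ t, 0 ≤ f t) :
    ∑ t ∈ u.filter (fun t => ∃ i ∈ s, p i t), f t ≤ ∑ i ∈ s, ∑ t ∈ u.filter (p i), f t := by
  simp only [Finset.sum_filter]
  rw [Finset.sum_comm]
  refine Finset.sum_le_sum fun t _ => ?_
  have h0 : ∀ i ∈ s, 0 ≤ (if p i t then f t else 0) := fun i _ => by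
    split_ifs
    · exact hf t
    · exact le_rfl
  split_ifs with h
  · obtain ⟨i, hi, hp⟩ := h
    calc f t = if p i t then f t else 0 := by rw [if_pos hp]
      _ ≤ _ := Finset.single_le_sum h0 hi
  · exact Finset.sum_nonneg h0

/-- sum of `1/len^2` over the lines of the rounds `≥ k0` through a given variable -/
theorem sum_through (hJ : e + 2 * P ≤ J) (i : ZMod (2 ^ J) × ZMod (2 ^ J)) (k0 : ℕ) :
    ∑ t ∈ (univ : Finset (Ln e P J)).filter (fun t => i ∈ line t ∧ k0 ≤ (t.1 : ℕ)),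
      (1 / (len t : ℝ) ^ 2) ≤ ∑ k ∈ (univ : Finset (Fin P)).filter (fun k : Fin P => k0 ≤ (k : ℕ)),
        (2 : ℝ) ^ (k : ℕ) / ((2 : ℝ) ^ (e + (k : ℕ))) ^ 2 := by
  classical
  -- map to (k, r)
  let g : Ln e P J → Σ k : Fin P, Fin (2 ^ (k : ℕ)) := fun t => ⟨t.1, t.2.1⟩
  have hinj : Set.InjOn g ((univ : Finset (Ln e P J)).filter
      (fun t => i ∈ line t ∧ k0 ≤ (t.1 : ℕ)) : Set (Ln e P J)) := by
    intro t ht t' ht' h
    simp only [coe_filter, mem_univ, true_and, Set.mem_ofPred_eq] at ht ht'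
    have h1 : (g t).1 = (g t').1 := by rw [h]
    obtain ⟨k, r, β, u⟩ := t
    obtain ⟨k', r', β', u'⟩ := t'
    change k = k' at h1
    subst h1
    have h2 : r = r' := by
      simpa [g] using h
    subst h2
    have m1 := (mem_line hJ _ i).1 ht.1
    have m2 := (mem_line hJ _ i).1 ht'.1
    simp only [len, slope] at m1 m2
    have h3 : β = β' := Fin.ext (by rw [← m1.1, ← m2.1])
    have h4 : u = u' := by rw [m1.2, m2.2]
    subst h3 h4
    rfl
  calc ∑ t ∈ (univ : Finset (Ln e P J)).filter (fun t => i ∈ line t ∧ k0 ≤ (t.1 : ℕ)),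
        (1 / (len t : ℝ) ^ 2)
      = ∑ s ∈ ((univ : Finset (Ln e P J)).filter (fun t => i ∈ line t ∧ k0 ≤ (t.1 : ℕ))).image g,
        (1 / ((2 : ℝ) ^ (e + (s.1 : ℕ))) ^ 2) := by
        rw [Finset.sum_image hinj]
        refine Finset.sum_congr rfl fun t _ => ?_
        simp [g, len]
    _ ≤ ∑ s ∈ (univ : Finset (Σ k : Fin P, Fin (2 ^ (k : ℕ)))).filter (fun s => k0 ≤ (s.1 : ℕ)),
        (1 / ((2 : ℝ) ^ (e + (s.1 : ℕ))) ^ 2) := by
        refine Finset.sum_le_sum_of_subset_of_nonneg ?_ fun _ _ _ => by positivity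
        intro s hs
        rw [Finset.mem_image] at hs
        obtain ⟨t, ht, rfl⟩ := hs
        simp only [mem_filter, mem_univ, true_and] at ht ⊢
        exact ht.2
    _ = ∑ k ∈ (univ : Finset (Fin P)).filter (fun k : Fin P => k0 ≤ (k : ℕ)),
        (2 : ℝ) ^ (k : ℕ) / ((2 : ℝ) ^ (e + (k : ℕ))) ^ 2 := by
        rw [Finset.sum_filter, Finset.sum_filter, Fintype.sum_sigma]
        refine Finset.sum_congr rfl fun k _ => ?_
        by_cases hk : k0 ≤ (k : ℕ)
        · simp [hk]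
          ring
        · simp [hk]

theorem geom_tail (k0 P e : ℕ) :
    ∑ k ∈ (univ : Finset (Fin P)).filter (fun k : Fin P => k0 ≤ (k : ℕ)),
        (2 : ℝ) ^ (k : ℕ) / ((2 : ℝ) ^ (e + (k : ℕ))) ^ 2 ≤ 2 / (2 : ℝ) ^ (2 * e + k0) := by
  have h1 : ∀ k : ℕ, (2 : ℝ) ^ k / ((2 : ℝ) ^ (e + k)) ^ 2 = (1 / (2 : ℝ) ^ (2 * e)) * (1 / 2) ^ k := by
    intro k
    rw [one_div_pow]
    field_simp
    ring
  have h2 : ∑ k ∈ (univ : Finset (Fin P)).filter (fun k : Fin P => k0 ≤ (k : ℕ)),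
        (2 : ℝ) ^ (k : ℕ) / ((2 : ℝ) ^ (e + (k : ℕ))) ^ 2 =
      ∑ k ∈ Finset.Ico k0 P, (1 / (2 : ℝ) ^ (2 * e)) * (1 / 2) ^ k := by
    rw [Finset.sum_filter, Fin.sum_univ_eq_sum_range (fun k => if k0 ≤ k then
      (2 : ℝ) ^ k / ((2 : ℝ) ^ (e + k)) ^ 2 else 0) P, ← Finset.sum_filter]
    rw [show (Finset.range P).filter (fun k => k0 ≤ k) = Finset.Ico k0 P by
      ext k; simp [and_comm]]
    exact Finset.sum_congr rfl fun k _ => h1 k
  rw [h2, ← Finset.mul_sum]
  have h3 : ∑ k ∈ Finset.Ico k0 P, (1 / 2 : ℝ) ^ k ≤ 2 * (1 / 2) ^ k0 := by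
    rcases le_total k0 P with h | h
    · rw [geom_sum_Ico (by norm_num) h]
      have : (0 : ℝ) ≤ (1 / 2) ^ P := by positivity
      have h4 : ((1 / 2 : ℝ) ^ P - (1 / 2) ^ k0) / (1 / 2 - 1) = 2 * (1 / 2) ^ k0 - 2 * (1 / 2) ^ P := by
        ring
      rw [h4]
      linarith
    · rw [Finset.Ico_eq_empty (by omega)]
      simp
  calc (1 / (2 : ℝ) ^ (2 * e)) * ∑ k ∈ Finset.Ico k0 P, (1 / 2 : ℝ) ^ k
      ≤ (1 / (2 : ℝ) ^ (2 * e)) * (2 * (1 / 2) ^ k0) := by
        exact mul_le_mul_of_nonneg_left h3 (by positivity)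
    _ = 2 / (2 : ℝ) ^ (2 * e + k0) := by
      rw [one_div_pow, pow_add]
      field_simp

end DesignAux

open DesignAux in
/-- Existence of designs with `4^J` variables and `4^J` lines for all large `J`. -/
theorem exists_design (ε : ℝ) (hε : 0 < ε) :
    ∃ J0 : ℕ, ∀ J ≥ J0, ∀ (ι : Type) [Fintype ι] [DecidableEq ι], Fintype.card ι = 4 ^ J →
      Nonempty (Design ι (4 ^ J) ε) := by
  classical
  obtain ⟨e, he⟩ : ∃ e : ℕ, 2 / (2 : ℝ) ^ e ≤ ε := by
    obtain ⟨e, he⟩ := exists_pow_lt_of_lt_one (show 0 < ε / 2 by positivity)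
      (show (1 / 2 : ℝ) < 1 by norm_num)
    refine ⟨e, ?_⟩
    rw [one_div_pow, lt_div_iff₀ (by norm_num)] at he
    calc 2 / (2 : ℝ) ^ e = 1 / 2 ^ e * 2 := by ring
      _ ≤ ε := he.le
  refine ⟨e + 2 * 2 ^ e, fun J hJ ι _ _ hι => ?_⟩
  set P := 2 ^ e with hP
  -- enumeration of the lines with nondecreasing round
  have hcard : Fintype.card (Ln e P J) = 4 ^ J := card_Ln hJ hP
  let en0 : Fin (4 ^ J) ≃ Ln e P J := (Fintype.equivFinOfCardEq hcard).symm
  let σ : Equiv.Perm (Fin (4 ^ J)) := Tuple.sort (fun b => ((en0 b).1 : ℕ))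
  have hmono : Monotone (fun b => ((en0 (σ b)).1 : ℕ)) :=
    Tuple.monotone_sort (fun b => ((en0 b).1 : ℕ))
  let en : Fin (4 ^ J) ≃ Ln e P J := σ.trans en0
  -- variables
  have hv : Fintype.card ι = Fintype.card (ZMod (2 ^ J) × ZMod (2 ^ J)) := by
    rw [hι, Fintype.card_prod, ZMod.card]
    rw [show (4 : ℕ) = 2 * 2 by norm_num, mul_pow]
  let φ : ZMod (2 ^ J) × ZMod (2 ^ J) ≃ ι := (Fintype.equivOfCardEq hv).symm
  let L : ℕ → List ι := fun b => if h : b < 4 ^ J then (line (en ⟨b, h⟩)).map φ else []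
  have hL : ∀ b (h : b < 4 ^ J), L b = (line (en ⟨b, h⟩)).map φ := fun b h => by simp [L, h]
  have hmem : ∀ b (h : b < 4 ^ J) (i : ι), i ∈ L b ↔ φ.symm i ∈ line (en ⟨b, h⟩) := by
    intro b h i
    rw [hL b h, List.mem_map]
    constructor
    · rintro ⟨x, hx, rfl⟩
      simpa using hx
    · intro hx
      exact ⟨_, hx, by simp⟩
  have hlen : ∀ b (h : b < 4 ^ J), (L b).length = len (en ⟨b, h⟩) := by
    intro b h
    rw [hL b h, List.length_map, length_line]
  -- transfer of sums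
  have hsum : ∀ (p : ℕ → Prop) [DecidablePred p] (p' : Ln e P J → Prop) [DecidablePred p'],
      (∀ b (h : b < 4 ^ J), p b → p' (en ⟨b, h⟩)) →
      ∑ b ∈ (range (4 ^ J)).filter p, (1 / ((L b).length : ℝ) ^ 2) ≤
        ∑ t ∈ (univ : Finset (Ln e P J)).filter p', (1 / (len t : ℝ) ^ 2) := by
    intro p _ p' _ hpp
    calc ∑ b ∈ (range (4 ^ J)).filter p, (1 / ((L b).length : ℝ) ^ 2)
        = ∑ b ∈ range (4 ^ J), (if p b then (1 / ((L b).length : ℝ) ^ 2) else 0) := by
          rw [Finset.sum_filter]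
      _ = ∑ b : Fin (4 ^ J), (if p b then (1 / ((L b).length : ℝ) ^ 2) else 0) := by
          rw [Fin.sum_univ_eq_sum_range (fun b => if p b then (1 / ((L b).length : ℝ) ^ 2) else 0)]
      _ ≤ ∑ b : Fin (4 ^ J), (if p' (en b) then (1 / (len (en b) : ℝ) ^ 2) else 0) := by
          refine Finset.sum_le_sum fun b _ => ?_
          by_cases hp : p b
          · rw [if_pos hp, if_pos (hpp b b.2 hp), hlen b b.2]
          · rw [if_neg hp]
            split_ifs <;> positivity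
      _ = ∑ t : Ln e P J, (if p' t then (1 / (len t : ℝ) ^ 2) else 0) :=
          Equiv.sum_comp en (fun t => if p' t then (1 / (len t : ℝ) ^ 2) else 0)
      _ = _ := by rw [Finset.sum_filter]
  refine ⟨⟨L, ?_, ?_, ?_, ?_, ?_⟩⟩
  · intro b hb
    rw [hlen b hb]
    exact len_pos _
  · intro b hb
    rw [hL b hb]
    exact (nodup_line hJ _).map φ.injective
  · intro b hb b' hb' hne i j h1 h2 h3 h4
    rw [hmem b hb] at h1 h3
    rw [hmem b' hb'] at h2 h4
    have hne' : en ⟨b, hb⟩ ≠ en ⟨b', hb'⟩ := by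
      intro h
      exact hne (by simpa using congrArg Fin.val (en.injective h))
    exact φ.symm.injective (inter_line hJ hne' h1 h2 h3 h4)
  · intro i
    refine (hsum (fun b => i ∈ L b) (fun t => φ.symm i ∈ line t ∧ 0 ≤ (t.1 : ℕ)) ?_).trans ?_
    · intro b hb h
      exact ⟨(hmem b hb i).1 h, Nat.zero_le _⟩
    · refine (sum_through hJ (φ.symm i) 0).trans ((geom_tail 0 P e).trans (le_trans ?_ he))
      refine div_le_div_of_nonneg_left (by norm_num) (by positivity) ?_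
      exact pow_le_pow_right₀ (by norm_num) (by omega)
  · intro b hb
    refine (hsum (fun b' => b < b' ∧ ∃ i ∈ L b, i ∈ L b')
      (fun t => ∃ i ∈ line (en ⟨b, hb⟩), i ∈ line t ∧ ((en ⟨b, hb⟩).1 : ℕ) ≤ (t.1 : ℕ)) ?_).trans ?_
    · rintro b' hb' ⟨h1, i, hi, hi'⟩
      refine ⟨φ.symm i, (hmem b hb i).1 hi, (hmem b' hb' i).1 hi', ?_⟩
      exact hmono (show (⟨b, hb⟩ : Fin (4 ^ J)) ≤ ⟨b', hb'⟩ from h1.le)
    · set t0 := en ⟨b, hb⟩ with ht0
      calc ∑ t ∈ (univ : Finset (Ln e P J)).filter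
            (fun t => ∃ i ∈ line t0, i ∈ line t ∧ (t0.1 : ℕ) ≤ (t.1 : ℕ)), (1 / (len t : ℝ) ^ 2)
          = ∑ t ∈ (univ : Finset (Ln e P J)).filter
            (fun t => ∃ i ∈ (line t0).toFinset, i ∈ line t ∧ (t0.1 : ℕ) ≤ (t.1 : ℕ)),
              (1 / (len t : ℝ) ^ 2) := by
            simp only [List.mem_toFinset]
        _ ≤ ∑ i ∈ (line t0).toFinset, ∑ t ∈ (univ : Finset (Ln e P J)).filter
            (fun t => i ∈ line t ∧ (t0.1 : ℕ) ≤ (t.1 : ℕ)), (1 / (len t : ℝ) ^ 2) :=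
            sum_exists_le _ _ (fun i t => i ∈ line t ∧ (t0.1 : ℕ) ≤ (t.1 : ℕ)) _
              fun _ => by positivity
        _ ≤ ∑ i ∈ (line t0).toFinset, 2 / (2 : ℝ) ^ (2 * e + t0.1) := by
            refine Finset.sum_le_sum fun i _ => ?_
            exact (sum_through hJ i t0.1).trans (geom_tail _ P e)
        _ ≤ len t0 * (2 / (2 : ℝ) ^ (2 * e + t0.1)) := by
            rw [Finset.sum_const, nsmul_eq_mul]
            refine mul_le_mul_of_nonneg_right ?_ (by positivity)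
            have := List.toFinset_card_le (line t0)
            rw [length_line] at this
            exact_mod_cast this
        _ = 2 / (2 : ℝ) ^ e := by
            unfold len
            push_cast
            rw [show 2 * e + (t0.1 : ℕ) = e + (e + t0.1) by ring, pow_add 2 e (e + _)]
            field_simp
        _ ≤ ε := he

end Crest.Agent.R134
end

-- ▼ part R134/Lines
section

/-!
# R134 (helper887): the design statement of the interface, for `m` targets

Adapted from helper856's `Design.lean` (`P = m * 2 ^ e` rounds instead of `2 ^ e`).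
-/

set_option autoImplicit false

namespace Crest.Agent.R134.Lines

open Finset Crest.Agent.R134.DesignAux

theorem card_Ln {e P J : ℕ} (m : ℕ) (hJ : e + 2 * P ≤ J) (hP : P = m * 2 ^ e) :
    Fintype.card (Ln e P J) = m * 4 ^ J := by
  have h : ∀ k : Fin P, Fintype.card (Fin (2 ^ (k : ℕ)) × Fin (2 ^ (J - e - k)) × ZMod (2 ^ J)) =
      2 ^ (2 * J - e) := by
    intro k
    have hk : (k : ℕ) < P := k.2
    rw [Fintype.card_prod, Fintype.card_prod, Fintype.card_fin, Fintype.card_fin, ZMod.card,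
      ← pow_add, ← pow_add]
    congr 1
    omega
  rw [Fintype.card_sigma, Finset.sum_congr rfl (fun k _ => h k), Finset.sum_const, Finset.card_univ,
    Fintype.card_fin, smul_eq_mul]
  calc P * 2 ^ (2 * J - e) = m * (2 ^ e * 2 ^ (2 * J - e)) := by rw [hP, mul_assoc]
    _ = m * 2 ^ (2 * J) := by
      rw [← pow_add]
      congr 2
      omega
    _ = m * 4 ^ J := by
      rw [pow_mul]
      norm_num

theorem exists_design (m : ℕ) (ε : ℝ) (hε : 0 < ε) :
    ∃ (J : ℕ) (d : Fin (m * 4 ^ J) → ℕ) (L : ∀ k, Fin (d k) → Fin (4 ^ J)),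
      (∀ k, 0 < d k) ∧ (∀ k, Function.Injective (L k)) ∧
      (∀ k k', k ≠ k' → ∀ l m l' m', L k l = L k' l' → L k m = L k' m' → l = m) ∧
      (∀ k, ∑ k' with (k < k' ∧ ∃ l l', L k l = L k' l'), (5 : ℝ) / (d k' : ℝ) ^ 2 ≤ ε) ∧
      (∀ i, ∑ k with (∃ l, L k l = i), (5 : ℝ) / (d k : ℝ) ^ 2 ≤ ε) := by
  classical
  obtain ⟨e, he⟩ : ∃ e : ℕ, 10 / (2 : ℝ) ^ e ≤ ε := by
    obtain ⟨e, he⟩ := exists_pow_lt_of_lt_one (show 0 < ε / 10 by positivity)
      (show (1 / 2 : ℝ) < 1 by norm_num)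
    refine ⟨e, ?_⟩
    rw [one_div_pow, lt_div_iff₀ (by norm_num)] at he
    calc 10 / (2 : ℝ) ^ e = 1 / 2 ^ e * 10 := by ring
      _ ≤ ε := he.le
  set P := m * 2 ^ e with hP
  set J := e + 2 * P with hJdef
  have hJ : e + 2 * P ≤ J := le_rfl
  -- enumeration of the lines with nondecreasing round
  have hcard : Fintype.card (Ln e P J) = m * 4 ^ J := card_Ln m hJ hP
  let en0 : Fin (m * 4 ^ J) ≃ Ln e P J := (Fintype.equivFinOfCardEq hcard).symm
  let σ : Equiv.Perm (Fin (m * 4 ^ J)) := Tuple.sort (fun b => ((en0 b).1 : ℕ))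
  have hmono : Monotone (fun b => ((en0 (σ b)).1 : ℕ)) :=
    Tuple.monotone_sort (fun b => ((en0 b).1 : ℕ))
  let en : Fin (m * 4 ^ J) ≃ Ln e P J := σ.trans en0
  -- variables
  have hv : Fintype.card (ZMod (2 ^ J) × ZMod (2 ^ J)) = 4 ^ J := by
    rw [Fintype.card_prod, ZMod.card]
    rw [show (4 : ℕ) = 2 * 2 by norm_num, mul_pow]
  let φ : ZMod (2 ^ J) × ZMod (2 ^ J) ≃ Fin (4 ^ J) := Fintype.equivFinOfCardEq hv
  let d : Fin (m * 4 ^ J) → ℕ := fun k => (line (en k)).length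
  let L : ∀ k, Fin (d k) → Fin (4 ^ J) := fun k l => φ ((line (en k)).get l)
  have hd : ∀ k, d k = len (en k) := fun k => length_line _
  have hmem : ∀ k (i : Fin (4 ^ J)), (∃ l, L k l = i) ↔ φ.symm i ∈ line (en k) := by
    intro k i
    rw [List.mem_iff_get]
    constructor
    · rintro ⟨l, hl⟩
      exact ⟨l, by rw [← hl]; simp [L]⟩
    · rintro ⟨l, hl⟩
      exact ⟨l, by simp only [L]; rw [hl]; simp⟩
  have hmem' : ∀ k (l : Fin (d k)), φ.symm (L k l) ∈ line (en k) := fun k l =>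
    (hmem k (L k l)).1 ⟨l, rfl⟩
  have hinj : ∀ k, Function.Injective (L k) := by
    intro k l l' h
    have h1 : (line (en k)).get l = (line (en k)).get l' := φ.injective h
    exact (List.nodup_iff_injective_get.1 (nodup_line hJ (en k))) h1
  refine ⟨J, d, L, fun k => ?_, hinj, ?_, ?_, ?_⟩
  · rw [hd]; exact len_pos _
  · intro k k' hne l p l' p' h1 h2
    have hne' : en k ≠ en k' := fun h => hne (en.injective h)
    refine hinj k (φ.symm.injective (inter_line hJ hne' (hmem' k l) ?_ (hmem' k p) ?_))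
    · rw [h1]; exact hmem' k' l'
    · rw [h2]; exact hmem' k' p'
  · -- crossing lines
    intro b
    set t0 := en b with ht0
    have h1 : ∑ k' with (b < k' ∧ ∃ l l', L b l = L k' l'), (5 : ℝ) / (d k' : ℝ) ^ 2 ≤
        ∑ t ∈ (univ : Finset (Ln e P J)).filter
          (fun t => ∃ i ∈ (line t0).toFinset, i ∈ line t ∧ (t0.1 : ℕ) ≤ (t.1 : ℕ)),
          (5 : ℝ) / (len t : ℝ) ^ 2 := by
      rw [Finset.sum_filter, Finset.sum_filter, ← Equiv.sum_comp en]
      refine Finset.sum_le_sum fun k' _ => ?_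
      rw [← hd k']
      by_cases hc : b < k' ∧ ∃ l l', L b l = L k' l'
      · rw [if_pos hc, if_pos]
        obtain ⟨hlt, l, l', hll⟩ := hc
        refine ⟨φ.symm (L b l), List.mem_toFinset.2 (hmem' b l), ?_, hmono hlt.le⟩
        rw [hll]
        exact hmem' k' l'
      · rw [if_neg hc]
        split_ifs <;> positivity
    refine h1.trans ?_
    calc ∑ t ∈ (univ : Finset (Ln e P J)).filter
          (fun t => ∃ i ∈ (line t0).toFinset, i ∈ line t ∧ (t0.1 : ℕ) ≤ (t.1 : ℕ)),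
            (5 : ℝ) / (len t : ℝ) ^ 2
        ≤ ∑ i ∈ (line t0).toFinset, ∑ t ∈ (univ : Finset (Ln e P J)).filter
          (fun t => i ∈ line t ∧ (t0.1 : ℕ) ≤ (t.1 : ℕ)), (5 : ℝ) / (len t : ℝ) ^ 2 :=
          sum_exists_le _ _ (fun i t => i ∈ line t ∧ (t0.1 : ℕ) ≤ (t.1 : ℕ)) _
            fun _ => by positivity
      _ = ∑ i ∈ (line t0).toFinset, 5 * ∑ t ∈ (univ : Finset (Ln e P J)).filter
          (fun t => i ∈ line t ∧ (t0.1 : ℕ) ≤ (t.1 : ℕ)), 1 / (len t : ℝ) ^ 2 := by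
          refine Finset.sum_congr rfl fun i _ => ?_
          rw [Finset.mul_sum]
          exact Finset.sum_congr rfl fun t _ => by ring
      _ ≤ ∑ i ∈ (line t0).toFinset, 5 * (2 / (2 : ℝ) ^ (2 * e + t0.1)) := by
          refine Finset.sum_le_sum fun i _ => ?_
          have := (sum_through hJ i t0.1).trans (geom_tail _ P e)
          linarith
      _ ≤ len t0 * (5 * (2 / (2 : ℝ) ^ (2 * e + t0.1))) := by
          rw [Finset.sum_const, nsmul_eq_mul]
          refine mul_le_mul_of_nonneg_right ?_ (by positivity)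
          have := List.toFinset_card_le (line t0)
          rw [length_line] at this
          exact_mod_cast this
      _ = 10 / (2 : ℝ) ^ e := by
          unfold len
          push_cast
          rw [show 2 * e + (t0.1 : ℕ) = e + (e + t0.1) by ring, pow_add 2 e (e + _)]
          field_simp
          norm_num
      _ ≤ ε := he
  · intro i
    have h1 : ∑ k with (∃ l, L k l = i), (5 : ℝ) / (d k : ℝ) ^ 2 ≤
        ∑ t ∈ (univ : Finset (Ln e P J)).filter
          (fun t => φ.symm i ∈ line t ∧ 0 ≤ (t.1 : ℕ)), (5 : ℝ) / (len t : ℝ) ^ 2 := by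
      rw [Finset.sum_filter, Finset.sum_filter, ← Equiv.sum_comp en]
      refine Finset.sum_le_sum fun k' _ => ?_
      rw [← hd k']
      by_cases hc : ∃ l, L k' l = i
      · rw [if_pos hc, if_pos]
        exact ⟨(hmem k' i).1 hc, Nat.zero_le _⟩
      · rw [if_neg hc]
        split_ifs <;> positivity
    refine h1.trans ?_
    have h2 := (sum_through hJ (φ.symm i) 0).trans (geom_tail 0 P e)
    have h3 : ∑ t ∈ (univ : Finset (Ln e P J)).filter
          (fun t => φ.symm i ∈ line t ∧ 0 ≤ (t.1 : ℕ)), (5 : ℝ) / (len t : ℝ) ^ 2 =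
        5 * ∑ t ∈ (univ : Finset (Ln e P J)).filter
          (fun t => φ.symm i ∈ line t ∧ 0 ≤ (t.1 : ℕ)), 1 / (len t : ℝ) ^ 2 := by
      rw [Finset.mul_sum]
      exact Finset.sum_congr rfl fun t _ => by ring
    rw [h3]
    have h4 : 2 / (2 : ℝ) ^ (2 * e + 0) ≤ 2 / (2 : ℝ) ^ e := by
      refine div_le_div_of_nonneg_left (by norm_num) (by positivity) ?_
      exact pow_le_pow_right₀ (by norm_num) (by omega)
    calc _ ≤ 5 * (2 / (2 : ℝ) ^ e) := by linarith
      _ = 10 / (2 : ℝ) ^ e := by ring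
      _ ≤ ε := he

end Crest.Agent.R134.Lines
end

-- ▼ part R134/Inv
section

/-!
# R134: recovering a semicircular element `x` from `uu x` (helper403)
-/

set_option autoImplicit false
set_option linter.unusedSectionVars false

universe u

namespace Crest.Agent.R134

open Crest.Agent.R95 Polynomial MeasureTheory

namespace Sm

/-! ### uniform approximation by Laurent polynomials in `exp (i Θ)` -/

theorem fact_two_pi : Fact (0 < 2 * Real.pi) := ⟨by positivity⟩

/-- `t ↦ Θ (2 cos t)` as a map to the circle -/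
noncomputable def qm : C(Set.Icc (0:ℝ) Real.pi, AddCircle (2 * Real.pi)) where
  toFun t := ((Θ (2 * Real.cos t) : ℝ) : AddCircle (2 * Real.pi))
  continuous_toFun := by
    have h1 : Continuous fun t : Set.Icc (0:ℝ) Real.pi => Θ (2 * Real.cos t) := by
      have := continuous_Θ
      fun_prop
    exact (AddCircle.continuous_mk' (2 * Real.pi)).comp h1

theorem phi_strictMono {t t' : ℝ} (h0 : 0 ≤ t) (h1 : t' ≤ Real.pi) (h : t < t') :
    2 * t - Real.sin (2 * t) < 2 * t' - Real.sin (2 * t') := by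
  have hd : 0 < t' - t := sub_pos.2 h
  have h2 : Real.sin (2 * t') - Real.sin (2 * t) =
      2 * Real.sin (t' - t) * Real.cos (t' + t) := by
    rw [Real.sin_sub_sin]
    have e1 : (2 * t' - 2 * t) / 2 = t' - t := by ring
    have e2 : (2 * t' + 2 * t) / 2 = t' + t := by ring
    rw [e1, e2]
  have h3 : Real.sin (t' - t) < t' - t := Real.sin_lt hd
  have h4 : 0 ≤ Real.sin (t' - t) := Real.sin_nonneg_of_nonneg_of_le_pi hd.le (by linarith)
  have h5 := Real.cos_le_one (t' + t)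
  nlinarith

theorem phi_inj {t t' : ℝ} (h0 : 0 ≤ t) (h1 : t ≤ Real.pi) (h0' : 0 ≤ t') (h1' : t' ≤ Real.pi)
    (h : 2 * t - Real.sin (2 * t) = 2 * t' - Real.sin (2 * t')) : t = t' := by
  rcases lt_trichotomy t t' with h2 | h2 | h2
  · exact absurd h (phi_strictMono h0 h1' h2).ne
  · exact h2
  · exact absurd h (phi_strictMono h0' h1 h2).ne'

theorem qm_surj : Function.Surjective qm := by
  have := fact_two_pi
  intro θ
  have hθ : θ ∈ ((↑) : ℝ → AddCircle (2 * Real.pi)) '' Set.Icc (-Real.pi) (-Real.pi + 2 * Real.pi) := by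
    rw [AddCircle.coe_image_Icc_eq]; trivial
  obtain ⟨y, hy, rfl⟩ := hθ
  have hc : ContinuousOn (fun t : ℝ => 2 * t - Real.sin (2 * t) - Real.pi)
      (Set.Icc 0 Real.pi) := by fun_prop
  have hiv := intermediate_value_Icc Real.pi_pos.le hc
  have : y ∈ Set.Icc (2 * (0:ℝ) - Real.sin (2 * 0) - Real.pi)
      (2 * Real.pi - Real.sin (2 * Real.pi) - Real.pi) := by
    simp only [mul_zero, Real.sin_zero, Real.sin_two_pi, sub_zero, zero_sub]
    constructor
    · exact hy.1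
    · linarith [hy.2]
  obtain ⟨t, ht, hty⟩ := hiv this
  refine ⟨⟨t, ht⟩, ?_⟩
  show ((Θ (2 * Real.cos t) : ℝ) : AddCircle (2 * Real.pi)) = _
  rw [Θ_two_cos ht.1 ht.2]
  exact congrArg _ hty

theorem qm_quot : Topology.IsQuotientMap qm :=
  haveI := fact_two_pi
  qm.continuous.isClosedMap.isQuotientMap qm.continuous qm_surj

theorem factors {F : ℝ → ℂ} (h2 : F 2 = F (-2)) :
    Function.FactorsThrough (fun t : Set.Icc (0:ℝ) Real.pi => F (2 * Real.cos t)) qm := by
  have := fact_two_pi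
  intro t t' h
  obtain ⟨t, ht0, ht1⟩ := t
  obtain ⟨t', ht0', ht1'⟩ := t'
  have h1 : ((Θ (2 * Real.cos t) : ℝ) : AddCircle (2 * Real.pi)) =
      ((Θ (2 * Real.cos t') : ℝ) : AddCircle (2 * Real.pi)) := h
  rw [Θ_two_cos ht0 ht1, Θ_two_cos ht0' ht1', ← sub_eq_zero, ← AddCircle.coe_sub,
    AddCircle.coe_eq_zero_iff] at h1
  obtain ⟨n, hn⟩ := h1
  show F (2 * Real.cos t) = F (2 * Real.cos t')
  have hpi := Real.pi_pos
  -- bounds `0 ≤ 2 t - sin (2 t) ≤ 2 π`
  have b0 : ∀ t : ℝ, 0 ≤ t → 0 ≤ 2 * t - Real.sin (2 * t) := fun t ht => by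
    have := Real.sin_le (x := 2 * t) (by linarith); linarith
  have b1 : ∀ t : ℝ, t ≤ Real.pi → 2 * t - Real.sin (2 * t) ≤ 2 * Real.pi := fun t ht => by
    have := Real.sin_le (x := 2 * Real.pi - 2 * t) (by linarith)
    rw [Real.sin_two_pi_sub] at this
    linarith
  have b0t := b0 t ht0
  have b0t' := b0 t' ht0'
  have b1t := b1 t ht1
  have b1t' := b1 t' ht1'
  rw [zsmul_eq_mul] at hn
  have hn1 : (n : ℝ) ≤ 1 := by
    by_contra hcon
    push Not at hcon
    nlinarith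
  have hn2 : (-1 : ℝ) ≤ n := by
    by_contra hcon
    push Not at hcon
    nlinarith
  have hn1' : n ≤ 1 := by exact_mod_cast hn1
  have hn2' : -1 ≤ n := by exact_mod_cast hn2
  have hs0 : 2 * (0:ℝ) - Real.sin (2 * 0) = 0 := by simp
  have hspi : 2 * Real.pi - Real.sin (2 * Real.pi) = 2 * Real.pi := by simp
  interval_cases n
  · have e1 : 2 * t - Real.sin (2 * t) = 0 := by push_cast at hn; linarith
    have e2 : 2 * t' - Real.sin (2 * t') = 2 * Real.pi := by push_cast at hn; linarith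
    have h3 : t = 0 := phi_inj ht0 ht1 le_rfl hpi.le (by rw [e1, hs0])
    have h4 : t' = Real.pi := phi_inj ht0' ht1' hpi.le le_rfl (by rw [e2, hspi])
    rw [h3, h4]
    simp [h2]
  · have e1 : 2 * t - Real.sin (2 * t) = 2 * t' - Real.sin (2 * t') := by
      push_cast at hn; linarith
    rw [phi_inj ht0 ht1 ht0' ht1' e1]
  · have e1 : 2 * t' - Real.sin (2 * t') = 0 := by push_cast at hn; linarith
    have e2 : 2 * t - Real.sin (2 * t) = 2 * Real.pi := by push_cast at hn; linarith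
    have h3 : t' = 0 := phi_inj ht0' ht1' le_rfl hpi.le (by rw [e1, hs0])
    have h4 : t = Real.pi := phi_inj ht0 ht1 hpi.le le_rfl (by rw [e2, hspi])
    rw [h3, h4]
    simp [h2]

/-- Laurent polynomials in `exp (i Θ)` -/
theorem span_laurent {h : C(AddCircle (2 * Real.pi), ℂ)}
    (hh : h ∈ Submodule.span ℂ (Set.range (@fourier (2 * Real.pi)))) :
    ∃ P Q : ℂ[X], ∀ s : ℝ, h ((Θ s : ℝ) : AddCircle (2 * Real.pi)) =
      P.eval (ex 1 s) + Q.eval (ex (-1) s) := by
  induction hh using Submodule.span_induction with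
  | mem h hh =>
    obtain ⟨n, rfl⟩ := hh
    have h1 : ∀ s : ℝ, fourier n ((Θ s : ℝ) : AddCircle (2 * Real.pi)) = ex n s := by
      intro s
      rw [fourier_coe_apply]
      unfold ex
      congr 1
      have hpi : (Real.pi : ℂ) ≠ 0 := by exact_mod_cast Real.pi_ne_zero
      push_cast
      field_simp
    have h2 : ∀ (c : ℝ) (m : ℕ) (s : ℝ), ex c s ^ m = ex (m * c) s := by
      intro c m s
      unfold ex
      rw [← Complex.exp_nat_mul]
      congr 1
      push_cast
      ring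
    rcases le_total 0 n with hn | hn
    · obtain ⟨m, rfl⟩ := Int.eq_ofNat_of_zero_le hn
      refine ⟨X ^ m, 0, fun s => ?_⟩
      rw [h1, eval_pow, eval_X, h2, eval_zero, add_zero]
      simp
    · obtain ⟨m, hm⟩ := Int.eq_ofNat_of_zero_le (neg_nonneg.2 hn)
      refine ⟨0, X ^ m, fun s => ?_⟩
      rw [h1, eval_pow, eval_X, h2, eval_zero, zero_add]
      congr 1
      have : (n : ℝ) = -(m : ℝ) := by
        have : n = -(m : ℤ) := by omega
        rw [this]; push_cast; ring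
      rw [this]; ring
  | zero => exact ⟨0, 0, fun s => by simp⟩
  | add h k _ _ hh hk =>
    obtain ⟨P, Q, h1⟩ := hh
    obtain ⟨P', Q', h2⟩ := hk
    refine ⟨P + P', Q + Q', fun s => ?_⟩
    rw [ContinuousMap.add_apply, h1, h2, eval_add, eval_add]
    ring
  | smul c h _ hh =>
    obtain ⟨P, Q, h1⟩ := hh
    refine ⟨C c * P, C c * Q, fun s => ?_⟩
    rw [ContinuousMap.smul_apply, h1, eval_mul, eval_mul, eval_C, eval_C, smul_eq_mul]
    ring

theorem exists_laurent {F : ℝ → ℂ} (hF : Continuous F) (h2 : F 2 = F (-2)) {ε : ℝ} (hε : 0 < ε) :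
    ∃ P Q : ℂ[X], ∀ s ∈ Set.Icc (-2:ℝ) 2, ‖P.eval (ex 1 s) + Q.eval (ex (-1) s) - F s‖ ≤ ε := by
  have := fact_two_pi
  let g : C(Set.Icc (0:ℝ) Real.pi, ℂ) := ⟨fun t => F (2 * Real.cos t), by fun_prop⟩
  let G : C(AddCircle (2 * Real.pi), ℂ) := qm_quot.lift g (factors h2)
  have hG : ∀ t : Set.Icc (0:ℝ) Real.pi, G (qm t) = F (2 * Real.cos t) := by
    intro t
    have := congrArg (fun k => k t) (qm_quot.lift_comp g (factors h2))
    exact this
  have hmem : G ∈ (Submodule.span ℂ (Set.range (@fourier (2 * Real.pi)))).topologicalClosure := by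
    rw [span_fourier_closure_eq_top]; trivial
  rw [← SetLike.mem_coe, Submodule.topologicalClosure_coe, Metric.mem_closure_iff] at hmem
  obtain ⟨h, hh, hd⟩ := hmem ε hε
  obtain ⟨P, Q, hPQ⟩ := span_laurent hh
  refine ⟨P, Q, fun s hs => ?_⟩
  have h1 : -1 ≤ s / 2 := by linarith [hs.1]
  have h2 : s / 2 ≤ 1 := by linarith [hs.2]
  have e : s = 2 * Real.cos (Real.arccos (s / 2)) := by rw [Real.cos_arccos h1 h2]; ring
  have h3 := hG ⟨Real.arccos (s / 2), Real.arccos_nonneg _, Real.arccos_le_pi _⟩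
  simp only [← e] at h3
  have h4 : qm ⟨Real.arccos (s / 2), Real.arccos_nonneg _, Real.arccos_le_pi _⟩ =
      ((Θ s : ℝ) : AddCircle (2 * Real.pi)) := by
    show ((Θ (2 * Real.cos (Real.arccos (s / 2))) : ℝ) : AddCircle (2 * Real.pi)) = _
    rw [← e]
  rw [h4] at h3
  rw [← hPQ, ← h3, norm_sub_rev]
  have := (ContinuousMap.dist_apply_le_dist (f := G) (g := h) ((Θ s : ℝ) : AddCircle (2 * Real.pi)))
  rw [dist_eq_norm] at this
  exact this.trans hd.le

/-- weighted bound for `Sc` -/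
theorem norm_Sc_le_weighted {F : ℝ → ℂ} {c : ℝ}
    (h : ∀ t : ℝ, ‖F (2 * Real.cos t)‖ * Real.sin t ^ 2 ≤ c) : ‖Sc F‖ ≤ 2 * c := by
  unfold Sc
  rw [norm_mul]
  have h1 : ‖∫ t in (0:ℝ)..Real.pi, F (2 * Real.cos t) * ((Real.sin t ^ 2 : ℝ) : ℂ)‖ ≤
      c * |Real.pi - 0| := by
    apply intervalIntegral.norm_integral_le_of_norm_le_const
    intro t _
    rw [norm_mul, Complex.norm_real, Real.norm_of_nonneg (sq_nonneg _)]
    exact h t
  rw [sub_zero, abs_of_pos Real.pi_pos] at h1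
  have h2 : ‖(2 / Real.pi : ℂ)‖ = 2 / Real.pi := by
    have : (2 / Real.pi : ℂ) = ((2 / Real.pi : ℝ) : ℂ) := by push_cast; ring
    rw [this, Complex.norm_real, Real.norm_of_nonneg (by positivity)]
  rw [h2]
  have hpi := Real.pi_pos
  calc 2 / Real.pi * ‖∫ t in (0:ℝ)..Real.pi, F (2 * Real.cos t) * ((Real.sin t ^ 2 : ℝ) : ℂ)‖
      ≤ 2 / Real.pi * (c * Real.pi) := by gcongr
    _ = 2 * c := by field_simp

/-- cut-off of the identity near `±2` -/
noncomputable def cut (η : ℝ) (s : ℝ) : ℝ := s * max 0 (min 1 ((4 - s ^ 2) / η))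

theorem continuous_cut (η : ℝ) : Continuous (cut η) := by
  unfold cut
  fun_prop

theorem cut_two (η : ℝ) : cut η 2 = 0 := by
  have : (4 - (2:ℝ) ^ 2) / η = 0 := by norm_num
  rw [cut, this]; simp
theorem cut_neg_two (η : ℝ) : cut η (-2) = 0 := by
  have : (4 - (-2:ℝ) ^ 2) / η = 0 := by norm_num
  rw [cut, this]; simp

theorem cut_bound {η : ℝ} (hη : 0 < η) (t : ℝ) :
    (cut η (2 * Real.cos t) - 2 * Real.cos t) ^ 2 * Real.sin t ^ 2 ≤ η := by
  set s := 2 * Real.cos t with hs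
  have h4 : 4 - s ^ 2 = 4 * Real.sin t ^ 2 := by
    have := Real.sin_sq_add_cos_sq t
    rw [hs]; nlinarith
  have hc1 : Real.cos t ^ 2 ≤ 1 := by
    have := Real.sin_sq_add_cos_sq t
    nlinarith [sq_nonneg (Real.sin t)]
  unfold cut
  by_cases hcase : η ≤ 4 - s ^ 2
  · have h1 : 1 ≤ (4 - s ^ 2) / η := by rwa [le_div_iff₀ hη, one_mul]
    rw [min_eq_left h1, max_eq_right (by norm_num : (0:ℝ) ≤ 1), mul_one, sub_self]
    simp [hη.le]
  · push Not at hcase
    set m := max 0 (min 1 ((4 - s ^ 2) / η)) with hm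
    have hm0 : 0 ≤ m := le_max_left _ _
    have hm1 : m ≤ 1 := max_le (by norm_num) (min_le_left _ _)
    have h5 : (s * m - s) ^ 2 ≤ 4 := by
      have : (s * m - s) ^ 2 = s ^ 2 * (1 - m) ^ 2 := by ring
      rw [this]
      have hs4 : s ^ 2 ≤ 4 := by rw [hs]; nlinarith
      have h6 : (1 - m) ^ 2 ≤ 1 := by nlinarith
      nlinarith [sq_nonneg s, sq_nonneg (1 - m)]
    have h6 : 4 * Real.sin t ^ 2 ≤ η := by rw [← h4]; exact hcase.le
    nlinarith [sq_nonneg (Real.sin t)]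

section
variable {A : Type*} [CStarAlgebra A] {T : TracialState A}

theorem fc_aeval {x : A} (hx : IsSelfAdjoint x) (c : ℝ) (P : ℂ[X]) :
    fc x (fun s => P.eval (ex c s)) = aeval (fc x (ex c)) P := by
  induction P using Polynomial.induction_on' with
  | add P Q hP hQ =>
    simp only [eval_add, map_add]
    rw [fc_add, hP, hQ]
    · exact P.continuous.comp (continuous_ex c)
    · exact Q.continuous.comp (continuous_ex c)
  | monomial n a =>
    rw [aeval_monomial, fc_pow hx]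
    have : (fun s => eval (ex c s) (monomial n a)) = fun s => a * ex (n * c) s := by
      ext s
      rw [eval_monomial]
      congr 1
      unfold ex
      rw [← Complex.exp_nat_mul]
      congr 1
      push_cast
      ring
    rw [this, fc_mul continuous_const (continuous_ex _), fc_const hx]

/-- the approximating Laurent polynomial -/
theorem exists_laurent_L2 {ε : ℝ} (hε : 0 < ε) : ∃ P Q : ℂ[X],
    ∀ (A : Type u) [CStarAlgebra A] (T : TracialState A) (x : A), IsSelfAdjoint x →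
      (∀ n, T.τ (ch x (n+1)) = 0) →
      T.nrm2 (aeval (uu x) P + aeval (star (uu x)) Q - x) < ε := by
  obtain ⟨P, Q, hPQ⟩ := exists_laurent (F := fun s => ((cut (ε ^ 2 / 32) s : ℝ) : ℂ))
    (Complex.continuous_ofReal.comp (continuous_cut _)) (by simp [cut_two, cut_neg_two])
    (ε := ε / 4) (by positivity)
  refine ⟨P, Q, fun A _ T x hx h => ?_⟩
  have hη : 0 < ε ^ 2 / 32 := by positivity
  have hc0 : Continuous fun s : ℝ => ((cut (ε ^ 2 / 32) s : ℝ) : ℂ) :=
    Complex.continuous_ofReal.comp (continuous_cut _)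
  have hcP : Continuous fun s => P.eval (ex 1 s) := P.continuous.comp (continuous_ex 1)
  have hcQ : Continuous fun s => Q.eval (ex (-1) s) := Q.continuous.comp (continuous_ex (-1))
  have hc1 : Continuous fun s => P.eval (ex 1 s) + Q.eval (ex (-1) s) := hcP.add hcQ
  have hstar : star (uu x) = fc x (ex (-1)) := by
    rw [uu_eq_ex, ← fc_star]; congr 1; ext s; rw [ex_star]
  have e : aeval (uu x) P + aeval (star (uu x)) Q - x =
      fc x (fun s => P.eval (ex 1 s) + Q.eval (ex (-1) s) - ((cut (ε ^ 2 / 32) s : ℝ) : ℂ)) +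
      fc x (fun s => ((cut (ε ^ 2 / 32) s : ℝ) : ℂ) - (s : ℂ)) := by
    rw [fc_sub hc1 hc0, fc_sub hc0 Complex.continuous_ofReal, fc_add hcP hcQ, fc_aeval hx,
      fc_aeval hx, hstar, uu_eq_ex, fc_ofReal hx]
    abel
  rw [e]
  have n1 : T.nrm2 (fc x (fun s => P.eval (ex 1 s) + Q.eval (ex (-1) s) -
      ((cut (ε ^ 2 / 32) s : ℝ) : ℂ))) ≤ ε / 4 := by
    have hcs : Continuous fun s : ℝ => P.eval (ex 1 s) + Q.eval (ex (-1) s) -
        ((cut (ε ^ 2 / 32) s : ℝ) : ℂ) := hc1.sub hc0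
    have hsq := nrm2_fc_sq (T := T) hx h hcs
    have hb : T.nrm2 (fc x (fun s => P.eval (ex 1 s) + Q.eval (ex (-1) s) -
        ((cut (ε ^ 2 / 32) s : ℝ) : ℂ))) ^ 2 ≤ (ε / 4) ^ 2 := by
      refine hsq.le.trans ((Complex.re_le_norm _).trans (norm_Sc_le fun s hs => ?_))
      rw [norm_mul, norm_star, ← sq]
      exact pow_le_pow_left₀ (norm_nonneg _) (hPQ s hs) 2
    exact abs_le_of_sq_le_sq' hb (by positivity) |>.2
  have n2 : T.nrm2 (fc x (fun s => ((cut (ε ^ 2 / 32) s : ℝ) : ℂ) - (s : ℂ))) ≤ ε / 4 := by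
    have hcs : Continuous fun s : ℝ => ((cut (ε ^ 2 / 32) s : ℝ) : ℂ) - (s : ℂ) :=
      hc0.sub Complex.continuous_ofReal
    have hsq := nrm2_fc_sq (T := T) hx h hcs
    have hb : T.nrm2 (fc x (fun s => ((cut (ε ^ 2 / 32) s : ℝ) : ℂ) - (s : ℂ))) ^ 2 ≤
        (ε / 4) ^ 2 := by
      refine hsq.le.trans ((Complex.re_le_norm _).trans ?_)
      refine (norm_Sc_le_weighted (c := ε ^ 2 / 32) fun t => ?_).trans (le_of_eq (by ring))
      rw [norm_mul, norm_star, ← sq]
      have := cut_bound hη t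
      rw [← Complex.ofReal_sub, Complex.norm_real, Real.norm_eq_abs, sq_abs]
      exact this
    exact abs_le_of_sq_le_sq' hb (by positivity) |>.2
  have := T.nrm2_add_le (fc x (fun s => P.eval (ex 1 s) + Q.eval (ex (-1) s) -
    ((cut (ε ^ 2 / 32) s : ℝ) : ℂ))) (fc x (fun s => ((cut (ε ^ 2 / 32) s : ℝ) : ℂ) - (s : ℂ)))
  linarith

end

/-- Lipschitz bound for polynomials of unitaries -/
theorem lip_poly (P : ℂ[X]) : ∃ C : ℝ, 0 ≤ C ∧ ∀ (A : Type u) [CStarAlgebra A]
    (T : TracialState A) (v w : A), ‖v‖ ≤ 1 → ‖w‖ ≤ 1 →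
      T.nrm2 (aeval v P - aeval w P) ≤ C * T.nrm2 (v - w) := by
  have hpow : ∀ (A : Type u) [CStarAlgebra A] (T : TracialState A) (v w : A), ‖v‖ ≤ 1 → ‖w‖ ≤ 1 →
      ∀ n : ℕ, T.nrm2 (v ^ n - w ^ n) ≤ n * T.nrm2 (v - w) := by
    intro A _ T v w hv hw n
    induction n with
    | zero => simp [T.nrm2_zero]
    | succ n ih =>
      have e : v ^ (n+1) - w ^ (n+1) = v ^ n * (v - w) + (v ^ n - w ^ n) * w := by
        rw [pow_succ, pow_succ]; noncomm_ring
      rw [e]
      refine (T.nrm2_add_le _ _).trans ?_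
      have hvn : ‖v ^ n‖ ≤ 1 := by
        cases subsingleton_or_nontrivial A with
        | inl h => rw [Subsingleton.elim (v ^ n) 0]; simp
        | inr h => exact (norm_pow_le v n).trans (pow_le_one₀ (norm_nonneg _) hv)
      have h1 := T.nrm2_mul_le_left (v ^ n) (v - w)
      have h2 := T.nrm2_mul_le_right (v ^ n - w ^ n) w
      have h3 : ‖v ^ n‖ * T.nrm2 (v - w) ≤ 1 * T.nrm2 (v - w) :=
        mul_le_mul_of_nonneg_right hvn (T.nrm2_nonneg _)
      have h4 : T.nrm2 (v ^ n - w ^ n) * ‖w‖ ≤ (n * T.nrm2 (v - w)) * 1 :=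
        mul_le_mul ih hw (norm_nonneg _) (mul_nonneg (Nat.cast_nonneg _) (T.nrm2_nonneg _))
      push_cast
      linarith
  induction P using Polynomial.induction_on' with
  | add P Q hP hQ =>
    obtain ⟨C, hC, h1⟩ := hP
    obtain ⟨C', hC', h2⟩ := hQ
    refine ⟨C + C', add_nonneg hC hC', fun A _ T v w hv hw => ?_⟩
    have e : aeval v (P + Q) - aeval w (P + Q) =
      (aeval v P - aeval w P) + (aeval v Q - aeval w Q) := by rw [map_add, map_add]; abel
    rw [e, add_mul]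
    exact (T.nrm2_add_le _ _).trans (add_le_add (h1 A T v w hv hw) (h2 A T v w hv hw))
  | monomial n a =>
    refine ⟨‖a‖ * n, by positivity, fun A _ T v w hv hw => ?_⟩
    rw [aeval_monomial, aeval_monomial, ← mul_sub, Algebra.algebraMap_eq_smul_one, smul_mul_assoc,
      one_mul, T.nrm2_smul, mul_assoc]
    exact mul_le_mul_of_nonneg_left (hpow A T v w hv hw n) (norm_nonneg _)

theorem norm_unitary_le {A : Type*} [CStarAlgebra A] {v : A} (hv : v ∈ unitary A) : ‖v‖ ≤ 1 := by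
  cases subsingleton_or_nontrivial A with
  | inl h => rw [Subsingleton.elim v 0]; simp
  | inr h => exact (CStarRing.norm_of_mem_unitary hv).le

end Sm

open Sm

variable {A : Type u} [CStarAlgebra A] (T : TracialState A)

theorem laurent_mem_adjoin (V : A) (P Q : ℂ[X]) :
    aeval V P + aeval (star V) Q ∈ StarAlgebra.adjoin ℂ ({V} : Set A) := by
  have hV : V ∈ StarAlgebra.adjoin ℂ ({V} : Set A) := StarAlgebra.subset_adjoin ℂ _ rfl
  have key : ∀ (w : A), w ∈ StarAlgebra.adjoin ℂ ({V} : Set A) → ∀ P : ℂ[X],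
      aeval w P ∈ StarAlgebra.adjoin ℂ ({V} : Set A) := by
    intro w hw P
    induction P using Polynomial.induction_on' with
    | add P Q hP hQ => rw [map_add]; exact add_mem hP hQ
    | monomial n a =>
      rw [aeval_monomial]
      exact mul_mem (StarSubalgebra.algebraMap_mem _ _) (pow_mem hw n)
  exact add_mem (key V hV P) (key (star V) (star_mem hV) Q)

theorem SD.mem_W_uu {S : Set A} (_hT : Amb T) (hS : ∀ s ∈ S, star s ∈ S) {x : A} (h : SD T S x) :
    x ∈ W T {uu x} := by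
  intro ε hε
  obtain ⟨P, Q, hPQ⟩ := exists_laurent_L2 hε
  refine ⟨_, laurent_mem_adjoin (uu x) P Q, ?_⟩
  rw [T.nrm2_sub_comm]
  exact hPQ A T x h.1 (tau_ch_of_SD hS h)

theorem SD.uu_inj (hT : Amb T) {S S' : Set A} (hS : ∀ s ∈ S, star s ∈ S)
    (hS' : ∀ s ∈ S', star s ∈ S') {x x' : A} (h : SD T S x) (h' : SD T S' x')
    (huu : uu x = uu x') : x = x' := by
  rw [← sub_eq_zero]
  apply hT.faithful
  refine le_antisymm (le_of_forall_pos_le_add fun ε hε => ?_) (T.nrm2_nonneg _)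
  obtain ⟨P, Q, hPQ⟩ := exists_laurent_L2 (ε := ε / 2) (by positivity)
  have h1 := hPQ A T x h.1 (tau_ch_of_SD hS h)
  have h2 := hPQ A T x' h'.1 (tau_ch_of_SD hS' h')
  rw [T.nrm2_sub_comm] at h1
  rw [← huu] at h2
  have := T.nrm2_triangle x (aeval (uu x) P + aeval (star (uu x)) Q) x'
  linarith

theorem inverse_a (ε : ℝ) (hε : 0 < ε) : ∃ δ : ℝ, 0 < δ ∧
    ∀ (A : Type u) [CStarAlgebra A] (T : TracialState A), Amb T → ∀ (S : Set A),
      (∀ s ∈ S, star s ∈ S) → ∀ x : A, SD T S x → ∀ α : A ≃⋆ₐ[ℂ] A, Pres T α →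
        T.nrm2 (α (uu x) - uu x) < δ → T.nrm2 (α x - x) < ε := by
  obtain ⟨P, Q, hPQ⟩ := exists_laurent_L2 (ε := ε / 3) (by positivity)
  obtain ⟨C, hC, hCP⟩ := lip_poly P
  obtain ⟨C', hC', hCQ⟩ := lip_poly Q
  refine ⟨ε / (3 * (C + C' + 1)), by positivity, fun A _ T hT S hS x h α hα hlt => ?_⟩
  have hu := uu_unitary h.1
  have hαu : α (uu x) ∈ unitary A := Unitary.map_mem α hu
  have hL := hPQ A T x h.1 (tau_ch_of_SD hS h)
  set L : A → A := fun V => aeval V P + aeval (star V) Q with hLdef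
  have hαL : α (L (uu x)) = L (α (uu x)) := by
    simp only [hLdef, map_add]
    have key : ∀ (w : A) (P : ℂ[X]), α (aeval w P) = aeval (α w) P := by
      intro w P
      exact (Polynomial.aeval_algHom_apply (α : A →⋆ₐ[ℂ] A) w P).symm
    rw [key, key, map_star]
  have h1 : T.nrm2 (α x - α (L (uu x))) < ε / 3 := by
    rw [← map_sub, hα.nrm2, T.nrm2_sub_comm]
    exact hL
  have h2 : T.nrm2 (α (L (uu x)) - L (uu x)) ≤ (C + C') * T.nrm2 (α (uu x) - uu x) := by
    rw [hαL]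
    have e : L (α (uu x)) - L (uu x) = (aeval (α (uu x)) P - aeval (uu x) P) +
        (aeval (star (α (uu x))) Q - aeval (star (uu x)) Q) := by
      simp only [hLdef]; abel
    rw [e, add_mul]
    refine (T.nrm2_add_le _ _).trans (add_le_add (hCP A T _ _ (norm_unitary_le hαu)
      (norm_unitary_le hu)) ?_)
    have := hCQ A T (star (α (uu x))) (star (uu x)) (norm_unitary_le (Unitary.star_mem hαu))
      (norm_unitary_le (Unitary.star_mem hu))
    rwa [← star_sub, T.nrm2_star] at this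
  have h3 : (C + C') * T.nrm2 (α (uu x) - uu x) < ε / 3 := by
    have hpos : 0 < C + C' + 1 := by positivity
    calc (C + C') * T.nrm2 (α (uu x) - uu x) ≤ (C + C' + 1) * T.nrm2 (α (uu x) - uu x) := by
          have := T.nrm2_nonneg (α (uu x) - uu x)
          nlinarith
      _ < (C + C' + 1) * (ε / (3 * (C + C' + 1))) := by gcongr
      _ = ε / 3 := by field_simp
  have h4 := T.nrm2_triangle (α x) (α (L (uu x))) x
  have h5 := T.nrm2_triangle (α (L (uu x))) (L (uu x)) x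
  have h6 : T.nrm2 (L (uu x) - x) < ε / 3 := hL
  linarith

theorem inverse_b (ε : ℝ) (hε : 0 < ε) : ∃ δ : ℝ, 0 < δ ∧
    ∀ (A : Type u) [CStarAlgebra A] (T : TracialState A), Amb T → ∀ (S : Set A),
      (∀ s ∈ S, star s ∈ S) → ∀ x : A, SD T S x → ∀ V ∈ unitary A,
        T.nrm2 (V - uu x) < δ → ∃ z ∈ StarAlgebra.adjoin ℂ ({V} : Set A), IsSelfAdjoint z ∧
          T.nrm2 (z - x) < ε := by
  obtain ⟨P, Q, hPQ⟩ := exists_laurent_L2 (ε := ε / 2) (by positivity)
  obtain ⟨C, hC, hCP⟩ := lip_poly P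
  obtain ⟨C', hC', hCQ⟩ := lip_poly Q
  refine ⟨ε / (2 * (C + C' + 1)), by positivity, fun A _ T hT S hS x h V hV hlt => ?_⟩
  have hu := uu_unitary h.1
  have hL := hPQ A T x h.1 (tau_ch_of_SD hS h)
  set L : A → A := fun V => aeval V P + aeval (star V) Q with hLdef
  have hmem : L V ∈ StarAlgebra.adjoin ℂ ({V} : Set A) := laurent_mem_adjoin V P Q
  have h2 : T.nrm2 (L V - L (uu x)) ≤ (C + C') * T.nrm2 (V - uu x) := by
    have e : L V - L (uu x) = (aeval V P - aeval (uu x) P) +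
        (aeval (star V) Q - aeval (star (uu x)) Q) := by
      simp only [hLdef]; abel
    rw [e, add_mul]
    refine (T.nrm2_add_le _ _).trans (add_le_add (hCP A T _ _ (norm_unitary_le hV)
      (norm_unitary_le hu)) ?_)
    have := hCQ A T (star V) (star (uu x)) (norm_unitary_le (Unitary.star_mem hV))
      (norm_unitary_le (Unitary.star_mem hu))
    rwa [← star_sub, T.nrm2_star] at this
  have h3 : (C + C') * T.nrm2 (V - uu x) < ε / 2 := by
    have hpos : 0 < C + C' + 1 := by positivity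
    calc (C + C') * T.nrm2 (V - uu x) ≤ (C + C' + 1) * T.nrm2 (V - uu x) := by
          have := T.nrm2_nonneg (V - uu x)
          nlinarith
      _ < (C + C' + 1) * (ε / (2 * (C + C' + 1))) := by gcongr
      _ = ε / 2 := by field_simp
  have h6 : T.nrm2 (L V - x) < ε := by
    have h5 := T.nrm2_triangle (L V) (L (uu x)) x
    have h7 : T.nrm2 (L (uu x) - x) < ε / 2 := hL
    linarith
  refine ⟨(1/2 : ℂ) • (L V + star (L V)), ?_, ?_, ?_⟩
  · exact SMulMemClass.smul_mem _ (add_mem hmem (star_mem hmem))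
  · rw [isSelfAdjoint_iff, star_smul, star_add, star_star, add_comm]
    congr 1
    simp
  · have e : (1/2 : ℂ) • (L V + star (L V)) - x =
        (1/2 : ℂ) • ((L V - x) + star (L V - x)) := by
      rw [star_sub, h.1.star_eq]
      have : x = (1/2 : ℂ) • (x + x) := by
        rw [← two_smul ℂ x, smul_smul]; norm_num
      nth_rewrite 1 [this]
      rw [← smul_sub]
      congr 1
      abel
    rw [e, T.nrm2_smul]
    have h8 := T.nrm2_add_le (L V - x) (star (L V - x))
    rw [T.nrm2_star] at h8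
    have h9 : ‖(1/2 : ℂ)‖ = 1/2 := by simp
    rw [h9]
    linarith

end Crest.Agent.R134
end

-- ▼ part R134/Core
section

/-!
# R134 : the core (slots)
-/

set_option autoImplicit false

universe u

namespace Crest.Agent.R134

open Crest.Agent.R95 Filter Topology

namespace Core

variable {A : Type u} [CStarAlgebra A] (T : TracialState A)

omit T in
theorem prod_unitary {I : Type} {u : I → A} (hu : ∀ i, u i ∈ unitary A) (ℓ : List I) :
    (ℓ.map u).prod ∈ unitary A := by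
  apply list_prod_mem
  intro x hx
  obtain ⟨i, _, rfl⟩ := List.mem_map.1 hx
  exact hu i

omit T in
/-- the slot identity -/
theorem prod_line {I : Type} {u : I → A} (hu : ∀ i, u i ∈ unitary A) (w : A) (f : I → A) :
    ∀ ℓ : List I, (∀ ℓ1 i ℓ2, ℓ = ℓ1 ++ i :: ℓ2 →
      f i = u i * ((ℓ2.map u).prod * w * star (ℓ2.map u).prod)) →
      (ℓ.map f).prod = (ℓ.map u).prod * w ^ ℓ.length := by
  intro ℓ
  induction ℓ with
  | nil => intro _; simp
  | cons i0 ℓ' ih =>
    intro h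
    have h0 := h [] i0 ℓ' rfl
    have h1 := ih fun ℓ1 i ℓ2 e => h (i0 :: ℓ1) i ℓ2 (by rw [e]; rfl)
    have hP := (Unitary.mem_iff.1 (prod_unitary hu ℓ')).1
    rw [List.map_cons, List.prod_cons, List.map_cons, List.prod_cons, h0, h1, List.length_cons,
      pow_succ']
    calc u i0 * ((ℓ'.map u).prod * w * star (ℓ'.map u).prod) * ((ℓ'.map u).prod * w ^ ℓ'.length)
        = u i0 * ((ℓ'.map u).prod * w * (star (ℓ'.map u).prod * (ℓ'.map u).prod) *
            w ^ ℓ'.length) := by noncomm_ring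
      _ = u i0 * (ℓ'.map u).prod * (w * w ^ ℓ'.length) := by rw [hP]; noncomm_ring

theorem fix_of_mem_W (hT : ∀ a : A, T.nrm2 a = 0 → a = 0) {α : A ≃⋆ₐ[ℂ] A} (h : Pres T α)
    {S : Set A} (hS : ∀ s ∈ S, α s = s) {x : A} (hx : x ∈ W T S) : α x = x :=
  Pres.eq_on_W hT h (Pres.refl T) hS hx

omit T in
theorem map_prod {I : Type} (α : A ≃⋆ₐ[ℂ] A) (u : I → A) (ℓ : List I) :
    α (ℓ.map u).prod = (ℓ.map fun i => α (u i)).prod := by
  induction ℓ with
  | nil => simp
  | cons i ℓ ih => simp [ih]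

omit T in
theorem map_prod_eq {I : Type} (α : A ≃⋆ₐ[ℂ] A) (u : I → A) (ℓ : List I)
    (h : ∀ i ∈ ℓ, α (u i) = u i) : α (ℓ.map u).prod = (ℓ.map u).prod := by
  rw [map_prod]
  congr 1
  exact List.map_congr_left h

/-- the automorphism of a line -/
theorem line (hT : ∀ a : A, T.nrm2 a = 0 → a = 0) {I : Type} [DecidableEq I] {N : ℕ}
    (B Fix : Set A) (u : I → A) (c : Fin N → A) (hu : ∀ i, u i ∈ unitary A)
    (hEu : ∀ i, ∀ V ∈ unitary A, V ∈ W T (B ∪ {z | ∃ j, j ≠ i ∧ z = u j} ∪ Set.range c) →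
      ∃ α : A ≃⋆ₐ[ℂ] A, Pres T α ∧ Fixes α Fix ∧ (∀ j, j ≠ i → α (u j) = u j) ∧
        (∀ k, α (c k) = c k) ∧ α (u i) = u i * V)
    (w : A) (hw : w ∈ unitary A) (hwW : w ∈ W T (Set.range c)) :
    ∀ ℓ : List I, ℓ.Nodup →
    ∃ δ : A ≃⋆ₐ[ℂ] A, Pres T δ ∧ Fixes δ Fix ∧ (∀ k, δ (c k) = c k) ∧
      (∀ j, j ∉ ℓ → δ (u j) = u j) ∧
      ∀ ℓ1 i ℓ2, ℓ = ℓ1 ++ i :: ℓ2 →
        δ (u i) = u i * ((ℓ2.map u).prod * w * star (ℓ2.map u).prod) := by
  intro ℓ
  induction ℓ with
  | nil =>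
    intro _
    refine ⟨StarAlgEquiv.refl ℂ A, Pres.refl T, fun _ _ => rfl, fun _ => rfl, fun _ _ => rfl, ?_⟩
    intro ℓ1 i ℓ2 h
    simp at h
  | cons i0 ℓ' ih =>
    intro hnd
    obtain ⟨hi0, hnd'⟩ := List.nodup_cons.1 hnd
    obtain ⟨δ, hδ, hδF, hδc, hδu, hδl⟩ := ih hnd'
    have hPu : (ℓ'.map u).prod ∈ unitary A := prod_unitary hu ℓ'
    have hPW : (ℓ'.map u).prod ∈ W T (B ∪ {z | ∃ j, j ≠ i0 ∧ z = u j} ∪ Set.range c) := by
      apply list_prod_mem
      intro x hx
      obtain ⟨i, hi, rfl⟩ := List.mem_map.1 hx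
      exact subset_W T _ (Or.inl (Or.inr ⟨i, fun e => hi0 (e ▸ hi), rfl⟩))
    have hwW' : w ∈ W T (B ∪ {z | ∃ j, j ≠ i0 ∧ z = u j} ∪ Set.range c) :=
      W_mono T Set.subset_union_right hwW
    obtain ⟨e, he, heF, heu, hec, hei⟩ := hEu i0 ((ℓ'.map u).prod * w * star (ℓ'.map u).prod)
      (mul_mem (mul_mem hPu hw) (Unitary.star_mem hPu)) (mul_mem (mul_mem hPW hwW') (star_mem hPW))
    have hew : e w = w := fix_of_mem_W T hT he (S := Set.range c)
      (by rintro _ ⟨k, rfl⟩; exact hec k) hwW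
    refine ⟨δ.trans e, hδ.trans he, ?_, ?_, ?_, ?_⟩
    · intro a ha
      rw [StarAlgEquiv.trans_apply, hδF a ha, heF a ha]
    · intro k
      rw [StarAlgEquiv.trans_apply, hδc, hec]
    · intro j hj
      rw [List.mem_cons, not_or] at hj
      rw [StarAlgEquiv.trans_apply, hδu j hj.2, heu j hj.1]
    · intro ℓ1 i ℓ2 h
      rw [StarAlgEquiv.trans_apply]
      cases ℓ1 with
      | nil =>
        simp only [List.nil_append, List.cons.injEq] at h
        obtain ⟨rfl, rfl⟩ := h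
        rw [hδu _ hi0, hei]
      | cons j ℓ1 =>
        simp only [List.cons_append, List.cons.injEq] at h
        obtain ⟨rfl, rfl⟩ := h
        have hne : ∀ j ∈ i :: ℓ2, j ≠ i0 := by
          intro j hj e
          exact hi0 (e ▸ List.mem_append_right _ hj)
        rw [hδl ℓ1 i ℓ2 rfl, map_mul, map_mul, map_mul, map_star, hew,
          map_prod_eq e u ℓ2 fun j hj => heu j (hne j (List.mem_cons_of_mem _ hj)),
          heu i (hne i List.mem_cons_self)]

/-- the automorphism of a slot -/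
theorem slot (hT : ∀ a : A, T.nrm2 a = 0 → a = 0) {I : Type} [DecidableEq I] {N : ℕ}
    (B Fix : Set A) (u : I → A) (c : Fin N → A) (hu : ∀ i, u i ∈ unitary A)
    (hEu : ∀ i, ∀ V ∈ unitary A, V ∈ W T (B ∪ {z | ∃ j, j ≠ i ∧ z = u j} ∪ Set.range c) →
      ∃ α : A ≃⋆ₐ[ℂ] A, Pres T α ∧ Fixes α Fix ∧ (∀ j, j ≠ i → α (u j) = u j) ∧
        (∀ k, α (c k) = c k) ∧ α (u i) = u i * V)
    (hEc : ∀ k, ∀ V ∈ unitary A, V ∈ W T (B ∪ Set.range u ∪ {z | ∃ l, l ≠ k ∧ z = c l}) →
      ∃ α : A ≃⋆ₐ[ℂ] A, Pres T α ∧ Fixes α Fix ∧ (∀ i, α (u i) = u i) ∧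
        (∀ l, l ≠ k → α (c l) = c l) ∧ α (c k) = V * c k)
    (k : Fin N) (w : A) (hw : w ∈ unitary A) (hwW : w ∈ W T {c k}) (ℓ : List I) (hℓ : ℓ.Nodup)
    (hwd : w ^ ℓ.length = c k) :
    ∃ (β γ : A ≃⋆ₐ[ℂ] A), Pres T β ∧ Fixes β Fix ∧ (∀ l, l ≠ k → β (c l) = c l) ∧
      (∀ j, j ∉ ℓ → β (u j) = u j) ∧
      (∀ ℓ1 i ℓ2, ℓ = ℓ1 ++ i :: ℓ2 →
        β (u i) = u i * ((ℓ2.map u).prod * γ w * star (ℓ2.map u).prod)) ∧
      β (ℓ.map u).prod = c k ∧ Pres T γ ∧ γ (c k) = star (ℓ.map u).prod * c k := by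
  obtain ⟨δ, hδ, hδF, hδc, hδu, hδl⟩ := line T hT B Fix u c hu hEu w hw
    (W_mono T (by rintro _ rfl; exact ⟨k, rfl⟩) hwW) ℓ hℓ
  have hVu : (ℓ.map u).prod ∈ unitary A := prod_unitary hu ℓ
  have hVW : (ℓ.map u).prod ∈ W T (B ∪ Set.range u ∪ {z | ∃ l, l ≠ k ∧ z = c l}) := by
    apply list_prod_mem
    intro x hx
    obtain ⟨i, hi, rfl⟩ := List.mem_map.1 hx
    exact subset_W T _ (Or.inl (Or.inr ⟨i, rfl⟩))
  obtain ⟨γ, hγ, hγF, hγu, hγc, hγk⟩ := hEc k (star (ℓ.map u).prod) (Unitary.star_mem hVu) (star_mem hVW)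
  have hβl : ∀ ℓ1 i ℓ2, ℓ = ℓ1 ++ i :: ℓ2 →
        (δ.trans γ) (u i) = u i * ((ℓ2.map u).prod * γ w * star (ℓ2.map u).prod) := by
    intro ℓ1 i ℓ2 h
    rw [StarAlgEquiv.trans_apply, hδl ℓ1 i ℓ2 h, map_mul, map_mul, map_mul, map_star,
      map_prod_eq γ u ℓ2 fun j _ => hγu j, hγu]
  refine ⟨δ.trans γ, γ, hδ.trans hγ, ?_, ?_, ?_, hβl, ?_, hγ, hγk⟩
  · intro a ha
    rw [StarAlgEquiv.trans_apply, hδF a ha, hγF a ha]
  · intro l hl
    rw [StarAlgEquiv.trans_apply, hδc, hγc l hl]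
  · intro j hj
    rw [StarAlgEquiv.trans_apply, hδu j hj, hγu]
  · rw [map_prod, prod_line hu (γ w) _ ℓ hβl, ← map_pow, hwd, hγk, ← mul_assoc,
      (Unitary.mem_iff.1 hVu).2, one_mul]

/-- trace against a processed root -/
theorem tau_mul_root (hT : ∀ a : A, T.nrm2 a = 0 → a = 0) {I : Type} {N : ℕ}
    (B Fix : Set A) (u : I → A) (c : Fin N → A) (hB : B ⊆ Fix)
    (hEc : ∀ k, ∀ V ∈ unitary A, V ∈ W T (B ∪ Set.range u ∪ {z | ∃ l, l ≠ k ∧ z = c l}) →
      ∃ α : A ≃⋆ₐ[ℂ] A, Pres T α ∧ Fixes α Fix ∧ (∀ i, α (u i) = u i) ∧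
        (∀ l, l ≠ k → α (c l) = c l) ∧ α (c k) = V * c k)
    (k : Fin N) (w : A) (hwW : w ∈ W T {c k}) (κ : ℂ)
    (hind : ∀ a ∈ W T (B ∪ Set.range u ∪ {z | ∃ l, l ≠ k ∧ z = c l}),
      T.τ (a * w) = κ * T.τ a)
    (α γ : A ≃⋆ₐ[ℂ] A) (hα : Pres T α) (hγ : Pres T γ) (hαc : α (c k) = c k) (V : A)
    (hV : V ∈ unitary A) (hVW : α V ∈ W T (B ∪ Set.range u ∪ {z | ∃ l, l ≠ k ∧ z = c l}))
    (hγk : γ (c k) = star V * c k)
    (a : A) (ha : a ∈ W T (B ∪ Set.range u ∪ {z | ∃ l, l ≠ k ∧ z = c l})) :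
    T.τ (a * α (γ w)) = κ * T.τ a := by
  have hαV : α V ∈ unitary A := by
    rw [Unitary.mem_iff, ← map_star, ← map_mul, ← map_mul, (Unitary.mem_iff.1 hV).1,
      (Unitary.mem_iff.1 hV).2, map_one]
    exact ⟨rfl, rfl⟩
  obtain ⟨γ', hγ', hγF', hγu', hγc', hγk'⟩ :=
    hEc k (star (α V)) (Unitary.star_mem hαV) (star_mem hVW)
  have h1 : (γ.trans α) w = γ' w := by
    refine Pres.eq_on_W hT (hγ.trans hα) hγ' (S := {c k}) ?_ hwW
    rintro _ rfl
    rw [StarAlgEquiv.trans_apply, hγk, map_mul, map_star, hαc, hγk']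
  have h2 : γ' a = a := by
    refine fix_of_mem_W T hT hγ' ?_ ha
    rintro s ((hs | ⟨i, rfl⟩) | ⟨l, hl, rfl⟩)
    · exact hγF' s (hB hs)
    · exact hγu' i
    · exact hγc' l hl
  rw [StarAlgEquiv.trans_apply] at h1
  have h3 : γ' (a * w) = a * γ' w := by rw [map_mul, h2]
  calc T.τ (a * α (γ w)) = T.τ (γ' (a * w)) := by rw [h1, h3]
    _ = κ * T.τ a := by rw [hγ', hind a ha]

/-- all the slots -/
theorem slots (hT : ∀ a : A, T.nrm2 a = 0 → a = 0) {I : Type} [DecidableEq I] {N : ℕ}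
    (B Fix : Set A) (u : I → A) (c w : Fin N → A) (κ : Fin N → ℝ) (ℓ : Fin N → List I)
    (hB : B ⊆ Fix)
    (hu : ∀ i, u i ∈ unitary A) (hc : ∀ k, c k ∈ unitary A) (hw : ∀ k, w k ∈ unitary A)
    (hwd : ∀ k, w k ^ (ℓ k).length = c k) (hwW : ∀ k, w k ∈ W T {c k})
    (hind : ∀ k, ∀ a ∈ W T (B ∪ Set.range u ∪ {z | ∃ l, l ≠ k ∧ z = c l}),
      T.τ (a * w k) = κ k * T.τ a)
    (hEu : ∀ i, ∀ V ∈ unitary A, V ∈ W T (B ∪ {z | ∃ j, j ≠ i ∧ z = u j} ∪ Set.range c) →
      ∃ α : A ≃⋆ₐ[ℂ] A, Pres T α ∧ Fixes α Fix ∧ (∀ j, j ≠ i → α (u j) = u j) ∧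
        (∀ k, α (c k) = c k) ∧ α (u i) = u i * V)
    (hEc : ∀ k, ∀ V ∈ unitary A, V ∈ W T (B ∪ Set.range u ∪ {z | ∃ l, l ≠ k ∧ z = c l}) →
      ∃ α : A ≃⋆ₐ[ℂ] A, Pres T α ∧ Fixes α Fix ∧ (∀ i, α (u i) = u i) ∧
        (∀ l, l ≠ k → α (c l) = c l) ∧ α (c k) = V * c k)
    (hℓ : ∀ k, (ℓ k).Nodup)
    (hℓ2 : ∀ k k', k ≠ k' → ∀ i j, i ∈ ℓ k → i ∈ ℓ k' → j ∈ ℓ k → j ∈ ℓ k' → i = j) :
    ∀ s : ℕ, s ≤ N →
    ∃ α : A ≃⋆ₐ[ℂ] A, Pres T α ∧ Fixes α Fix ∧ (∀ k : Fin N, s ≤ k.val → α (c k) = c k) ∧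
      (∀ i, α (u i) ∈ W T (B ∪ Set.range u ∪ {z | ∃ l : Fin N, l.val < s ∧ z = c l})) ∧
      (∀ k : Fin N, k.val < s → T.τ (star (c k) * α ((ℓ k).map u).prod) =
        ∏ k' with (k < k' ∧ k'.val < s ∧ ∃ i, i ∈ ℓ k ∧ i ∈ ℓ k'), (κ k' : ℂ)) ∧
      (∀ i, T.τ (star (u i) * α (u i)) = ∏ k with (k.val < s ∧ i ∈ ℓ k), (κ k : ℂ)) := by
  intro s
  induction s with
  | zero =>
    intro _
    refine ⟨StarAlgEquiv.refl ℂ A, Pres.refl T, fun _ _ => rfl, fun _ _ => rfl, ?_, ?_, ?_⟩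
    · intro i
      exact subset_W T _ (Or.inl (Or.inr ⟨i, rfl⟩))
    · intro k hk
      exact absurd hk (Nat.not_lt_zero _)
    · intro i
      have h1 : star (u i) * (StarAlgEquiv.refl ℂ A) (u i) = 1 := (Unitary.mem_iff.1 (hu i)).1
      rw [h1, T.one]
      simp
  | succ s ih =>
    intro hs
    obtain ⟨α, hα, hαF, hαc, hαu, hαD, hαU⟩ := ih (Nat.le_of_succ_le hs)
    have hs' : s < N := hs
    set k0 : Fin N := ⟨s, hs'⟩ with hk0
    obtain ⟨β, γ, hβ, hβF, hβc, hβu, hβl, hβV, hγ, hγk⟩ :=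
      slot T hT B Fix u c hu hEu hEc k0 (w k0) (hw k0) (hwW k0) (ℓ k0) (hℓ k0) (hwd k0)
    -- the algebra of the past
    have hpast : W T (B ∪ Set.range u ∪ {z | ∃ l : Fin N, l.val < s ∧ z = c l}) ≤
        W T (B ∪ Set.range u ∪ {z | ∃ l, l ≠ k0 ∧ z = c l}) := by
      apply W_mono T
      rintro z (hz | ⟨l, hl, rfl⟩)
      · exact Or.inl hz
      · exact Or.inr ⟨l, fun e => by rw [e, hk0] at hl; exact lt_irrefl _ hl, rfl⟩
    have hnext : W T (B ∪ Set.range u ∪ {z | ∃ l : Fin N, l.val < s ∧ z = c l}) ≤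
        W T (B ∪ Set.range u ∪ {z | ∃ l : Fin N, l.val < s + 1 ∧ z = c l}) := by
      apply W_mono T
      rintro z (hz | ⟨l, hl, rfl⟩)
      · exact Or.inl hz
      · exact Or.inr ⟨l, Nat.lt_succ_of_lt hl, rfl⟩
    have hαP : ∀ l : List I, α (l.map u).prod ∈
        W T (B ∪ Set.range u ∪ {z | ∃ l : Fin N, l.val < s ∧ z = c l}) := by
      intro l
      rw [map_prod]
      apply list_prod_mem
      intro x hx
      obtain ⟨i, _, rfl⟩ := List.mem_map.1 hx
      exact hαu i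
    have hαPu : ∀ l : List I, star (α (l.map u).prod) * α (l.map u).prod = 1 ∧
        α (l.map u).prod * star (α (l.map u).prod) = 1 := by
      intro l
      rw [← map_star, ← map_mul, ← map_mul, (Unitary.mem_iff.1 (prod_unitary hu l)).1,
        (Unitary.mem_iff.1 (prod_unitary hu l)).2, map_one]
      exact ⟨rfl, rfl⟩
    have hroot : ∀ a ∈ W T (B ∪ Set.range u ∪ {z | ∃ l, l ≠ k0 ∧ z = c l}),
        T.τ (a * α (γ (w k0))) = κ k0 * T.τ a :=
      tau_mul_root T hT B Fix u c hB hEc k0 (w k0) (hwW k0) (κ k0) (hind k0) α γ hα hγ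
        (hαc k0 le_rfl) _ (prod_unitary hu (ℓ k0)) (hpast (hαP _)) hγk
    have hwnext : α (γ (w k0)) ∈
        W T (B ∪ Set.range u ∪ {z | ∃ l : Fin N, l.val < s + 1 ∧ z = c l}) := by
      have := Pres.map_mem_W (hγ.trans hα) (S := {c k0})
        (S' := B ∪ Set.range u ∪ {z | ∃ l : Fin N, l.val < s + 1 ∧ z = c l}) ?_ (hwW k0)
      · rwa [StarAlgEquiv.trans_apply] at this
      · rintro _ rfl
        rw [StarAlgEquiv.trans_apply, hγk, map_mul, map_star, hαc k0 le_rfl]
        exact mul_mem (star_mem (hnext (hαP _)))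
          (subset_W T _ (Or.inr ⟨k0, Nat.lt_succ_self s, rfl⟩))
    refine ⟨β.trans α, hβ.trans hα, ?_, ?_, ?_, ?_, ?_⟩
    · intro a ha
      rw [StarAlgEquiv.trans_apply, hβF a ha, hαF a ha]
    · intro k hk
      rw [StarAlgEquiv.trans_apply, hβc k (fun e => by rw [e, hk0] at hk; simp at hk),
        hαc k (Nat.le_of_succ_le hk)]
    · intro i
      rw [StarAlgEquiv.trans_apply]
      by_cases hi : i ∈ ℓ k0
      · obtain ⟨ℓ1, ℓ2, h⟩ := List.append_of_mem hi
        rw [hβl ℓ1 i ℓ2 h, map_mul, map_mul, map_mul, map_star]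
        exact mul_mem (hnext (hαu i)) (mul_mem (mul_mem (hnext (hαP _)) hwnext)
          (star_mem (hnext (hαP _))))
      · rw [hβu i hi]
        exact hnext (hαu i)
    · intro k hk
      rw [StarAlgEquiv.trans_apply]
      rcases Nat.lt_succ_iff_lt_or_eq.1 hk with hk | hk
      · have hkk0 : k < k0 := hk
        have hck : star (c k) ∈ W T (B ∪ Set.range u ∪ {z | ∃ l, l ≠ k0 ∧ z = c l}) :=
          star_mem (subset_W T _ (Or.inr ⟨k, ne_of_lt hkk0, rfl⟩))
        by_cases hmeet : ∃ i, i ∈ ℓ k ∧ i ∈ ℓ k0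
        · obtain ⟨i, hik, hik0⟩ := hmeet
          obtain ⟨ℓ1, ℓ2, h⟩ := List.append_of_mem hik0
          obtain ⟨P1, P2, hP⟩ := List.append_of_mem hik
          have hnd := hℓ k
          rw [hP] at hnd
          have hdisj : ∀ j, j ∈ P1 ∨ j ∈ P2 → j ∉ ℓ k0 := by
            intro j hj hj0
            have hjk : j ∈ ℓ k := by
              rw [hP, List.mem_append, List.mem_cons]
              tauto
            have e := hℓ2 k k0 (ne_of_lt hkk0) i j hik hik0 hjk hj0
            subst e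
            rw [List.nodup_append] at hnd
            rcases hj with hj | hj
            · exact hnd.2.2 i hj i List.mem_cons_self rfl
            · exact (List.nodup_cons.1 hnd.2.1).1 hj
          have hprod : ((ℓ k).map u).prod = (P1.map u).prod * (u i * (P2.map u).prod) := by
            rw [hP, List.map_append, List.prod_append, List.map_cons, List.prod_cons]
          have h1 : α (β ((ℓ k).map u).prod) = α (P1.map u).prod * (α (u i) *
              (α (ℓ2.map u).prod * α (γ (w k0)) * star (α (ℓ2.map u).prod)) *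
                α (P2.map u).prod) := by
            rw [hprod, map_mul β, map_mul β, hβl ℓ1 i ℓ2 h,
              map_prod_eq β u P1 fun j hj => hβu j (hdisj j (Or.inl hj)),
              map_prod_eq β u P2 fun j hj => hβu j (hdisj j (Or.inr hj)),
              map_mul, map_mul, map_mul, map_mul, map_mul, map_star]
          have h2 : T.τ (star (c k) * α (β ((ℓ k).map u).prod)) =
              T.τ ((star (α (ℓ2.map u).prod) * α (P2.map u).prod * star (c k) *
                α (P1.map u).prod * α (u i) * α (ℓ2.map u).prod) * α (γ (w k0))) := by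
            rw [h1]
            have e1 : star (c k) * (α (P1.map u).prod * (α (u i) *
              (α (ℓ2.map u).prod * α (γ (w k0)) * star (α (ℓ2.map u).prod)) *
                α (P2.map u).prod)) = (star (c k) *
                α (P1.map u).prod * α (u i) * α (ℓ2.map u).prod * α (γ (w k0))) *
                (star (α (ℓ2.map u).prod) * α (P2.map u).prod) := by noncomm_ring
            rw [e1, T.tr]
            congr 1
            noncomm_ring
          rw [h2, hroot]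
          · have h3 : T.τ (star (α (ℓ2.map u).prod) * α (P2.map u).prod * star (c k) *
                α (P1.map u).prod * α (u i) * α (ℓ2.map u).prod) =
                T.τ (star (c k) * α ((ℓ k).map u).prod) := by
              rw [T.tr, hprod, map_mul α, map_mul α]
              have e2 : α (ℓ2.map u).prod * (star (α (ℓ2.map u).prod) * α (P2.map u).prod *
                  star (c k) * α (P1.map u).prod * α (u i)) =
                  (α (ℓ2.map u).prod * star (α (ℓ2.map u).prod)) * (α (P2.map u).prod *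
                  (star (c k) * α (P1.map u).prod * α (u i))) := by noncomm_ring
              rw [e2, (hαPu ℓ2).2, one_mul, T.tr]
              congr 1
              noncomm_ring
            rw [h3, hαD k hk]
            have hset : (Finset.univ.filter fun k' : Fin N =>
                k < k' ∧ k'.val < s + 1 ∧ ∃ i, i ∈ ℓ k ∧ i ∈ ℓ k') =
                insert k0 (Finset.univ.filter fun k' : Fin N =>
                  k < k' ∧ k'.val < s ∧ ∃ i, i ∈ ℓ k ∧ i ∈ ℓ k') := by
              ext k'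
              simp only [Finset.mem_filter, Finset.mem_univ, true_and, Finset.mem_insert]
              constructor
              · rintro ⟨h1, h2, h3⟩
                rcases Nat.lt_succ_iff_lt_or_eq.1 h2 with h4 | h4
                · exact Or.inr ⟨h1, h4, h3⟩
                · exact Or.inl (Fin.ext h4)
              · rintro (rfl | ⟨h1, h2, h3⟩)
                · exact ⟨hkk0, Nat.lt_succ_self s, i, hik, hik0⟩
                · exact ⟨h1, Nat.lt_succ_of_lt h2, h3⟩
            rw [hset, Finset.prod_insert]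
            simp [hk0]
          · exact mul_mem (mul_mem (mul_mem (mul_mem (mul_mem (star_mem (hpast (hαP _)))
              (hpast (hαP _))) hck) (hpast (hαP _))) (hpast (hαu i))) (hpast (hαP _))
        · have h1 : β ((ℓ k).map u).prod = ((ℓ k).map u).prod := by
            apply map_prod_eq
            intro i hi
            exact hβu i fun hi0 => hmeet ⟨i, hi, hi0⟩
          rw [h1, hαD k hk]
          apply Finset.prod_congr _ fun _ _ => rfl
          ext k'
          simp only [Finset.mem_filter, Finset.mem_univ, true_and]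
          constructor
          · rintro ⟨h1, h2, h3⟩
            exact ⟨h1, Nat.lt_succ_of_lt h2, h3⟩
          · rintro ⟨h1, h2, h3⟩
            rcases Nat.lt_succ_iff_lt_or_eq.1 h2 with h4 | h4
            · exact ⟨h1, h4, h3⟩
            · exfalso
              have : k' = k0 := Fin.ext h4
              subst this
              exact hmeet h3
      · have hkk0 : k = k0 := Fin.ext hk
        rw [hkk0, hβV, hαc k0 le_rfl, (Unitary.mem_iff.1 (hc k0)).1, T.one]
        symm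
        apply Finset.prod_eq_one
        intro k' hk'
        exfalso
        simp only [Finset.mem_filter, Finset.mem_univ, true_and] at hk'
        have h1 : s < k'.val := hk'.1
        have h2 := hk'.2.1
        omega
    · intro i
      rw [StarAlgEquiv.trans_apply]
      by_cases hi : i ∈ ℓ k0
      · obtain ⟨ℓ1, ℓ2, h⟩ := List.append_of_mem hi
        rw [hβl ℓ1 i ℓ2 h, map_mul α, map_mul α, map_mul α, map_star]
        have h2 : T.τ (star (u i) * (α (u i) * (α (ℓ2.map u).prod * α (γ (w k0)) *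
            star (α (ℓ2.map u).prod)))) =
            T.τ ((star (α (ℓ2.map u).prod) * star (u i) * α (u i) * α (ℓ2.map u).prod) *
              α (γ (w k0))) := by
          have e1 : star (u i) * (α (u i) * (α (ℓ2.map u).prod * α (γ (w k0)) *
            star (α (ℓ2.map u).prod))) = (star (u i) * α (u i) * α (ℓ2.map u).prod *
              α (γ (w k0))) * star (α (ℓ2.map u).prod) := by noncomm_ring
          rw [e1, T.tr]
          congr 1
          noncomm_ring
        rw [h2, hroot]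
        · have h3 : T.τ (star (α (ℓ2.map u).prod) * star (u i) * α (u i) *
              α (ℓ2.map u).prod) = T.τ (star (u i) * α (u i)) := by
            rw [T.tr]
            have e2 : α (ℓ2.map u).prod * (star (α (ℓ2.map u).prod) * star (u i) * α (u i)) =
                (α (ℓ2.map u).prod * star (α (ℓ2.map u).prod)) * (star (u i) * α (u i)) := by
              noncomm_ring
            rw [e2, (hαPu ℓ2).2, one_mul]
          rw [h3, hαU i]
          have hset : (Finset.univ.filter fun k : Fin N => k.val < s + 1 ∧ i ∈ ℓ k) =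
              insert k0 (Finset.univ.filter fun k : Fin N => k.val < s ∧ i ∈ ℓ k) := by
            ext k'
            simp only [Finset.mem_filter, Finset.mem_univ, true_and, Finset.mem_insert]
            constructor
            · rintro ⟨h1, h2⟩
              rcases Nat.lt_succ_iff_lt_or_eq.1 h1 with h4 | h4
              · exact Or.inr ⟨h4, h2⟩
              · exact Or.inl (Fin.ext h4)
            · rintro (rfl | ⟨h1, h2⟩)
              · exact ⟨Nat.lt_succ_self s, hi⟩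
              · exact ⟨Nat.lt_succ_of_lt h1, h2⟩
          rw [hset, Finset.prod_insert]
          simp [hk0]
        · exact mul_mem (mul_mem (mul_mem (star_mem (hpast (hαP _)))
            (star_mem (subset_W T _ (Or.inl (Or.inr ⟨i, rfl⟩))))) (hpast (hαu i)))
            (hpast (hαP _))
      · rw [hβu i hi, hαU i]
        apply Finset.prod_congr _ fun _ _ => rfl
        ext k'
        simp only [Finset.mem_filter, Finset.mem_univ, true_and]
        constructor
        · rintro ⟨h1, h2⟩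
          exact ⟨Nat.lt_succ_of_lt h1, h2⟩
        · rintro ⟨h1, h2⟩
          rcases Nat.lt_succ_iff_lt_or_eq.1 h1 with h4 | h4
          · exact ⟨h4, h2⟩
          · exfalso
            have : k' = k0 := Fin.ext h4
            subst this
            exact hi h2

end Core

open Crest.Agent.R134.Core in
theorem core {A : Type u} [CStarAlgebra A] (T : TracialState A)
    (hT : ∀ a : A, T.nrm2 a = 0 → a = 0) {I : Type} [Fintype I] [DecidableEq I] {N : ℕ}
    (B Fix : Set A) (u : I → A) (c w : Fin N → A) (d : Fin N → ℕ) (κ : Fin N → ℝ)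
    (L : ∀ k, Fin (d k) → I) (hB : B ⊆ Fix)
    (hu : ∀ i, u i ∈ unitary A) (hc : ∀ k, c k ∈ unitary A) (hw : ∀ k, w k ∈ unitary A)
    (hwd : ∀ k, w k ^ d k = c k) (hwW : ∀ k, w k ∈ W T {c k})
    (hind : ∀ k, ∀ a ∈ W T (B ∪ Set.range u ∪ {z | ∃ l, l ≠ k ∧ z = c l}),
      T.τ (a * w k) = κ k * T.τ a)
    (hEu : ∀ i, ∀ V ∈ unitary A, V ∈ W T (B ∪ {z | ∃ j, j ≠ i ∧ z = u j} ∪ Set.range c) →
      ∃ α : A ≃⋆ₐ[ℂ] A, Pres T α ∧ Fixes α Fix ∧ (∀ j, j ≠ i → α (u j) = u j) ∧
        (∀ k, α (c k) = c k) ∧ α (u i) = u i * V)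
    (hEc : ∀ k, ∀ V ∈ unitary A, V ∈ W T (B ∪ Set.range u ∪ {z | ∃ l, l ≠ k ∧ z = c l}) →
      ∃ α : A ≃⋆ₐ[ℂ] A, Pres T α ∧ Fixes α Fix ∧ (∀ i, α (u i) = u i) ∧
        (∀ l, l ≠ k → α (c l) = c l) ∧ α (c k) = V * c k)
    (hLinj : ∀ k, Function.Injective (L k))
    (hL2 : ∀ k k', k ≠ k' → ∀ l m l' m', L k l = L k' l' → L k m = L k' m' → l = m) :
    ∃ α : A ≃⋆ₐ[ℂ] A, Pres T α ∧ Fixes α Fix ∧
      (∀ k, T.τ (star (c k) * α (List.ofFn fun l => u (L k l)).prod) =
        ∏ k' with (k < k' ∧ ∃ l l', L k l = L k' l'), (κ k' : ℂ)) ∧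
      (∀ i, T.τ (star (u i) * α (u i)) = ∏ k with (∃ l, L k l = i), (κ k : ℂ)) := by
  obtain ⟨α, hα, hαF, -, -, hD, hU⟩ := slots T hT B Fix u c w κ (fun k => List.ofFn (L k)) hB hu hc
    hw (fun k => by rw [List.length_ofFn, hwd]) hwW hind hEu hEc
    (fun k => List.nodup_ofFn.2 (hLinj k))
    (by
      intro k k' hkk' i j hi hi' hj hj'
      simp only [List.mem_ofFn', Set.mem_range] at hi hi' hj hj'
      obtain ⟨l, rfl⟩ := hi
      obtain ⟨l', h1⟩ := hi'
      obtain ⟨m, rfl⟩ := hj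
      obtain ⟨m', h2⟩ := hj'
      rw [hL2 k k' hkk' l m l' m' h1.symm h2.symm]) N le_rfl
  refine ⟨α, hα, hαF, ?_, ?_⟩
  · intro k
    have h := hD k k.2
    rw [List.map_ofFn] at h
    have e : (u ∘ L k) = fun l => u (L k l) := rfl
    rw [e] at h
    rw [h]
    apply Finset.prod_congr _ fun _ _ => rfl
    ext k'
    simp only [Finset.mem_filter, Finset.mem_univ, true_and, List.mem_ofFn', Set.mem_range]
    constructor
    · rintro ⟨h1, -, i, ⟨l, rfl⟩, l', h2⟩
      exact ⟨h1, l, l', h2.symm⟩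
    · rintro ⟨h1, l, l', h2⟩
      exact ⟨h1, k'.2, _, ⟨l, rfl⟩, l', h2.symm⟩
  · intro i
    rw [hU i]
    apply Finset.prod_congr _ fun _ _ => rfl
    ext k'
    simp only [Finset.mem_filter, Finset.mem_univ, true_and, List.mem_ofFn', Set.mem_range]
    constructor
    · rintro ⟨-, h⟩
      exact h
    · intro h
      exact ⟨k'.2, h⟩

end Crest.Agent.R134
end

-- ▼ part R134/Absorb
section

/-!
# R134 : the absorption step
-/

set_option autoImplicit false

universe u

namespace Crest.Agent.R134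

open Crest.Agent.R95 Filter Topology

variable {A : Type u} [CStarAlgebra A] {T : TracialState A}

namespace Ab

/-! ## Small lemmas -/

theorem nrm2_sub_sq_unitary {a b : A} (ha : a ∈ unitary A) (hb : b ∈ unitary A) :
    T.nrm2 (b - a) ^ 2 = 2 - 2 * (T.τ (star a * b)).re := by
  have h1 : T.nrm2 a = 1 := by
    have := T.nrm2_unitary_mul (Unitary.mem_iff.1 ha).1 1
    rwa [mul_one, T.nrm2_one] at this
  have h2 : T.nrm2 b = 1 := by
    have := T.nrm2_unitary_mul (Unitary.mem_iff.1 hb).1 1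
    rwa [mul_one, T.nrm2_one] at this
  have h3 := T.nrm2_add_sq b (-a)
  rw [← sub_eq_add_neg, T.nrm2_neg, h1, h2, mul_neg, map_neg, Complex.neg_re,
    T.star_mul_comm_re a b] at h3
  linarith

/-- Bernoulli type inequality for products. -/
theorem one_sub_sum_le_prod {ι : Type*} (s : Finset ι) (κ : ι → ℝ) (h0 : ∀ i, 0 ≤ κ i)
    (h1 : ∀ i, κ i ≤ 1) : 1 - ∑ i ∈ s, (1 - κ i) ≤ ∏ i ∈ s, κ i := by
  classical
  induction s using Finset.induction_on with
  | empty => simp
  | insert i s hi ih =>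
    rw [Finset.sum_insert hi, Finset.prod_insert hi]
    have hp : ∏ i ∈ s, κ i ≤ 1 := Finset.prod_le_one (fun i _ => h0 i) (fun i _ => h1 i)
    have hp0 : 0 ≤ ∏ i ∈ s, κ i := Finset.prod_nonneg (fun i _ => h0 i)
    nlinarith [h0 i, h1 i]

theorem mem_W_commutes (hT : ∀ a : A, T.nrm2 a = 0 → a = 0) {S : Set A} {r : A}
    (hr : ∀ s ∈ S, r * s = s * r) (hr' : ∀ s ∈ S, star r * s = s * star r) {x : A}
    (hx : x ∈ W T S) : r * x = x * r := by
  have key : ∀ a ∈ StarAlgebra.adjoin ℂ S, r * a = a * r := by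
    intro a ha
    have hle : StarAlgebra.adjoin ℂ S ≤ StarSubalgebra.centralizer ℂ ({r} : Set A) := by
      apply StarAlgebra.adjoin_le
      intro s hs
      change s ∈ StarSubalgebra.centralizer ℂ ({r} : Set A)
      rw [StarSubalgebra.mem_centralizer_iff]
      intro g hg
      rw [Set.mem_singleton_iff] at hg
      subst hg
      exact ⟨hr s hs, hr' s hs⟩
    have := hle ha
    rw [StarSubalgebra.mem_centralizer_iff] at this
    exact (this r rfl).1
  rw [← sub_eq_zero]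
  apply hT
  by_contra hne
  have hpos : 0 < T.nrm2 (r * x - x * r) := lt_of_le_of_ne (T.nrm2_nonneg _) (Ne.symm hne)
  obtain ⟨a, ha, hxa⟩ := hx (T.nrm2 (r * x - x * r) / (2 * (‖r‖ + 1))) (by positivity)
  have e : r * x - x * r = r * (x - a) - (x - a) * r := by
    rw [mul_sub, sub_mul, key a ha]; abel
  have h1 : T.nrm2 (r * (x - a)) ≤ ‖r‖ * T.nrm2 (x - a) := T.nrm2_mul_le_left _ _
  have h2 : T.nrm2 ((x - a) * r) ≤ T.nrm2 (x - a) * ‖r‖ := T.nrm2_mul_le_right _ _
  have h3 := T.nrm2_sub_le (r * (x - a)) ((x - a) * r)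
  rw [← e] at h3
  have h4 : T.nrm2 (r * x - x * r) ≤ 2 * ‖r‖ * T.nrm2 (x - a) := by linarith
  have h5 : 2 * ‖r‖ * T.nrm2 (x - a) ≤
      2 * ‖r‖ * (T.nrm2 (r * x - x * r) / (2 * (‖r‖ + 1))) := by gcongr
  have h6 : 2 * ‖r‖ * (T.nrm2 (r * x - x * r) / (2 * (‖r‖ + 1))) < T.nrm2 (r * x - x * r) := by
    rw [mul_div_assoc', div_lt_iff₀ (by positivity)]
    nlinarith [norm_nonneg r]
  linarith

/-! ## The tensor position algebra generated by `R` and the Pauli system -/

section Pauli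

variable {ι : Type} [Fintype ι] [DecidableEq ι] (F : PauliSys A ι)

theorem E_f (i : ι) : F.E (F.f i) = if i = F.o then 1 else 0 := by
  have := F.E_ff i F.o
  rwa [F.f_o, mul_one] at this

/-- the algebra of the elements whose coordinates are in `R` -/
def Rp (R : StarSubalgebra ℂ A) : StarSubalgebra ℂ A where
  carrier := {r | ∀ i, F.E (F.f i * r) ∈ R}
  mul_mem' := by
    intro a b ha hb i
    have e : F.E (F.f i * (a * b)) = ∑ k, F.E (F.f k * (F.f i * a)) * F.E (F.f k * b) := by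
      conv_lhs => rw [F.decomp b, Finset.mul_sum, Finset.mul_sum, F.E_sum]
      refine Finset.sum_congr rfl fun k _ => ?_
      rw [show F.f i * (a * (F.f k * F.E (F.f k * b))) = F.f i * a * F.f k * F.E (F.f k * b) by
        noncomm_ring, F.E_mul_right (F.E_inQ _), F.E_f_comm k (F.f i * a)]
    rw [e]
    refine sum_mem fun k _ => mul_mem ?_ (hb k)
    obtain ⟨σ, hσ⟩ := F.perm k
    obtain ⟨z, _, hz⟩ := hσ i
    rw [← mul_assoc, hz, smul_mul_assoc, F.E_smul]
    exact R.smul_mem (ha _) _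
  add_mem' := by
    intro a b ha hb i
    rw [mul_add, F.E_add]
    exact add_mem (ha i) (hb i)
  algebraMap_mem' := by
    intro c i
    rw [Algebra.algebraMap_eq_smul_one, mul_smul_comm, mul_one, F.E_smul, E_f]
    refine R.smul_mem ?_ _
    split_ifs
    · exact one_mem R
    · exact zero_mem R
  star_mem' := by
    intro a ha i
    rw [← F.star_E_f]
    exact star_mem (ha i)


theorem le_Rp {R : StarSubalgebra ℂ A} (hR : ∀ r ∈ R, F.InQ r) : R ≤ Rp F R := by
  intro r hr i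
  rw [F.E_mul_right (hR r hr), E_f]
  refine mul_mem ?_ hr
  split_ifs
  · exact one_mem R
  · exact zero_mem R

theorem f_mem_Rp (R : StarSubalgebra ℂ A) (j : ι) : F.f j ∈ Rp F R := by
  intro i
  rw [F.E_ff]
  split_ifs
  · exact one_mem R
  · exact zero_mem R

theorem tensorPos_Rp {R : StarSubalgebra ℂ A} (hR : ∀ r ∈ R, F.InQ r)
    (h : TensorPos T (R : Set A)) : TensorPos T (Rp F R : Set A) := by
  intro r hr q hq
  have hqQ : F.InQ q := fun i => hq _ (f_mem_Rp F R i)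
  have hEr : F.E r ∈ R := by
    have := hr F.o
    rwa [F.f_o, one_mul] at this
  rw [F.tau_E_right T hqQ, h _ hEr q fun r' hr' => hq r' (le_Rp F hR hr'), F.tau_E']

/-- an element commutes with `Rp` if it commutes with `R` and with the Pauli system. -/
theorem comm_Rp {R : StarSubalgebra ℂ A} {q : A} (hq : F.InQ q)
    (hqR : ∀ r ∈ R, r * q = q * r) {r : A} (hr : r ∈ Rp F R) : r * q = q * r := by
  rw [F.decomp r, Finset.sum_mul, Finset.mul_sum]
  refine Finset.sum_congr rfl fun i _ => ?_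
  rw [mul_assoc, hqR _ (hr i), ← mul_assoc, hq i, mul_assoc]

theorem comm_E {r : A} (hr : F.InQ r) {b : A} (hb : r * b = b * r) (i : ι) :
    r * F.E (F.f i * b) = F.E (F.f i * b) * r := by
  rw [← F.E_mul_left hr, ← F.E_mul_right hr, ← mul_assoc, ← hr i, mul_assoc, hb, mul_assoc]

theorem comm_coo {r : A} (hr : F.InQ r) {b : A} (hb : r * b = b * r) (i : ι) :
    r * coo F b i = coo F b i * r := by
  unfold coo
  rw [mul_smul_comm, smul_mul_assoc, comm_E F hr hb]

/-- commuting with `Q` implies commuting with the generated algebra -/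
theorem comm_adjoin {R : StarSubalgebra ℂ A} {Q : Set A} (h : ∀ r ∈ R, ∀ q ∈ Q, r * q = q * r)
    {r : A} (hr : r ∈ R) {q : A} (hq : q ∈ StarAlgebra.adjoin ℂ Q) : r * q = q * r := by
  have hle : StarAlgebra.adjoin ℂ Q ≤ StarSubalgebra.centralizer ℂ ({r} : Set A) := by
    apply StarAlgebra.adjoin_le
    intro s hs
    change s ∈ StarSubalgebra.centralizer ℂ ({r} : Set A)
    rw [StarSubalgebra.mem_centralizer_iff]
    intro g hg
    rw [Set.mem_singleton_iff] at hg
    subst hg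
    exact ⟨h g hr s hs, h _ (star_mem hr) s hs⟩
  have := hle hq
  rw [StarSubalgebra.mem_centralizer_iff] at this
  exact (this r rfl).1

/-! ## The coordinates -/

/-- the coefficient algebra: the relative commutant of the Pauli system in the algebra of `Q` -/
def G0 (Q : Set A) : Set A := {q | q ∈ StarAlgebra.adjoin ℂ Q ∧ F.InQ q}

theorem star_mem_G0 {Q : Set A} {q : A} (hq : q ∈ G0 F Q) : star q ∈ G0 F Q :=
  ⟨star_mem hq.1, F.inQ_star hq.2⟩

variable {O : Type}

/-- the coordinate `s.2` of the element `b s.1` -/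
noncomputable def Zc (b : O → A) (s : O × ι) : A := coo F (b s.1) s.2

/-- the coefficients over which `Zc F b s` is semicircular -/
def Ss (Q : Set A) (b : O → A) (s : O × ι) : Set A :=
  G0 F Q ∪ {z | ∃ t, t ≠ s ∧ z = Zc F b t}

theorem sd_coord {Q : Set A} (hQ : ∀ q ∈ Q, star q ∈ Q) (hF : ∀ i, F.f i ∈ StarAlgebra.adjoin ℂ Q)
    {b : O → A} (hb : ∀ o, SD T (Q ∪ {z | ∃ o', o' ≠ o ∧ z = b o'}) (b o)) (s : O × ι) :
    SD T (Ss F Q b s) (Zc F b s) := by
  have hstar : ∀ g ∈ (Q ∪ {z | ∃ o', o' ≠ s.1 ∧ z = b o'}),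
      star g ∈ (Q ∪ {z | ∃ o', o' ≠ s.1 ∧ z = b o'}) := by
    rintro g (hg | ⟨o', ho', rfl⟩)
    · exact Or.inl (hQ g hg)
    · exact Or.inr ⟨o', ho', (hb o').1⟩
  have h1 := (hb s.1).adjoin hstar
  have hF' : ∀ i, F.f i ∈ (StarAlgebra.adjoin ℂ (Q ∪ {z | ∃ o', o' ≠ s.1 ∧ z = b o'})) :=
    fun i => StarAlgebra.adjoin_mono Set.subset_union_left (hF i)
  refine (SD.coo T F hF' h1 s.2).mono ?_
  rintro z (⟨hz, hzQ⟩ | ⟨t, ht, rfl⟩)
  · exact Or.inl ⟨StarAlgebra.adjoin_mono Set.subset_union_left hz, hzQ⟩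
  · by_cases ho : t.1 = s.1
    · refine Or.inr ⟨t.2, fun h => ht (Prod.ext ho h), ?_⟩
      unfold Zc
      rw [ho]
    · refine Or.inl ⟨?_, coo_inQ F _ _⟩
      exact coo_mem F _ hF' (StarAlgebra.subset_adjoin ℂ _ (Or.inr ⟨t.1, ho, rfl⟩)) _

theorem Zc_sa {b : O → A} (hb : ∀ o, IsSelfAdjoint (b o)) (s : O × ι) : IsSelfAdjoint (Zc F b s) :=
  coo_sa F (hb _) _

theorem star_Ss {Q : Set A} {b : O → A} (hb : ∀ o, IsSelfAdjoint (b o)) (s : O × ι) :
    ∀ z ∈ Ss F Q b s, star z ∈ Ss F Q b s := by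
  rintro z (hz | ⟨t, ht, rfl⟩)
  · exact Or.inl (star_mem_G0 F hz)
  · exact Or.inr ⟨t, ht, Zc_sa F hb t⟩


theorem Zc_mem_Ss {Q : Set A} {b : O → A} {s t : O × ι} (h : t ≠ s) : Zc F b t ∈ Ss F Q b s :=
  Or.inr ⟨t, h, rfl⟩

theorem G0_sub_Ss {Q : Set A} {b : O → A} {s : O × ι} : G0 F Q ⊆ Ss F Q b s :=
  Set.subset_union_left

/-! ## the standing context of the slot automorphisms -/

/-- The context: tensor position algebra `R`, Pauli system in the algebra of `Q`, a family `b` of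
free semicircular elements. -/
structure Ctx (T : TracialState A) (R : StarSubalgebra ℂ A) (Q : Set A) (b : O → A) : Prop where
  amb : Amb T
  tens : TensorPos T (R : Set A)
  star_mem : ∀ q ∈ Q, star q ∈ Q
  comm : ∀ r ∈ R, ∀ q ∈ Q, r * q = q * r
  f_mem : ∀ i, F.f i ∈ StarAlgebra.adjoin ℂ Q
  comm_b : ∀ r ∈ R, ∀ o, r * b o = b o * r
  sd : ∀ o, SD T (Q ∪ {z | ∃ o', o' ≠ o ∧ z = b o'}) (b o)
  gen : ∀ z, z ∈ W T ((R : Set A) ∪ Q ∪ Set.range b)

variable {F}
variable {R : StarSubalgebra ℂ A} {Q : Set A} {b : O → A}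

theorem Ctx.inQ (h : Ctx F T R Q b) : ∀ r ∈ R, F.InQ r := fun _ hr i =>
  (comm_adjoin h.comm hr (h.f_mem i)).symm

theorem Ctx.sa (h : Ctx F T R Q b) (s : O × ι) : IsSelfAdjoint (Zc F b s) :=
  Zc_sa F (fun o => (h.sd o).1) s

theorem Ctx.sdZ (h : Ctx F T R Q b) (s : O × ι) : SD T (Ss F Q b s) (Zc F b s) :=
  sd_coord F h.star_mem h.f_mem h.sd s

theorem Ctx.starS (h : Ctx F T R Q b) (s : O × ι) : ∀ z ∈ Ss F Q b s, star z ∈ Ss F Q b s :=
  star_Ss F (fun o => (h.sd o).1) s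

/-- `R'` commutes with `G0` -/
theorem Ctx.comm_G0 (h : Ctx F T R Q b) {q : A} (hq : q ∈ G0 F Q) {r : A} (hr : r ∈ Rp F R) :
    r * q = q * r :=
  comm_Rp F hq.2 (fun _ hr' => comm_adjoin h.comm hr' hq.1) hr

/-- `R'` commutes with the coordinates -/
theorem Ctx.comm_Z (h : Ctx F T R Q b) (s : O × ι) {r : A} (hr : r ∈ Rp F R) :
    r * Zc F b s = Zc F b s * r :=
  comm_Rp F (coo_inQ F _ _) (fun r' hr' => comm_coo F (h.inQ r' hr') (h.comm_b r' hr' _) _) hr

theorem Ctx.comm_Ss (h : Ctx F T R Q b) (s : O × ι) {z : A} (hz : z ∈ Ss F Q b s) {r : A}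
    (hr : r ∈ Rp F R) : r * z = z * r := by
  rcases hz with hz | ⟨t, _, rfl⟩
  · exact h.comm_G0 hz hr
  · exact h.comm_Z t hr

theorem Ctx.comm_W (h : Ctx F T R Q b) (s : O × ι) {z : A} (hz : z ∈ W T (Ss F Q b s)) {r : A}
    (hr : r ∈ Rp F R) : r * z = z * r :=
  mem_W_commutes h.amb.faithful (fun _ hs => h.comm_Ss s hs hr)
    (fun _ hs => h.comm_Ss s hs (StarMemClass.star_mem hr)) hz

theorem Ctx.comm_uu (h : Ctx F T R Q b) (s : O × ι) {r : A} (hr : r ∈ Rp F R) :
    r * uu (Zc F b s) = uu (Zc F b s) * r := by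
  refine mem_W_commutes (T := T) (S := {Zc F b s}) h.amb.faithful ?_ ?_ (uu_mem T (h.sa s))
  · rintro _ rfl; exact h.comm_Z s hr
  · rintro _ rfl; exact h.comm_Z s (StarMemClass.star_mem hr)

theorem Ctx.uu_unitary (h : Ctx F T R Q b) (s : O × ι) : uu (Zc F b s) ∈ unitary A := by
  rw [← ru_pow one_pos (h.sa s)]
  exact pow_mem (ru_unitary 1 (h.sa s)) 1

theorem Ctx.uu_mem_W (h : Ctx F T R Q b) {s : O × ι} {S : Set A} (hs : Zc F b s ∈ S) :
    uu (Zc F b s) ∈ W T S :=
  W_mono T (Set.singleton_subset_iff.2 hs) (uu_mem T (h.sa s))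

theorem Ctx.freeHaar (h : Ctx F T R Q b) (s : O × ι) :
    FreeHaar T (W T (Ss F Q b s) : Set A) (uu (Zc F b s)) :=
  FreeHaar.closure T (SD.freeHaar T h.amb (h.starS s) (h.sdZ s))

/-- generation: `R'`, the coefficients and the Haar unitary of the slot generate everything -/
theorem Ctx.gen_slot (h : Ctx F T R Q b) (s : O × ι) (S : Set A)
    (hR : (Rp F R : Set A) ⊆ W T S) (hS : (W T (Ss F Q b s) : Set A) ⊆ W T S)
    (hu : uu (Zc F b s) ∈ W T S) (z : A) : z ∈ W T S := by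
  refine W_le T ?_ (h.gen z)
  have hf : ∀ i, F.f i ∈ W T S := fun i => hR (f_mem_Rp F R i)
  have hZ : ∀ t, Zc F b t ∈ W T S := by
    intro t
    by_cases hts : t = s
    · subst hts
      exact W_le T (Set.singleton_subset_iff.2 hu) (SD.mem_W_uu T h.amb (h.starS t) (h.sdZ t))
    · exact hS (subset_W T _ (Zc_mem_Ss F hts))
  rintro z ((hz | hz) | ⟨o, rfl⟩)
  · exact hR (le_Rp F h.inQ hz)
  · rw [F.decomp z]
    refine sum_mem fun i _ => mul_mem (hf i) (hS (subset_W T _ (G0_sub_Ss F ⟨?_, F.E_inQ _⟩)))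
    exact F.E_mem h.f_mem (mul_mem (h.f_mem i) (StarAlgebra.subset_adjoin ℂ _ hz))
  · exact mem_of_coo_mem F _ hf fun i => hZ (o, i)

/-- the slot automorphisms -/
theorem Ctx.slot (h : Ctx F T R Q b) (s : O × ι) {V V' : A} (hV : V ∈ unitary A)
    (hVW : V ∈ W T (Ss F Q b s)) (hV' : V' ∈ unitary A) (hVW' : V' ∈ W T (Ss F Q b s)) :
    ∃ α : A ≃⋆ₐ[ℂ] A, Pres T α ∧ Fixes α (Rp F R : Set A) ∧
      Fixes α (W T (Ss F Q b s) : Set A) ∧ α (uu (Zc F b s)) = V * uu (Zc F b s) * V' := by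
  refine FreeHaar.ext T h.amb (tensorPos_Rp F h.inQ h.tens) (fun r hr g hg => h.comm_W s hg hr)
    (fun r hr => h.comm_uu s hr) ?_ (h.freeHaar s) ((h.freeHaar s).mul T hV hVW hV' hVW') ?_ ?_
  · intro r hr
    have h1 := h.comm_W s hVW hr
    have h2 := h.comm_W s hVW' hr
    have h3 := h.comm_uu s hr
    calc r * (V * uu (Zc F b s) * V') = (r * V) * uu (Zc F b s) * V' := by noncomm_ring
      _ = V * (r * uu (Zc F b s)) * V' := by rw [h1]; noncomm_ring
      _ = V * uu (Zc F b s) * (r * V') := by rw [h3]; noncomm_ring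
      _ = V * uu (Zc F b s) * V' * r := by rw [h2]; noncomm_ring
  · refine fun z => h.gen_slot s _ ?_ ?_ ?_ z
    · exact (Set.subset_union_left.trans Set.subset_union_left).trans (subset_W T _)
    · exact (Set.subset_union_right.trans Set.subset_union_left).trans (subset_W T _)
    · exact subset_W T _ (Or.inr rfl)
  · have hsub : (W T (Ss F Q b s) : Set A) ⊆ W T ((Rp F R : Set A) ∪ W T (Ss F Q b s) ∪
        {V * uu (Zc F b s) * V'}) :=
      (Set.subset_union_right.trans Set.subset_union_left).trans (subset_W T _)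
    refine fun z => h.gen_slot s _ ?_ hsub ?_ z
    · exact (Set.subset_union_left.trans Set.subset_union_left).trans (subset_W T _)
    · have e : uu (Zc F b s) = star V * (V * uu (Zc F b s) * V') * star V' := by
        rw [Unitary.mem_iff] at hV hV'
        calc uu (Zc F b s) = (star V * V) * uu (Zc F b s) * (V' * star V') := by
              rw [hV.1, hV'.2, one_mul, mul_one]
          _ = _ := by noncomm_ring
      have hmem : star V * (V * uu (Zc F b s) * V') * star V' ∈ W T ((Rp F R : Set A) ∪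
          W T (Ss F Q b s) ∪ {V * uu (Zc F b s) * V'}) :=
        mul_mem (mul_mem (StarMemClass.star_mem (hsub hVW)) (subset_W T _ (Or.inr rfl)))
          (StarMemClass.star_mem (hsub hVW'))
      rwa [← e] at hmem

end Pauli

/-! ## the application of the core -/

section Apply

variable {J m : ℕ} {F : PauliSys A (Fin (4 ^ J))} {R : StarSubalgebra ℂ A} {Q : Set A}
  {b : Option (Fin m) → A}

/-- the slot of the target `k` -/
def sc (J m : ℕ) (k : Fin (m * 4 ^ J)) : Option (Fin m) × Fin (4 ^ J) :=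
  (some (finProdFinEquiv.symm k).1, (finProdFinEquiv.symm k).2)

theorem sc_inj {J m : ℕ} {k l : Fin (m * 4 ^ J)} (h : sc J m k = sc J m l) : k = l := by
  unfold sc at h
  rw [Prod.ext_iff] at h
  exact finProdFinEquiv.symm.injective (Prod.ext (Option.some.inj h.1) h.2)

theorem sc_apply (j : Fin m) (i : Fin (4 ^ J)) : sc J m (finProdFinEquiv (j, i)) = (some j, i) := by
  unfold sc
  rw [Equiv.symm_apply_apply]

theorem Ctx.core (h : Ctx F T R Q b) (d : Fin (m * 4 ^ J) → ℕ) (hd : ∀ k, 0 < d k)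
    (L : ∀ k, Fin (d k) → Fin (4 ^ J)) (hLinj : ∀ k, Function.Injective (L k))
    (hL2 : ∀ k k', k ≠ k' → ∀ l m l' m', L k l = L k' l' → L k m = L k' m' → l = m) :
    ∃ α : A ≃⋆ₐ[ℂ] A, Pres T α ∧ Fixes α ((Rp F R : Set A) ∪ G0 F Q) ∧
      (∀ k, T.τ (star (uu (Zc F b (sc J m k))) *
          α (List.ofFn fun l => uu (Zc F b (none, L k l))).prod) =
        ∏ k' with (k < k' ∧ ∃ l l', L k l = L k' l'), (kap (d k') : ℂ)) ∧
      (∀ i, T.τ (star (uu (Zc F b (none, i))) * α (uu (Zc F b (none, i)))) =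
        ∏ k with (∃ l, L k l = i), (kap (d k) : ℂ)) := by
  have hne : ∀ (i : Fin (4 ^ J)) (k : Fin (m * 4 ^ J)), sc J m k ≠ (none, i) := fun i k hk => by
    have := congrArg Prod.fst hk
    exact absurd this (by unfold sc; simp)
  -- the membership facts
  have hBu : ∀ i, (G0 F Q ∪ {z | ∃ j, j ≠ i ∧ z = uu (Zc F b (none, j))} ∪
      Set.range fun k => uu (Zc F b (sc J m k))) ⊆ (W T (Ss F Q b (none, i)) : Set A) := by
    rintro i z ((hz | ⟨j, hj, rfl⟩) | ⟨k, rfl⟩)
    · exact subset_W T _ (G0_sub_Ss F hz)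
    · exact h.uu_mem_W (Zc_mem_Ss F fun hh => hj (congrArg Prod.snd hh))
    · exact h.uu_mem_W (Zc_mem_Ss F (hne i k))
  have hBc : ∀ k, (G0 F Q ∪ (Set.range fun i => uu (Zc F b (none, i))) ∪
      {z | ∃ l, l ≠ k ∧ z = uu (Zc F b (sc J m l))}) ⊆ (W T (Ss F Q b (sc J m k)) : Set A) := by
    rintro k z ((hz | ⟨i, rfl⟩) | ⟨l, hl, rfl⟩)
    · exact subset_W T _ (G0_sub_Ss F hz)
    · exact h.uu_mem_W (Zc_mem_Ss F (hne i k).symm)
    · exact h.uu_mem_W (Zc_mem_Ss F fun hh => hl (sc_inj hh))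
  refine R134.core T h.amb.faithful (G0 F Q) ((Rp F R : Set A) ∪ G0 F Q)
    (fun i => uu (Zc F b (none, i))) (fun k => uu (Zc F b (sc J m k)))
    (fun k => ru (d k) (Zc F b (sc J m k))) d (fun k => kap (d k)) L
    Set.subset_union_right (fun i => h.uu_unitary _) (fun k => h.uu_unitary _)
    (fun k => ru_unitary _ (h.sa _)) (fun k => ru_pow (hd k) (h.sa _)) ?_ ?_ ?_ ?_
    hLinj hL2
  · intro k
    -- `ru` is in the algebra generated by `uu`
    have h1 := ru_mem T (d k) (h.sa (sc J m k))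
    exact W_le T (Set.singleton_subset_iff.2
      (SD.mem_W_uu T h.amb (h.starS _) (h.sdZ (sc J m k)))) h1
  · intro k a ha
    exact SD.tau_mul_ru T h.amb (h.starS _) (h.sdZ (sc J m k)) (hd k) (W_le T (hBc k) ha)
  · intro i V hV hVW
    obtain ⟨α, hα, hαR, hαW, hαu⟩ := h.slot (none, i) (one_mem (unitary A)) (one_mem _) hV
      (W_le T (hBu i) hVW)
    refine ⟨α, hα, ?_, ?_, ?_, by rw [hαu, one_mul]⟩
    · rintro z (hz | hz)
      · exact hαR z hz
      · exact hαW z (hBu i (Or.inl (Or.inl hz)))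
    · intro j hj
      exact hαW _ (hBu i (Or.inl (Or.inr ⟨j, hj, rfl⟩)))
    · intro k
      exact hαW _ (hBu i (Or.inr ⟨k, rfl⟩))
  · intro k V hV hVW
    obtain ⟨α, hα, hαR, hαW, hαu⟩ := h.slot (sc J m k) hV (W_le T (hBc k) hVW)
      (one_mem (unitary A)) (one_mem _)
    refine ⟨α, hα, ?_, ?_, ?_, by rw [hαu, mul_one]⟩
    · rintro z (hz | hz)
      · exact hαR z hz
      · exact hαW z (hBc k (Or.inl (Or.inl hz)))
    · intro i
      exact hαW _ (hBc k (Or.inl (Or.inr ⟨i, rfl⟩)))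
    · intro l hl
      exact hαW _ (hBc k (Or.inr ⟨l, hl, rfl⟩))

/-- the estimate for a trace that is a product of `kap`s -/
theorem nrm2_lt_of_prod {a c : A} (ha : a ∈ unitary A) (hc : c ∈ unitary A) {K : Type*}
    (s : Finset K) (d : K → ℕ) (hd : ∀ k, 0 < d k)
    (htr : T.τ (star c * a) = ∏ k ∈ s, (kap (d k) : ℂ)) {δ : ℝ} (hδ : 0 < δ)
    (hs : ∑ k ∈ s, (5 : ℝ) / (d k : ℝ) ^ 2 ≤ δ ^ 2 / 4) : T.nrm2 (a - c) < δ := by
  have h1 := nrm2_sub_sq_unitary (T := T) hc ha
  have hre : (T.τ (star c * a)).re = ∏ k ∈ s, kap (d k) := by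
    rw [htr, ← Complex.ofReal_prod, Complex.ofReal_re]
  have h2 := one_sub_sum_le_prod s (fun k => kap (d k))
    (fun k => (kap_bounds (hd k)).1) (fun k => (kap_bounds (hd k)).2.1)
  have h3 : ∑ k ∈ s, (1 - kap (d k)) ≤ ∑ k ∈ s, (5 : ℝ) / (d k : ℝ) ^ 2 :=
    Finset.sum_le_sum fun k _ => (kap_bounds (hd k)).2.2
  have h4 : T.nrm2 (a - c) ^ 2 < δ ^ 2 := by
    rw [h1, hre]
    have : 0 < δ ^ 2 := by positivity
    linarith
  exact lt_of_pow_lt_pow_left₀ 2 hδ.le h4

end Apply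

end Ab

/-- **The absorption step.** -/
theorem absorb (hT : Amb T) {m : ℕ} {R : StarSubalgebra ℂ A} {Q : Set A} {u v : ℕ → A} {x : A}
    {y : Fin m → A} (h : Data T R Q u v x y) (ε : ℝ) (hε : 0 < ε) :
    ∃ α : A ≃⋆ₐ[ℂ] A, Pres T α ∧ Fixes α ((R : Set A) ∪ Q) ∧ T.nrm2 (α x - x) < ε ∧
      ∀ j, ∃ z ∈ W T ((R : Set A) ∪ Q ∪ {α x}), IsSelfAdjoint z ∧ T.nrm2 (z - y j) < ε := by
  obtain ⟨δa, hδa, ha⟩ := inverse_a.{u} (ε / 2) (by positivity)
  obtain ⟨δb, hδb, hb⟩ := inverse_b.{u} (ε / 2) (by positivity)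
  set δ := min δa δb with hδdef
  have hδ : 0 < δ := lt_min hδa hδb
  obtain ⟨J, d, L, hd, hLinj, hL2, hcross, hdeg⟩ := Lines.exists_design m (δ ^ 2 / 4)
    (by positivity)
  obtain ⟨F, hF⟩ := PauliSys.exists_pauliSys u v h.pairs.1 h.pairs.2 J
  have hfQ : ∀ i, F.f i ∈ StarAlgebra.adjoin ℂ Q := hF _ fun j =>
    ⟨StarAlgebra.subset_adjoin ℂ _ (h.u_mem j), StarAlgebra.subset_adjoin ℂ _ (h.v_mem j)⟩
  let b : Option (Fin m) → A := fun o => o.elim x y
  have hbx : ∀ i, Ab.Zc F b (none, i) = coo F x i := fun i => rfl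
  have hby : ∀ j i, Ab.Zc F b (some j, i) = coo F (y j) i := fun j i => rfl
  have hctx : Ab.Ctx F T R Q b := by
    refine ⟨hT, h.tens, h.star_mem, h.comm, hfQ, ?_, ?_, ?_⟩
    · rintro r hr (_ | j)
      · exact h.comm_x r hr
      · exact h.comm_y r hr j
    · rintro (_ | j)
      · refine h.sd_x.mono ?_
        rintro z (hz | ⟨o', ho', rfl⟩)
        · exact Or.inl hz
        · rcases o' with _ | l
          · exact absurd rfl ho'
          · exact Or.inr ⟨l, rfl⟩
      · refine (h.sd_y j).mono ?_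
        rintro z (hz | ⟨o', ho', rfl⟩)
        · exact Or.inl (Or.inl hz)
        · rcases o' with _ | l
          · exact Or.inl (Or.inr rfl)
          · exact Or.inr ⟨l, fun hh => ho' (by rw [hh]), rfl⟩
    · intro z
      refine W_mono T ?_ (h.gen z)
      rintro w (((hw | hw) | hw) | ⟨j, rfl⟩)
      · exact Or.inl (Or.inl hw)
      · exact Or.inl (Or.inr hw)
      · rw [Set.mem_singleton_iff] at hw
        subst hw
        exact Or.inr ⟨none, rfl⟩
      · exact Or.inr ⟨some j, rfl⟩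
  obtain ⟨α, hα, hαfix, hαc, hαu⟩ := hctx.core d hd L hLinj hL2
  have hαf : ∀ i, α (F.f i) = F.f i := fun i => hαfix _ (Or.inl (Ab.f_mem_Rp F R i))
  refine ⟨α, hα, ?_, ?_, ?_⟩
  · -- `α` fixes `R` and `Q`
    rintro z (hz | hz)
    · exact hαfix z (Or.inl (Ab.le_Rp F hctx.inQ hz))
    · have hE : ∀ i, α (F.E (F.f i * z)) = F.E (F.f i * z) := fun i =>
        hαfix _ (Or.inr ⟨F.E_mem hfQ (mul_mem (hfQ i) (StarAlgebra.subset_adjoin ℂ _ hz)),
          F.E_inQ _⟩)
      conv_lhs => rw [F.decomp z]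
      rw [map_sum]
      conv_rhs => rw [F.decomp z]
      exact Finset.sum_congr rfl fun i _ => by rw [map_mul, hαf, hE]
  · -- `α x` is close to `x`
    refine (nrm2_sub_le_of_coo T F (ε := ε / 2) (by positivity) fun i => ?_).trans_lt (by linarith)
    rw [coo_map F α hαf]
    have h1 : T.nrm2 (α (uu (coo F x i)) - uu (coo F x i)) < δa := by
      refine lt_of_lt_of_le ?_ (min_le_left δa δb)
      exact Ab.nrm2_lt_of_prod (T := T) (Unitary.map_mem α (hctx.uu_unitary (none, i)))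
        (hctx.uu_unitary (none, i)) _ d hd (hαu i) hδ (hdeg i)
    exact (ha A T hT _ (hctx.starS (none, i)) _ (hctx.sdZ (none, i)) α hα h1).le
  · -- the targets
    intro j
    have hV : ∀ k, (List.ofFn fun l => uu (Ab.Zc F b (none, L k l))).prod ∈ unitary A := by
      intro k
      refine Submonoid.list_prod_mem _ fun z hz => ?_
      rw [List.mem_ofFn] at hz
      obtain ⟨l, rfl⟩ := hz
      exact hctx.uu_unitary _
    have hz : ∀ k, ∃ z ∈ StarAlgebra.adjoin ℂ
        ({α (List.ofFn fun l => uu (Ab.Zc F b (none, L k l))).prod} : Set A), IsSelfAdjoint z ∧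
          T.nrm2 (z - Ab.Zc F b (Ab.sc J m k)) < ε / 2 := by
      intro k
      refine hb A T hT _ (hctx.starS (Ab.sc J m k)) _ (hctx.sdZ (Ab.sc J m k)) _
        (Unitary.map_mem α (hV k)) ?_
      refine lt_of_lt_of_le ?_ (min_le_right δa δb)
      exact Ab.nrm2_lt_of_prod (T := T) (Unitary.map_mem α (hV k))
        (hctx.uu_unitary _) _ d hd (hαc k) hδ (hcross k)
    choose z hzm hzs hzε using hz
    -- `z k` commutes with the Pauli system
    have hVQ : ∀ k, F.InQ (α (List.ofFn fun l => uu (Ab.Zc F b (none, L k l))).prod) := by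
      intro k i
      have hmem : (List.ofFn fun l => uu (Ab.Zc F b (none, L k l))).prod ∈
          StarSubalgebra.centralizer ℂ ({F.f i} : Set A) := by
        refine list_prod_mem fun w hw => ?_
        rw [List.mem_ofFn] at hw
        obtain ⟨l, rfl⟩ := hw
        rw [StarSubalgebra.mem_centralizer_iff]
        rintro g hg
        rw [Set.mem_singleton_iff] at hg
        subst hg
        rw [F.star_f]
        exact ⟨hctx.comm_uu _ (Ab.f_mem_Rp F R i), hctx.comm_uu _ (Ab.f_mem_Rp F R i)⟩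
      rw [StarSubalgebra.mem_centralizer_iff] at hmem
      have h1 := (hmem _ rfl).1
      have h2 := congrArg α h1
      rwa [map_mul, map_mul, hαf] at h2
    have hzQ : ∀ k, F.InQ (z k) := by
      intro k i
      have hle : StarAlgebra.adjoin ℂ
          ({α (List.ofFn fun l => uu (Ab.Zc F b (none, L k l))).prod} : Set A) ≤
          StarSubalgebra.centralizer ℂ ({F.f i} : Set A) := by
        refine StarAlgebra.adjoin_le ?_
        intro w hw
        rw [Set.mem_singleton_iff] at hw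
        subst hw
        rw [SetLike.mem_coe, StarSubalgebra.mem_centralizer_iff]
        rintro g hg
        rw [Set.mem_singleton_iff] at hg
        subst hg
        rw [F.star_f]
        exact ⟨hVQ k i, hVQ k i⟩
      have := hle (hzm k)
      rw [StarSubalgebra.mem_centralizer_iff] at this
      exact (this _ rfl).1
    -- membership
    have hαW : ∀ i, α (coo F x i) ∈ W T ((R : Set A) ∪ Q ∪ {α x}) := by
      intro i
      rw [← coo_map F α hαf]
      refine coo_mem F _ (fun i => ?_) (subset_W T _ (Or.inr rfl)) i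
      exact W_mono T (Set.subset_union_right.trans Set.subset_union_left) (adjoin_le_W T _ (hfQ i))
    have hVW : ∀ k, α (List.ofFn fun l => uu (Ab.Zc F b (none, L k l))).prod ∈
        W T ((R : Set A) ∪ Q ∪ {α x}) := by
      intro k
      rw [map_list_prod]
      refine list_prod_mem fun w hw => ?_
      rw [List.mem_map] at hw
      obtain ⟨w', hw', rfl⟩ := hw
      rw [List.mem_ofFn] at hw'
      obtain ⟨l, rfl⟩ := hw'
      rw [map_uu (hctx.sa _)]
      refine W_le T (Set.singleton_subset_iff.2 (hαW (L k l))) (uu_mem T ?_)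
      exact (hctx.sa (none, L k l)).map α
    have hzW : ∀ k, z k ∈ W T ((R : Set A) ∪ Q ∪ {α x}) := fun k =>
      StarAlgebra.adjoin_le (Set.singleton_subset_iff.2 (hVW k)) (hzm k)
    refine ⟨((rt (Fin (4 ^ J)) : ℝ) : ℂ)⁻¹ • ∑ i, F.f i * z (finProdFinEquiv (j, i)), ?_, ?_, ?_⟩
    · refine (W T _).smul_mem (sum_mem fun i _ => mul_mem ?_ (hzW _)) _
      exact W_mono T (Set.subset_union_right.trans Set.subset_union_left) (adjoin_le_W T _ (hfQ i))
    · rw [isSelfAdjoint_iff, star_smul, (F.sum_isSelfAdjoint (fun i => hzQ _)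
        fun i => hzs _).star_eq]
      congr 1
      rw [star_inv₀]
      congr 1
      exact Complex.conj_ofReal _
    · refine (nrm2_sub_le_of_coo T F (ε := ε / 2) (by positivity) fun i => ?_).trans_lt
        (by linarith)
      rw [coo_sum F (fun i => z (finProdFinEquiv (j, i))) fun i => hzQ _]
      have := (hzε (finProdFinEquiv (j, i))).le
      rwa [Ab.sc_apply, hby] at this

end Crest.Agent.R134
end

-- ▼ part R134/Main

/-!
# R134 : the main theorem
-/

set_option autoImplicit false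

universe u

namespace Crest.Agent.R134

open Crest.Agent.R95 Filter Topology

variable {A : Type u} [CStarAlgebra A] (T : TracialState A)


/-- **Main theorem**: `m + 1` free semicircular elements (over `Q`, commuting with `R`) can be
replaced by one. -/
theorem main (hT : Amb T) {m : ℕ} {R : StarSubalgebra ℂ A} {Q : Set A} {u v : ℕ → A} {x : A}
    {y : Fin m → A} (h : Data T R Q u v x y) :
    ∃ x' : A, SD T Q x' ∧ (∀ r ∈ R, r * x' = x' * r) ∧
      ∀ z, z ∈ W T ((R : Set A) ∪ Q ∪ {x'}) :=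
  Limit.main_of_absorb hT h (absorb hT h)

end Crest.Agent.R134
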