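import Crest.Agent.R134.Conv
import Crest.Agent.R134.Semi
import Crest.Agent.R134.Data
import Crest.Agent.R134.Limit
import Crest.Agent.R134.PauliSD
import Crest.Agent.R134.FreeHaar
import Crest.Agent.R134.FreePauli
import Crest.Agent.R134.Main

-- ▼ part R134/Sign
section

/-!
# R134 Sign: the sign of a semicircular element
-/

set_option autoImplicit false
set_option linter.unusedSectionVars false

universe u

namespace Crest.Agent.R134

open Crest.Agent.R95 Filter Topology MeasureTheory Polynomial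
open Crest.Agent.R134.Limit Crest.Agent.R134.Sm
open scoped Interval

namespace Conv

/-! ### scalar functions -/

/-- clamp to `[-1,1]` -/
noncomputable def clamp (x : ℝ) : ℝ := max (-1) (min 1 x)

theorem clamp_continuous : Continuous clamp := by unfold clamp; fun_prop

theorem clamp_mem (x : ℝ) : clamp x ∈ Set.Icc (-1 : ℝ) 1 := by
  unfold clamp
  exact ⟨le_max_left _ _, max_le (by norm_num) (min_le_left _ _)⟩

theorem clamp_neg (x : ℝ) : clamp (-x) = -clamp x := by
  unfold clamp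
  rcases le_total x (-1) with h | h
  · rw [min_eq_left (by linarith), max_eq_right (by norm_num), min_eq_right (by linarith),
      max_eq_left h]
    ring
  · rcases le_total x 1 with h' | h'
    · rw [min_eq_right (by linarith), max_eq_right (by linarith), min_eq_right h', max_eq_right h]
    · rw [min_eq_right (by linarith), max_eq_left (by linarith), min_eq_left h',
        max_eq_right (by norm_num)]

theorem clamp_of_one_le {x : ℝ} (h : 1 ≤ x) : clamp x = 1 := by
  unfold clamp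
  rw [min_eq_left h, max_eq_right (by norm_num)]

theorem clamp_nonneg {x : ℝ} (h : 0 ≤ x) : 0 ≤ clamp x := by
  unfold clamp
  exact le_max_of_le_right (le_min zero_le_one h)

theorem clamp_nonpos {x : ℝ} (h : x ≤ 0) : clamp x ≤ 0 := by
  have := clamp_nonneg (neg_nonneg.2 h)
  rw [clamp_neg] at this
  linarith

/-- same sign -/
theorem clamp_mul_nonneg (k l : ℕ) (x : ℝ) : 0 ≤ clamp (k * x) * clamp (l * x) := by
  rcases le_total 0 x with h | h
  · exact mul_nonneg (clamp_nonneg (by positivity)) (clamp_nonneg (by positivity))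
  · exact mul_nonneg_of_nonpos_of_nonpos
      (clamp_nonpos (mul_nonpos_of_nonneg_of_nonpos (by positivity) h))
      (clamp_nonpos (mul_nonpos_of_nonneg_of_nonpos (by positivity) h))

/-- `φ_k` -/
noncomputable def ph (k : ℕ) (s : ℝ) : ℝ := -clamp (k * Real.sin (Θ s))

theorem ph_continuous (k : ℕ) : Continuous (ph k) := by
  unfold ph
  have := Θ_continuous
  exact (clamp_continuous.comp (by fun_prop)).neg

theorem ph_mem (k : ℕ) (s : ℝ) : ph k s ∈ Set.Icc (-1 : ℝ) 1 := by
  have := clamp_mem (k * Real.sin (Θ s))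
  unfold ph
  exact ⟨by linarith [this.2], by linarith [this.1]⟩

theorem Θ_neg (s : ℝ) : Θ (-s) = -Θ s := by
  unfold Θ
  rw [neg_div, Real.arccos_neg]
  have : 2 * (Real.pi - Real.arccos (s / 2)) = 2 * Real.pi - 2 * Real.arccos (s / 2) := by ring
  rw [this, Real.sin_two_pi_sub]
  ring

theorem ph_neg (k : ℕ) (s : ℝ) : ph k (-s) = -ph k s := by
  unfold ph
  rw [Θ_neg, Real.sin_neg, mul_neg, clamp_neg]

theorem ph_sub_sq_le (k l : ℕ) (s : ℝ) :
    (ph k s - ph l s) ^ 2 ≤ (1 - ph k s ^ 2) + (1 - ph l s ^ 2) := by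
  have h1 := ph_mem k s
  have h2 := ph_mem l s
  have h3 : 0 ≤ ph k s * ph l s := by
    unfold ph
    have := clamp_mul_nonneg k l (Real.sin (Θ s))
    nlinarith
  set a := ph k s
  set b := ph l s
  -- a² + b² - ab ≤ 1
  have h4 : a ^ 2 + b ^ 2 - a * b ≤ 1 := by
    have ha : a ^ 2 ≤ 1 := by nlinarith [h1.1, h1.2]
    have hb : b ^ 2 ≤ 1 := by nlinarith [h2.1, h2.2]
    rcases le_total (a ^ 2) (b ^ 2) with h | h
    · have h5 : a ^ 2 ≤ a * b := by
        have h6 : (a ^ 2) ^ 2 ≤ (a * b) ^ 2 := by nlinarith [sq_nonneg a]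
        exact (sq_le_sq₀ (sq_nonneg a) h3).1 h6
      linarith
    · have h5 : b ^ 2 ≤ a * b := by
        have h6 : (b ^ 2) ^ 2 ≤ (a * b) ^ 2 := by nlinarith [sq_nonneg b]
        exact (sq_le_sq₀ (sq_nonneg b) h3).1 h6
      linarith
  nlinarith

/-- the error -/
noncomputable def er (k : ℕ) : ℝ := (Sc fun s => ((1 - ph k s ^ 2 : ℝ) : ℂ)).re

theorem er_tendsto : Tendsto er atTop (𝓝 0) := by
  have h1 : Tendsto (fun k : ℕ => ∫ t in (0 : ℝ)..Real.pi,
      ((1 - ph k (2 * Real.cos t) ^ 2 : ℝ) : ℂ) * ((Real.sin t ^ 2 : ℝ) : ℂ)) atTop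
      (𝓝 (∫ _t in (0 : ℝ)..Real.pi, (0 : ℂ))) := by
    have hIoc : Ι (0 : ℝ) Real.pi = Set.Ioc 0 Real.pi := Set.uIoc_of_le Real.pi_pos.le
    refine intervalIntegral.tendsto_integral_filter_of_dominated_convergence (fun _ => 1) ?_ ?_ ?_ ?_
    · refine Eventually.of_forall fun k => ?_
      refine Continuous.aestronglyMeasurable ?_
      have := ph_continuous k
      fun_prop
    · refine Eventually.of_forall fun k => Eventually.of_forall fun t _ => ?_
      rw [← Complex.ofReal_mul, Complex.norm_real, Real.norm_eq_abs, abs_mul]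
      have h2 := ph_mem k (2 * Real.cos t)
      have h3 : |1 - ph k (2 * Real.cos t) ^ 2| ≤ 1 := by
        rw [abs_le]
        constructor <;> nlinarith [h2.1, h2.2]
      have h4 : |Real.sin t ^ 2| ≤ 1 := by
        rw [abs_of_nonneg (sq_nonneg _)]
        nlinarith [Real.sin_sq_le_one t]
      calc |1 - ph k (2 * Real.cos t) ^ 2| * |Real.sin t ^ 2| ≤ 1 * 1 :=
            mul_le_mul h3 h4 (abs_nonneg _) zero_le_one
        _ = 1 := one_mul 1
    · exact intervalIntegrable_const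
    · filter_upwards [Measure.ae_ne volume Real.pi, Measure.ae_ne volume (Real.pi / 2)] with
        t ht1 ht2 ht
      rw [hIoc] at ht
      have ht' : t < Real.pi := lt_of_le_of_ne ht.2 ht1
      have h2 : Θ (2 * Real.cos t) = ss t := Θ_cos ⟨ht.1.le, ht.2⟩
      have h3 : -Real.pi < ss t := by
        rw [← ss_zero]
        exact ss_strictMono ht.1
      have h4 : ss t < Real.pi := by
        conv_rhs => rw [← ss_pi]
        exact ss_strictMono ht'
      have h5 : ss t ≠ 0 := by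
        intro h
        have h6 : ss (Real.pi / 2) = 0 := by
          unfold ss
          rw [mul_div_cancel₀ _ (two_ne_zero), Real.sin_pi]
          ring
        rw [← h6] at h
        exact ht2 (ss_strictMono.injective h)
      have h6 : Real.sin (ss t) ≠ 0 := by
        rcases lt_or_gt_of_ne h5 with h | h
        · have := Real.sin_neg_of_neg_of_neg_pi_lt h h3
          exact this.ne
        · exact (Real.sin_pos_of_pos_of_lt_pi h h4).ne'
      obtain ⟨K, hK⟩ := exists_nat_gt (1 / |Real.sin (ss t)|)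
      refine tendsto_const_nhds.congr' ?_
      filter_upwards [eventually_ge_atTop K] with k hk
      have h7 : 0 < |Real.sin (ss t)| := abs_pos.2 h6
      have h8 : 1 ≤ k * |Real.sin (ss t)| := by
        rw [div_lt_iff₀ h7] at hK
        have : (K : ℝ) ≤ k := by exact_mod_cast hk
        nlinarith
      have h9 : ph k (2 * Real.cos t) ^ 2 = 1 := by
        unfold ph
        rw [h2]
        rcases le_total 0 (Real.sin (ss t)) with h | h
        · rw [abs_of_nonneg h] at h8
          rw [clamp_of_one_le h8]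
          norm_num
        · rw [abs_of_nonpos h] at h8
          have : (k : ℝ) * Real.sin (ss t) = -(k * -Real.sin (ss t)) := by ring
          rw [this, clamp_neg, clamp_of_one_le h8]
          norm_num
      rw [h9]
      simp
  rw [intervalIntegral.integral_zero] at h1
  have h2 := (Complex.continuous_re.tendsto _).comp (h1.const_mul (2 / Real.pi : ℂ))
  rw [mul_zero, Complex.zero_re] at h2
  exact h2

theorem er_nonneg_aux {F : ℝ → ℝ} (h : ∀ s, 0 ≤ F s) :
    0 ≤ (Sc fun s => (F s : ℂ)).re := by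
  unfold Sc
  have h1 : (∫ t in (0 : ℝ)..Real.pi, (F (2 * Real.cos t) : ℂ) * ((Real.sin t ^ 2 : ℝ) : ℂ)) =
      ((∫ t in (0 : ℝ)..Real.pi, F (2 * Real.cos t) * Real.sin t ^ 2 : ℝ) : ℂ) := by
    rw [← intervalIntegral.integral_ofReal]
    refine intervalIntegral.integral_congr fun t _ => ?_
    push_cast
    rfl
  rw [h1]
  have h2 : (2 / Real.pi : ℂ) = ((2 / Real.pi : ℝ) : ℂ) := by push_cast; ring
  rw [h2, ← Complex.ofReal_mul, Complex.ofReal_re]
  refine mul_nonneg (by positivity) ?_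
  exact intervalIntegral.integral_nonneg Real.pi_pos.le fun t _ =>
    mul_nonneg (h _) (sq_nonneg _)

theorem Sc_re_mono {F G : ℝ → ℝ} (hF : Continuous F) (hG : Continuous G) (h : ∀ s, F s ≤ G s) :
    (Sc fun s => (F s : ℂ)).re ≤ (Sc fun s => (G s : ℂ)).re := by
  have h1 := er_nonneg_aux (F := fun s => G s - F s) fun s => sub_nonneg.2 (h s)
  have h2 : (Sc fun s => ((G s - F s : ℝ) : ℂ)) = (Sc fun s => (G s : ℂ)) - Sc fun s => (F s : ℂ) := by
    rw [← Sc_sub (F := fun s => (G s : ℂ)) (G := fun s => (F s : ℂ)) (by fun_prop) (by fun_prop)]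
    congr 1
    funext s
    push_cast
    rfl
  rw [h2, Complex.sub_re] at h1
  linarith

theorem er_nonneg (k : ℕ) : 0 ≤ er k := by
  refine er_nonneg_aux (F := fun s => 1 - ph k s ^ 2) fun s => ?_
  have := ph_mem k s
  nlinarith [this.1, this.2]

/-- orthogonality to even powers of the Haar unitary -/
theorem Sc_ph_ex (k m : ℕ) : Sc (fun s => (ph k s : ℂ) * ex (2 * m : ℕ) s) = 0 := by
  have hc : Continuous fun s => (ph k s : ℂ) * ex (2 * m : ℕ) s := by
    have h1 := ph_continuous k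
    have h2 := continuous_ex (2 * m : ℕ)
    fun_prop
  rw [← integral_xi hc]
  -- the function on the circle
  set H : ℝ → ℂ := fun θ => ((-clamp (k * Real.sin θ) : ℝ) : ℂ) *
    Complex.exp (Complex.I * (((2 * m : ℕ) * θ : ℝ) : ℂ)) with hH
  have h1 : ∫ θ in (-Real.pi)..Real.pi, (ph k (xi θ) : ℂ) * ex (2 * m : ℕ) (xi θ) =
      ∫ θ in (-Real.pi)..Real.pi, H θ := by
    refine intervalIntegral.integral_congr fun θ hθ => ?_
    rw [Set.uIcc_of_le (by linarith [Real.pi_pos])] at hθ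
    simp only [ph, ex, Θ_xi hθ, hH]
  have hHc : Continuous H := by
    have := clamp_continuous
    rw [hH]
    fun_prop
  have h2 : ∀ θ, H (θ + Real.pi) = -H θ := by
    intro θ
    simp only [hH]
    rw [Real.sin_add_pi, mul_neg, clamp_neg]
    have e : Complex.exp (Complex.I * (((2 * m : ℕ) * (θ + Real.pi) : ℝ) : ℂ)) =
        Complex.exp (Complex.I * (((2 * m : ℕ) * θ : ℝ) : ℂ)) := by
      have : Complex.I * (((2 * m : ℕ) * (θ + Real.pi) : ℝ) : ℂ) =
          Complex.I * (((2 * m : ℕ) * θ : ℝ) : ℂ) + m * (2 * Real.pi * Complex.I) := by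
        push_cast
        ring
      rw [this, Complex.exp_add, Complex.exp_nat_mul_two_pi_mul_I, mul_one]
    rw [e]
    push_cast
    ring
  have h3 : ∫ θ in (0 : ℝ)..Real.pi, H θ = -∫ θ in (-Real.pi)..0, H θ := by
    have h4 := intervalIntegral.integral_comp_add_right (a := -Real.pi) (b := 0) H Real.pi
    rw [neg_add_cancel, zero_add] at h4
    rw [← h4]
    simp only [h2]
    rw [intervalIntegral.integral_neg]
  rw [h1, ← intervalIntegral.integral_add_adjacent_intervals (b := 0)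
    (hHc.intervalIntegrable _ _) (hHc.intervalIntegrable _ _), h3, add_neg_cancel, mul_zero]

/-! ### operators -/

variable {A : Type u} [CStarAlgebra A] {T : TracialState A}

/-- `φ_k (Y)` -/
noncomputable def Vk (Y : A) (k : ℕ) : A := fc Y (fun s => (ph k s : ℂ))

theorem phc_continuous (k : ℕ) : Continuous fun s => (ph k s : ℂ) :=
  Complex.continuous_ofReal.comp (ph_continuous k)

theorem Vk_sa (Y : A) (k : ℕ) : IsSelfAdjoint (Vk Y k) := by
  unfold Vk
  show star (fc Y (fun s => (ph k s : ℂ))) = _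
  rw [← fc_star]
  congr 1
  funext s
  simp

theorem Vk_norm {Y : A} (hY : IsSelfAdjoint Y) (k : ℕ) : ‖Vk Y k‖ ≤ 1 := by
  refine norm_fc_le hY zero_le_one le_rfl fun s _ => ?_
  rw [Complex.norm_real, Real.norm_eq_abs]
  exact abs_le.2 (ph_mem k s)

theorem nrm2_Vk_sub {Y : A} (hY : IsSelfAdjoint Y) (h : ∀ n, T.τ (ch Y (n + 1)) = 0) (k l : ℕ) :
    T.nrm2 (Vk Y k - Vk Y l) ^ 2 ≤ er k + er l := by
  have hk := ph_continuous k
  have hl := ph_continuous l
  unfold Vk
  rw [← fc_sub (phc_continuous k) (phc_continuous l),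
    nrm2_fc_sq (F := fun s => (ph k s : ℂ) - (ph l s : ℂ)) hY h
      ((phc_continuous k).sub (phc_continuous l))]
  have e1 : (fun s => star ((ph k s : ℂ) - (ph l s : ℂ)) * ((ph k s : ℂ) - (ph l s : ℂ))) =
      fun s => (((ph k s - ph l s) ^ 2 : ℝ) : ℂ) := by
    funext s
    rw [← Complex.ofReal_sub, Complex.star_def, Complex.conj_ofReal]
    push_cast
    ring
  rw [e1]
  have e2 : er k + er l = (Sc fun s => (((1 - ph k s ^ 2) + (1 - ph l s ^ 2) : ℝ) : ℂ)).re := by
    unfold er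
    rw [← Complex.add_re, ← Sc_add (by fun_prop) (by fun_prop)]
    congr 2
    funext s
    push_cast
    ring
  rw [e2]
  exact Sc_re_mono (F := fun s => (ph k s - ph l s) ^ 2)
    (G := fun s => (1 - ph k s ^ 2) + (1 - ph l s ^ 2)) (by fun_prop) (by fun_prop)
    (ph_sub_sq_le k l)

theorem nrm2_Vk_sq_sub {Y : A} (hY : IsSelfAdjoint Y) (h : ∀ n, T.τ (ch Y (n + 1)) = 0) (k : ℕ) :
    T.nrm2 (Vk Y k * Vk Y k - 1) ^ 2 ≤ er k := by
  have hk := ph_continuous k
  have e0 : Vk Y k * Vk Y k - 1 = fc Y (fun s => (ph k s : ℂ) * (ph k s : ℂ) - 1) := by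
    rw [fc_sub (F := fun s => (ph k s : ℂ) * (ph k s : ℂ)) (G := fun _ => 1) (by fun_prop)
      (by fun_prop), fc_mul (phc_continuous k) (phc_continuous k), fc_const hY, map_one]
    rfl
  rw [e0, nrm2_fc_sq hY h (by fun_prop)]
  have e1 : (fun s => star ((ph k s : ℂ) * (ph k s : ℂ) - 1) * ((ph k s : ℂ) * (ph k s : ℂ) - 1)) =
      fun s => (((1 - ph k s ^ 2) ^ 2 : ℝ) : ℂ) := by
    funext s
    rw [← Complex.ofReal_mul, ← Complex.ofReal_one, ← Complex.ofReal_sub, Complex.star_def,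
      Complex.conj_ofReal]
    push_cast
    ring
  rw [e1]
  unfold er
  refine Sc_re_mono (F := fun s => (1 - ph k s ^ 2) ^ 2) (G := fun s => 1 - ph k s ^ 2)
    (by fun_prop) (by fun_prop) fun s => ?_
  have := ph_mem k s
  have h1 : ph k s ^ 2 ≤ 1 := by nlinarith [this.1, this.2]
  nlinarith [sq_nonneg (ph k s)]

theorem fc_neg {Y : A} (hY : IsSelfAdjoint Y) {F : ℝ → ℂ} (hF : Continuous F) :
    fc (-Y) F = fc Y (fun s => F (-s)) := by
  unfold fc
  rw [← cfc_comp_neg (fun z : ℂ => F z.re) Y (by fun_prop) hY.isStarNormal]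
  simp

theorem fc_neg_fun {Y : A} {F : ℝ → ℂ} : fc Y (fun s => -F s) = -fc Y F := by
  unfold fc
  exact cfc_neg (fun z : ℂ => F z.re) Y

theorem fc_mem_W' {x : A} (F : ℝ → ℂ) : fc x F ∈ W T {x} := by
  refine fc_mem_closed (isClosed_W T _) ?_ F
  exact subset_W T _ (Set.mem_singleton x)

/-- **the sign of a semicircular element** -/
theorem exists_sign (hT : Amb T) {S : Set A} (hS : ∀ s ∈ S, star s ∈ S) {Y : A} (h : SD T S Y) :
    ∃ V : A, IsSelfAdjoint V ∧ V * V = 1 ∧ V ∈ W T {Y} ∧ T.τ V = 0 ∧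
      (∀ α : A ≃⋆ₐ[ℂ] A, α Y = -Y → Pres T α → α V = -V) ∧
      (∀ Z : A, Z ∈ unitary A → Z * Y * star Z = -Y → Z * V * star Z = -V) ∧
      (∃ (p : ℕ → Polynomial ℂ), (∀ k, ‖Polynomial.aeval Y (p k)‖ ≤ 2) ∧
        Tendsto (fun k => T.nrm2 (Polynomial.aeval Y (p k) - V)) atTop (𝓝 0)) ∧
      ∀ m : ℕ, T.τ (V * uu Y ^ (2 * m)) = 0 := by
  have hY := h.1
  have hch := tau_ch_of_SD hS h
  have hY2 : ‖Y‖ ≤ 2 := norm_le_two hT.faithful hY hch
  obtain ⟨V, hV1, hV⟩ := hT.complete (Vk Y) 1 (Vk_norm hY) (by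
    intro ε hε
    obtain ⟨K, hK⟩ := (Metric.tendsto_atTop.1 er_tendsto) (ε ^ 2 / 2) (by positivity)
    refine ⟨K, fun k hk l hl => ?_⟩
    have h1 := hK k hk
    have h2 := hK l hl
    rw [Real.dist_0_eq_abs, abs_of_nonneg (er_nonneg _)] at h1 h2
    have h3 := nrm2_Vk_sub hY hch k l
    exact lt_of_pow_lt_pow_left₀ 2 hε.le (by linarith))
  have hcv : Cv T (Vk Y) V := ⟨⟨1, Vk_norm hY⟩, hV⟩
  have hVsa : IsSelfAdjoint V := by
    have h1 := Cv.star hcv
    have h2 : (fun k => star (Vk Y k)) = Vk Y := by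
      funext k
      exact Vk_sa Y k
    rw [h2] at h1
    exact Cv.unique hT.faithful h1 hcv
  have hα : ∀ α : A ≃⋆ₐ[ℂ] A, α Y = -Y → Pres T α → α V = -V := by
    intro α hαY hp
    have h1 : ∀ k, α (Vk Y k) = -Vk Y k := by
      intro k
      have h2 : α (Vk Y k) = fc (α Y) (fun s => (ph k s : ℂ)) :=
        map_fc hY (α : A →⋆ₐ[ℂ] A) _ (phc_continuous k)
      rw [h2, hαY, fc_neg hY (phc_continuous k)]
      have h3 : (fun s => (ph k (-s) : ℂ)) = fun s => -(ph k s : ℂ) := by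
        funext s
        rw [ph_neg]
        push_cast
        rfl
      rw [h3, fc_neg_fun]
      rfl
    have h4 : Cv T (fun k => α (Vk Y k)) (α V) := by
      refine ⟨⟨1, fun k => ?_⟩, ?_⟩
      · simp only [h1, norm_neg]
        exact Vk_norm hY k
      · refine hcv.2.congr fun k => ?_
        rw [← map_sub, Pres.nrm2 hp]
    have h5 : Cv T (fun k => α (Vk Y k)) (-V) := by
      have h6 := Cv.smul (-1) hcv
      simp only [neg_smul, one_smul] at h6
      simpa only [h1] using h6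
    exact Cv.unique hT.faithful h4 h5
  have hVk_mem : ∀ k, Vk Y k ∈ W T {Y} := fun k => fc_mem_W' _
  have hm : ∀ m : ℕ, T.τ (V * uu Y ^ (2 * m)) = 0 := by
    intro m
    have h1 : Cv T (fun k => Vk Y k * uu Y ^ (2 * m)) (V * uu Y ^ (2 * m)) :=
      Cv.mul hcv (Cv.const _)
    have h2 : ∀ k, T.τ (Vk Y k * uu Y ^ (2 * m)) = 0 := by
      intro k
      have h3 : uu Y ^ (2 * m) = fc Y (ex (2 * m : ℕ)) := by
        rw [uu_eq_ex, fc_pow hY, mul_one]
      rw [h3]
      unfold Vk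
      rw [← fc_mul (phc_continuous k) (continuous_ex _)]
      exact (law (F := fun s => (ph k s : ℂ) * ex (2 * m : ℕ) s) hY hch
        ((phc_continuous k).mul (continuous_ex _))).trans (Sc_ph_ex k m)
    have h4 := Cv.tau h1
    simp only [h2] at h4
    exact tendsto_nhds_unique h4 tendsto_const_nhds
  refine ⟨V, hVsa, ?_, ?_, ?_, hα, ?_, ?_, hm⟩
  · -- V * V = 1
    have h1 : Cv T (fun k => Vk Y k * Vk Y k) (V * V) := Cv.mul hcv hcv
    have h2 : Cv T (fun k => Vk Y k * Vk Y k) 1 := by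
      refine ⟨h1.1, ?_⟩
      have h3 : Tendsto (fun k => T.nrm2 (Vk Y k * Vk Y k - 1) ^ 2) atTop (𝓝 0) :=
        squeeze_zero (fun _ => sq_nonneg _) (nrm2_Vk_sq_sub hY hch) er_tendsto
      have h7 := (Real.continuous_sqrt.tendsto _).comp h3
      rw [Real.sqrt_zero] at h7
      refine h7.congr fun k => ?_
      simp only [Function.comp_apply]
      exact Real.sqrt_sq (T.nrm2_nonneg _)
    exact Cv.unique hT.faithful h1 h2
  · refine mem_W_of_approx T fun ε hε => ?_
    obtain ⟨K, hK⟩ := (Metric.tendsto_atTop.1 hV) ε hε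
    refine ⟨Vk Y K, hVk_mem K, ?_⟩
    have := hK K le_rfl
    rwa [Real.dist_0_eq_abs, abs_of_nonneg (T.nrm2_nonneg _), T.nrm2_sub_comm] at this
  · have := hm 0
    simpa using this
  · intro Z hZ hZY
    have h1 := hα (Unitary.conjStarAlgAut ℂ A ⟨Z, hZ⟩)
      (by rw [Unitary.conjStarAlgAut_apply]; exact hZY)
      (by
        intro a
        rw [Unitary.conjStarAlgAut_apply]
        show T.τ (Z * a * star Z) = T.τ a
        rw [T.tr, ← mul_assoc, Unitary.star_mul_self_of_mem hZ, one_mul])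
    rw [Unitary.conjStarAlgAut_apply] at h1
    exact h1
  · -- polynomials
    have hp : ∀ k : ℕ, ∃ p : ℂ[X], ‖aeval Y p - Vk Y k‖ ≤ 1 / ((k : ℝ) + 1) := by
      intro k
      obtain ⟨p, hp⟩ := exists_poly_near (phc_continuous k) 2 (ε := 1 / ((k : ℝ) + 1))
        (by positivity)
      refine ⟨p, ?_⟩
      unfold Vk
      rw [← fc_poly hY p, ← fc_sub (continuous_eval p) (phc_continuous k)]
      exact norm_fc_le hY (by positivity) hY2 hp
    choose p hp using hp
    refine ⟨p, fun k => ?_, ?_⟩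
    · have h1 := hp k
      have h2 : 1 / ((k : ℝ) + 1) ≤ 1 := by
        rw [div_le_one (by positivity)]
        linarith [Nat.cast_nonneg (α := ℝ) k]
      have h3 := Vk_norm hY k
      calc ‖aeval Y (p k)‖ = ‖(aeval Y (p k) - Vk Y k) + Vk Y k‖ := by rw [sub_add_cancel]
        _ ≤ ‖aeval Y (p k) - Vk Y k‖ + ‖Vk Y k‖ := norm_add_le _ _
        _ ≤ 2 := by linarith
    · have h1 : Tendsto (fun k : ℕ => 1 / ((k : ℝ) + 1) + T.nrm2 (Vk Y k - V)) atTop (𝓝 0) := by
        have := (tendsto_one_div_add_atTop_nhds_zero_nat (𝕜 := ℝ)).add hV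
        simpa using this
      refine squeeze_zero (fun _ => T.nrm2_nonneg _) (fun k => ?_) h1
      refine (T.nrm2_triangle _ (Vk Y k) _).trans ?_
      exact add_le_add ((T.nrm2_le_norm _).trans (hp k)) le_rfl

end Conv

end Crest.Agent.R134
end

-- ▼ part R134/N2Defs
section

/-!
# R134 : shared definitions for the case n = 2 (`DerZ`, `SDZ`, exactly as in `Iface2.lean`)
-/

set_option autoImplicit false

universe u

namespace Crest.Agent.R134

open Crest.Agent.R95

variable {A : Type u} [CStarAlgebra A] (T : TracialState A)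

/-- like `Der`, with `∂ X = ½ (1 ⊗ 1 + Z ⊗ Z)` -/
inductive DerZ (Z : A) (G : Set A) (X : A) : A → (A → A → ℂ) → Prop
  | one : DerZ Z G X 1 (fun _ _ => 0)
  | coef {a : A} : a ∈ G → DerZ Z G X a (fun _ _ => 0)
  | var : DerZ Z G X X (fun p q => (T.τ p * T.τ q + T.τ (p * Z) * T.τ (Z * q)) / 2)
  | add {w w' : A} {D D' : A → A → ℂ} : DerZ Z G X w D → DerZ Z G X w' D' →
      DerZ Z G X (w + w') (fun p q => D p q + D' p q)
  | smul {w : A} {D : A → A → ℂ} (c : ℂ) : DerZ Z G X w D → DerZ Z G X (c • w) (fun p q => c * D p q)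
  | mul {w w' : A} {D D' : A → A → ℂ} : DerZ Z G X w D → DerZ Z G X w' D' →
      DerZ Z G X (w * w') (fun p q => D' (p * w) q + D p (w' * q))

/-- `X` is "semicircular, block diagonal with respect to `Z`", over `G` -/
def SDZ (Z : A) (G : Set A) (X : A) : Prop :=
  IsSelfAdjoint X ∧ ∀ (w : A) (D : A → A → ℂ), DerZ T Z G X w D → T.τ (X * w) = D 1 1

end Crest.Agent.R134
end

-- ▼ part R134/N2aX
section

/-!
# R134 (n = 2): diagonal and off-diagonal part of a semicircular element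
-/

set_option autoImplicit false

universe u

namespace Crest.Agent.R134

open Crest.Agent.R95 Filter Topology

variable {A : Type u} [CStarAlgebra A] (T : TracialState A)

namespace N2aX

theorem tau_conj {Z : A} (hZ2 : Z * Z = 1) (a : A) : T.τ (Z * a * Z) = T.τ a := by
  rw [T.tr, ← mul_assoc, hZ2, one_mul]

/-- `Der` of `Z X Z` -/
theorem der_ZXZ {G : Set A} {X Z : A} (hZ : Z ∈ G) :
    Der T G X (Z * X * Z) (fun p q => T.τ (p * Z) * T.τ (Z * q)) := by
  have h1 := Der.mul (Der.mul (Der.coef (T := T) (X := X) hZ) (Der.var (T := T) (G := G)))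
    (Der.coef (T := T) (X := X) hZ)
  simpa using h1

theorem sdz_claim {G : Set A} {X Z : A} (hZ : Z ∈ G) (hZ2 : Z * Z = 1) {w : A} {D' : A → A → ℂ}
    (h : DerZ T Z (G ∪ {(1 / 2 : ℂ) • (X - Z * X * Z)}) ((1 / 2 : ℂ) • (X + Z * X * Z)) w D') :
    ∃ D, Der T G X w D ∧ ∀ p q, D p q + D (Z * p) (q * Z) = 2 * D' p q := by
  have c1 : ∀ p : A, T.τ (Z * p * Z) = T.τ p := tau_conj T hZ2
  have c2 : ∀ p : A, T.τ (Z * p) = T.τ (p * Z) := fun p => T.tr _ _
  have c3 : ∀ p : A, T.τ (Z * (p * Z)) = T.τ p := fun p => by rw [← mul_assoc]; exact c1 p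
  induction h with
  | one => exact ⟨_, Der.one, fun p q => by simp⟩
  | coef ha =>
    rcases ha with ha | ha
    · exact ⟨_, Der.coef ha, fun p q => by simp⟩
    · rw [Set.mem_singleton_iff] at ha
      subst ha
      have h1 := Der.smul (1 / 2 : ℂ) (Der.add (Der.var (T := T) (G := G) (X := X))
        (Der.smul (-1 : ℂ) (der_ZXZ T (X := X) hZ)))
      have e : (1 / 2 : ℂ) • (X + (-1 : ℂ) • (Z * X * Z)) = (1 / 2 : ℂ) • (X - Z * X * Z) := by
        rw [neg_one_smul, sub_eq_add_neg]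
      rw [e] at h1
      refine ⟨_, h1, fun p q => ?_⟩
      have e1 := c2 p
      have e2 := c2 q
      simp only [c1, c3]
      rw [e1, e2]
      ring
  | var =>
    have h1 := Der.smul (1 / 2 : ℂ) (Der.add (Der.var (T := T) (G := G) (X := X))
      (der_ZXZ T (X := X) hZ))
    refine ⟨_, h1, fun p q => ?_⟩
    have e1 := c2 p
    have e2 := c2 q
    simp only [c1, c3]
    rw [e1, e2]
    ring
  | add _ _ ih ih' =>
    obtain ⟨D, hD, e⟩ := ih
    obtain ⟨D', hD', e'⟩ := ih'
    exact ⟨_, Der.add hD hD', fun p q => by linear_combination e p q + e' p q⟩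
  | smul c _ ih =>
    obtain ⟨D, hD, e⟩ := ih
    exact ⟨_, Der.smul c hD, fun p q => by linear_combination c * e p q⟩
  | mul _ _ ih ih' =>
    rename_i w w' E E' _ _
    obtain ⟨D, hD, e⟩ := ih
    obtain ⟨D', hD', e'⟩ := ih'
    refine ⟨_, Der.mul hD hD', fun p q => ?_⟩
    have h1 := e' (p * w) q
    have h2 := e p (w' * q)
    rw [← mul_assoc] at h1
    rw [mul_assoc w' q Z] at h2
    linear_combination h1 + h2

end N2aX

/-- (n2.1) the diagonal part of a semicircular element is SDZ over `G` and the off-diagonal part. -/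
theorem sdz_diag {G : Set A} {X Z : A} (hZ : Z ∈ G) (hsa : IsSelfAdjoint Z) (hZ2 : Z * Z = 1)
    (h : SD T G X) :
    SDZ T Z (G ∪ {(1 / 2 : ℂ) • (X - Z * X * Z)}) ((1 / 2 : ℂ) • (X + Z * X * Z)) := by
  refine ⟨?_, fun w D' hD' => ?_⟩
  · rw [isSelfAdjoint_iff, star_smul, star_add, star_mul, star_mul, hsa.star_eq, h.1.star_eq,
      ← mul_assoc]
    congr 1
    simp
  · obtain ⟨D, hD, e⟩ := N2aX.sdz_claim T hZ hZ2 hD'
    have h1 := h.2 w D hD
    have h2 := h.2 _ _ (Der.mul (Der.mul (Der.coef (T := T) (X := X) hZ) hD)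
      (Der.coef (T := T) (X := X) hZ))
    have h3 : T.τ (Z * X * Z * w) = T.τ (X * (Z * w * Z)) := by
      rw [mul_assoc, mul_assoc, T.tr]
      congr 1
      noncomm_ring
    have h4 := e 1 1
    rw [smul_mul_assoc, map_smul, smul_eq_mul, add_mul, map_add, h1, h3, h2]
    simp only [mul_one, one_mul, zero_add, add_zero] at h4 ⊢
    linear_combination (1 / 2 : ℂ) * h4

namespace N2aX

/-! ## parity -/

/-- the word in `X` (true) and `Z` (false) -/
noncomputable def wz (X Z : A) : List Bool → A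
  | [] => 1
  | b :: L => (if b then X else Z) * wz X Z L

theorem wz_append (X Z : A) (L M : List Bool) : wz X Z (L ++ M) = wz X Z L * wz X Z M := by
  induction L with
  | nil => simp [wz]
  | cons b L ih => simp only [List.cons_append, wz, ih, mul_assoc]

/-- number of `Z`s -/
def nz (L : List Bool) : ℕ := L.count false

theorem nz_append (L M : List Bool) : nz (L ++ M) = nz L + nz M := List.count_append

theorem nz_cons_true (L : List Bool) : nz (true :: L) = nz L := by simp [nz]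
theorem nz_cons_false (L : List Bool) : nz (false :: L) = nz L + 1 := by simp [nz]

/-- the derivative of a word -/
noncomputable def dz (T : TracialState A) (X Z : A) : List Bool → A → A → ℂ
  | [] => fun _ _ => 0
  | true :: L => fun p q => dz T X Z L (p * X) q + T.τ p * T.τ (wz X Z L * q)
  | false :: L => fun p q => dz T X Z L (p * Z) q

theorem der_wz {G : Set A} {X Z : A} (hZ : Z ∈ G) : ∀ L : List Bool,
    Der T G X (wz X Z L) (dz T X Z L)
  | [] => Der.one
  | true :: L => by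
    have := Der.mul (Der.var (T := T) (G := G) (X := X)) (der_wz hZ L)
    simpa [wz, dz] using this
  | false :: L => by
    have := Der.mul (Der.coef (T := T) (X := X) hZ) (der_wz hZ L)
    simpa [wz, dz] using this

theorem dz_zero {X Z : A} {n : ℕ}
    (ih : ∀ L : List Bool, L.length ≤ n → Odd (nz L) → T.τ (wz X Z L) = 0) :
    ∀ (L P Q : List Bool), P.length + L.length + Q.length ≤ n + 1 → Odd (nz P + nz L + nz Q) →
      dz T X Z L (wz X Z P) (wz X Z Q) = 0
  | [], P, Q => fun _ _ => rfl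
  | true :: L, P, Q => fun hl ho => by
    rw [nz_cons_true] at ho
    simp only [List.length_cons] at hl
    simp only [dz]
    have h1 := dz_zero ih L (P ++ [true]) Q (by simp; omega)
      (by rw [nz_append]; simpa [nz] using ho)
    rw [wz_append] at h1
    simp only [wz, mul_one, if_true] at h1
    rw [h1, zero_add, ← wz_append]
    by_cases hP : Odd (nz P)
    · rw [ih P (by omega) hP, zero_mul]
    · rw [ih (L ++ Q) (by simp; omega), mul_zero]
      rw [nz_append]
      rw [Nat.not_odd_iff_even] at hP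
      rw [add_assoc] at ho
      exact (Nat.odd_add'.1 ho).2 hP
  | false :: L, P, Q => fun hl ho => by
    rw [nz_cons_false] at ho
    simp only [List.length_cons] at hl
    simp only [dz]
    have h1 := dz_zero ih L (P ++ [false]) Q (by simp; omega)
      (by
        rw [nz_append]
        have : nz [false] = 1 := by simp [nz]
        rw [this]
        convert ho using 1
        omega)
    rw [wz_append] at h1
    simpa [wz] using h1

theorem tau_odd {G : Set A} {X Z : A} (hZ : Z ∈ G) (hZ2 : Z * Z = 1)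
    (hτ : T.τ Z = 0) (h : SD T G X) : ∀ (n : ℕ) (L : List Bool), L.length ≤ n → Odd (nz L) →
      T.τ (wz X Z L) = 0 := by
  intro n
  induction n with
  | zero =>
    intro L hL ho
    have : L = [] := List.length_eq_zero_iff.1 (by omega)
    subst this
    simp [nz] at ho
  | succ n ih =>
    intro L hL ho
    by_cases hX : true ∈ L
    · obtain ⟨P, Q, rfl⟩ := List.append_of_mem hX
      have e : T.τ (wz X Z (P ++ true :: Q)) = T.τ (X * wz X Z (Q ++ P)) := by
        rw [wz_append, T.tr, wz_append]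
        simp only [wz, if_true, mul_assoc]
      rw [e, h.2 _ _ (der_wz T hZ (Q ++ P))]
      have := dz_zero T ih (Q ++ P) [] [] (by simp at hL ⊢; omega)
        (by
          rw [nz_append, nz_cons_true] at ho
          rw [nz_append]
          simpa [nz, add_comm] using ho)
      simpa [wz] using this
    · have hall : ∀ b ∈ L, b = false := by
        intro b hb
        cases b
        · rfl
        · exact absurd hb hX
      have hrep : L = List.replicate L.length false := List.eq_replicate_of_mem hall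
      have key : ∀ k : ℕ, wz X Z (List.replicate k false) = Z ^ k := by
        intro k
        induction k with
        | zero => simp [wz]
        | succ k ihk => rw [List.replicate_succ, wz, ihk, pow_succ']; simp
      have hodd : Odd L.length := by
        have : nz L = L.length := by
          rw [hrep]; simp [nz]
        rwa [this] at ho
      rw [hrep, key]
      obtain ⟨k, hk⟩ := hodd
      rw [hk, pow_succ, pow_mul, sq, hZ2, one_pow, one_mul, hτ]

/-- the span of the even words -/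
noncomputable def Ev (X Z : A) : Submodule ℂ A := Submodule.span ℂ {w | ∃ L, Even (nz L) ∧ w = wz X Z L}

theorem Ev_one (X Z : A) : (1 : A) ∈ Ev X Z := Submodule.subset_span ⟨[], by simp [nz], rfl⟩

theorem Ev_mul {X Z : A} {a b : A} (ha : a ∈ Ev X Z) (hb : b ∈ Ev X Z) : a * b ∈ Ev X Z := by
  have : a * b ∈ Ev X Z * Ev X Z := Submodule.mul_mem_mul ha hb
  rw [Ev, Submodule.span_mul_span] at this
  refine Submodule.span_mono ?_ this
  rintro _ ⟨_, ⟨L, hL, rfl⟩, _, ⟨M, hM, rfl⟩, rfl⟩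
  exact ⟨L ++ M, by rw [nz_append]; exact hL.add hM, (wz_append X Z L M).symm⟩

theorem tau_Z_Ev {G : Set A} {X Z : A} (hZ : Z ∈ G) (hZ2 : Z * Z = 1)
    (hτ : T.τ Z = 0) (h : SD T G X) {b : A} (hb : b ∈ Ev X Z) : T.τ (Z * b) = 0 := by
  induction hb using Submodule.span_induction with
  | mem x hx =>
    obtain ⟨L, hL, rfl⟩ := hx
    have := tau_odd T hZ hZ2 hτ h (L.length + 1) (false :: L) (by simp)
      (by rw [nz_cons_false]; exact hL.add_one)
    simpa [wz] using this
  | zero => simp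
  | add x y _ _ hx hy => rw [mul_add, map_add, hx, hy, add_zero]
  | smul c x _ hx => rw [mul_smul_comm, map_smul, hx, smul_zero]

theorem off_mem_Ev (X Z : A) (c : ℂ) : c • (X - Z * X * Z) ∈ Ev X Z := by
  refine Submodule.smul_mem _ _ (Submodule.sub_mem _ ?_ ?_)
  · exact Submodule.subset_span ⟨[true], by simp [nz], by simp [wz]⟩
  · exact Submodule.subset_span ⟨[false, true, false], by simp [nz], by simp [wz, mul_assoc]⟩

theorem off_claim {G : Set A} {X Z : A} (hZ : Z ∈ G) (hZ2 : Z * Z = 1)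
    (hτ : T.τ Z = 0) (h : SD T G X) {c : ℂ} {w : A} {D' : A → A → ℂ}
    (hd : Der T (∅ : Set A) (c • (X - Z * X * Z)) w D') :
    w ∈ Ev X Z ∧ ∃ D, Der T G X w D ∧ ∀ p ∈ Ev X Z, ∀ q ∈ Ev X Z,
      D p q - D (Z * p) (q * Z) = 2 * c * D' p q := by
  have c1 : ∀ p : A, T.τ (Z * p * Z) = T.τ p := tau_conj T hZ2
  have c2 : ∀ p : A, T.τ (Z * p) = T.τ (p * Z) := fun p => T.tr _ _
  have c3 : ∀ p : A, T.τ (Z * (p * Z)) = T.τ p := fun p => by rw [← mul_assoc]; exact c1 p
  induction hd with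
  | one => exact ⟨Ev_one X Z, _, Der.one, fun p _ q _ => by simp⟩
  | coef ha => exact absurd ha (Set.notMem_empty _)
  | var =>
    have h1 := Der.smul c (Der.add (Der.var (T := T) (G := G) (X := X))
      (Der.smul (-1 : ℂ) (der_ZXZ T (X := X) hZ)))
    have e : c • (X + (-1 : ℂ) • (Z * X * Z)) = c • (X - Z * X * Z) := by
      rw [neg_one_smul, sub_eq_add_neg]
    rw [e] at h1
    refine ⟨off_mem_Ev X Z c, _, h1, fun p hp q hq => ?_⟩
    have hp0 := tau_Z_Ev T hZ hZ2 hτ h hp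
    have hq0 := tau_Z_Ev T hZ hZ2 hτ h hq
    rw [c1, c3, hq0, hp0]
    ring
  | add _ _ ih ih' =>
    obtain ⟨hw, D, hD, e⟩ := ih
    obtain ⟨hw', D', hD', e'⟩ := ih'
    exact ⟨Submodule.add_mem _ hw hw', _, Der.add hD hD', fun p hp q hq => by
      linear_combination e p hp q hq + e' p hp q hq⟩
  | smul r _ ih =>
    obtain ⟨hw, D, hD, e⟩ := ih
    exact ⟨Submodule.smul_mem _ _ hw, _, Der.smul r hD, fun p hp q hq => by
      linear_combination r * e p hp q hq⟩
  | mul _ _ ih ih' =>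
    rename_i w w' E E' _ _
    obtain ⟨hw, D, hD, e⟩ := ih
    obtain ⟨hw', D', hD', e'⟩ := ih'
    refine ⟨Ev_mul hw hw', _, Der.mul hD hD', fun p hp q hq => ?_⟩
    have h1 := e' (p * w) (Ev_mul hp hw) q hq
    have h2 := e p hp (w' * q) (Ev_mul hw' hq)
    rw [← mul_assoc] at h1
    rw [mul_assoc w' q Z] at h2
    linear_combination h1 + h2

end N2aX

/-- (n2.2) the off-diagonal part is (up to `√2`) a scalar semicircular element. -/
theorem sd_off {G : Set A} {X Z : A} (hZ : Z ∈ G) (hsa : IsSelfAdjoint Z) (hZ2 : Z * Z = 1)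
    (hτ : T.τ Z = 0) (h : SD T G X) :
    SD T (∅ : Set A) ((((Real.sqrt 2 : ℝ) : ℂ) / 2) • (X - Z * X * Z)) := by
  have hc : (((Real.sqrt 2 : ℝ) : ℂ)) * ((Real.sqrt 2 : ℝ) : ℂ) = 2 := by
    rw [← Complex.ofReal_mul, Real.mul_self_sqrt (by norm_num)]
    norm_num
  refine ⟨?_, fun w D' hD' => ?_⟩
  · rw [isSelfAdjoint_iff, star_smul, star_sub, star_mul, star_mul, hsa.star_eq, h.1.star_eq,
      ← mul_assoc]
    congr 1
    simp [Complex.conj_ofReal]
  · obtain ⟨hw, D, hD, e⟩ := N2aX.off_claim T hZ hZ2 hτ h hD'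
    have h1 := h.2 w D hD
    have h2 := h.2 _ _ (Der.mul (Der.mul (Der.coef (T := T) (X := X) hZ) hD)
      (Der.coef (T := T) (X := X) hZ))
    have h3 : T.τ (Z * X * Z * w) = T.τ (X * (Z * w * Z)) := by
      rw [mul_assoc, mul_assoc, T.tr]
      congr 1
      noncomm_ring
    have h4 := e 1 (N2aX.Ev_one X Z) 1 (N2aX.Ev_one X Z)
    rw [smul_mul_assoc, map_smul, smul_eq_mul, sub_mul, map_sub, h1, h3, h2]
    simp only [mul_one, one_mul, zero_add, add_zero] at h4 ⊢
    rw [h4]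
    linear_combination (1 / 2 : ℂ) * D' 1 1 * hc

end Crest.Agent.R134
private theorem rz_8e88c654ec : type_of% @_root_.Crest.Agent.R134.N2aX.dz.eq_def := @_root_.Crest.Agent.R134.N2aX.dz.eq_def -- L127
private theorem rz_a539f1070c : type_of% @_root_.Crest.Agent.R134.N2aX.dz.eq_1 := @_root_.Crest.Agent.R134.N2aX.dz.eq_1 -- L127
private theorem rz_fde46704c7 : type_of% @_root_.Crest.Agent.R134.N2aX.wz.eq_def := @_root_.Crest.Agent.R134.N2aX.wz.eq_def -- L109
private theorem rz_43ae058bf2 : type_of% @_root_.Crest.Agent.R134.N2aX.wz.eq_1 := @_root_.Crest.Agent.R134.N2aX.wz.eq_1 -- L109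
end

-- ▼ part R134/N2bX
section

/-!
# R134 (n = 2): `SDZ` passes to bounded 2-norm limits of coefficients
-/

set_option autoImplicit false

universe u

namespace Crest.Agent.R134

open Crest.Agent.R95 Filter Topology Limit

variable {A : Type u} [CStarAlgebra A] (T : TracialState A)

variable {T} in
/-- elements of the algebra generated by a star closed set are coefficients -/
theorem DerZ.of_adjoinX {Z : A} {G : Set A} (hG : ∀ g ∈ G, star g ∈ G) {X a : A}
    (ha : a ∈ StarAlgebra.adjoin ℂ G) : DerZ T Z G X a (fun _ _ => 0) := by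
  have hstar : G ∪ star G = G := by
    rw [Set.union_eq_left]
    intro g hg
    have := hG _ hg
    rwa [star_star] at this
  have h1 : ∀ z, z ∈ Algebra.adjoin ℂ G → z ∈ StarAlgebra.adjoin ℂ G := by
    intro z hz
    have : z ∈ (StarAlgebra.adjoin ℂ G).toSubalgebra := by
      rw [StarAlgebra.adjoin_toSubalgebra, hstar]; exact hz
    exact this
  have ha' : a ∈ Algebra.adjoin ℂ G := by
    have h1 : a ∈ (StarAlgebra.adjoin ℂ G).toSubalgebra := ha
    rwa [StarAlgebra.adjoin_toSubalgebra, hstar] at h1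
  induction ha' using Algebra.adjoin_induction with
  | mem x hx => exact DerZ.coef hx
  | algebraMap r =>
    have := DerZ.smul (T := T) (Z := Z) (G := G) (X := X) r DerZ.one
    rw [Algebra.algebraMap_eq_smul_one]
    simpa using this
  | add x y hx' hy' hx hy => simpa using DerZ.add (hx (h1 _ hx')) (hy (h1 _ hy'))
  | mul x y hx' hy' hx hy => simpa using DerZ.mul (hx (h1 _ hx')) (hy (h1 _ hy'))

/-- polynomials with coefficients in `G ∪ G'` are limits of polynomials with coefficients in `G` -/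
theorem derZ_limit {Z : A} {G G' : Set A} {X : A} (hstar : ∀ g ∈ G, star g ∈ G)
    (hG : ∀ g ∈ G', ∃ (s : ℕ → A) (C : ℝ), (∀ k, s k ∈ StarAlgebra.adjoin ℂ G) ∧ (∀ k, ‖s k‖ ≤ C) ∧
      Tendsto (fun k => T.nrm2 (s k - g)) atTop (𝓝 0)) {w : A} {D : A → A → ℂ}
    (h : DerZ T Z (G ∪ G') X w D) : ∃ (wn : ℕ → A) (Dn : ℕ → A → A → ℂ),
      (∀ n, DerZ T Z G X (wn n) (Dn n)) ∧
      Cv T wn w ∧ ∀ (p q : ℕ → A) (p' q' : A), Cv T p p' → Cv T q q' →
        Tendsto (fun n => Dn n (p n) (q n)) atTop (𝓝 (D p' q')) := by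
  induction h with
  | one => exact ⟨fun _ => 1, fun _ _ _ => 0, fun _ => DerZ.one, Cv.const 1,
      fun _ _ _ _ _ _ => tendsto_const_nhds⟩
  | coef ha =>
    rcases ha with ha | ha
    · exact ⟨fun _ => _, fun _ _ _ => 0, fun _ => DerZ.coef ha, Cv.const _,
        fun _ _ _ _ _ _ => tendsto_const_nhds⟩
    · obtain ⟨s, C, hs, hC, hlim⟩ := hG _ ha
      exact ⟨s, fun _ _ _ => 0, fun n => DerZ.of_adjoinX hstar (hs n), ⟨⟨C, hC⟩, hlim⟩,
        fun _ _ _ _ _ _ => tendsto_const_nhds⟩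
  | var =>
    refine ⟨fun _ => X, fun _ p q => (T.τ p * T.τ q + T.τ (p * Z) * T.τ (Z * q)) / 2,
      fun _ => DerZ.var, Cv.const X, fun p q p' q' hp hq => ?_⟩
    have h1 := (hp.mul (Cv.const Z)).tau
    have h2 := ((Cv.const Z).mul hq).tau
    exact ((hp.tau.mul hq.tau).add (h1.mul h2)).div_const 2
  | add _ _ ih ih' =>
    obtain ⟨wn, Dn, h1, h2, h3⟩ := ih
    obtain ⟨wn', Dn', h1', h2', h3'⟩ := ih'
    exact ⟨fun n => wn n + wn' n, fun n p q => Dn n p q + Dn' n p q,
      fun n => DerZ.add (h1 n) (h1' n), h2.add h2', fun p q p' q' hp hq =>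
        (h3 p q p' q' hp hq).add (h3' p q p' q' hp hq)⟩
  | smul c _ ih =>
    obtain ⟨wn, Dn, h1, h2, h3⟩ := ih
    exact ⟨fun n => c • wn n, fun n p q => c * Dn n p q, fun n => DerZ.smul c (h1 n), h2.smul c,
      fun p q p' q' hp hq => (h3 p q p' q' hp hq).const_mul c⟩
  | mul _ _ ih ih' =>
    obtain ⟨wn, Dn, h1, h2, h3⟩ := ih
    obtain ⟨wn', Dn', h1', h2', h3'⟩ := ih'
    refine ⟨fun n => wn n * wn' n, fun n p q => Dn' n (p * wn n) q + Dn n p (wn' n * q),
      fun n => DerZ.mul (h1 n) (h1' n), h2.mul h2', fun p q p' q' hp hq => ?_⟩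
    exact (h3' _ _ _ _ (hp.mul h2) hq).add (h3 _ _ _ _ hp (h2'.mul hq))

/-- (n2.4) `SDZ` passes to bounded 2-norm limits of coefficients. -/
theorem SDZ.closure {Z : A} {G G' : Set A} {X : A} (h : SDZ T Z G X)
    (hG : ∀ g ∈ G', ∃ (s : ℕ → A) (C : ℝ), (∀ k, s k ∈ StarAlgebra.adjoin ℂ G) ∧ (∀ k, ‖s k‖ ≤ C) ∧
      Tendsto (fun k => T.nrm2 (s k - g)) atTop (𝓝 0)) (hstar : ∀ g ∈ G, star g ∈ G) :
    SDZ T Z (G ∪ G') X := by
  refine ⟨h.1, fun w D hD => ?_⟩
  obtain ⟨wn, Dn, h1, h2, h3⟩ := derZ_limit T hstar hG hD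
  have h4 := ((Cv.const X).mul h2).tau
  have h5 := h3 (fun _ => 1) (fun _ => 1) 1 1 (Cv.const 1) (Cv.const 1)
  refine tendsto_nhds_unique h4 (h5.congr fun n => ?_)
  exact (h.2 _ _ (h1 n)).symm

end Crest.Agent.R134
end

-- ▼ part R134/N2Pauli
section

/-!
# R134 (helper887): Pauli coordinates of a block diagonal semicircular element (`pauli_SDZ`)
-/

set_option autoImplicit false
set_option linter.unusedSectionVars false

universe u

namespace Crest.Agent.R134

open Crest.Agent.R95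

variable {A : Type u} [CStarAlgebra A] (T : TracialState A)

theorem DerZ.zero {Z : A} {G : Set A} {X : A} : DerZ T Z G X 0 (fun _ _ => 0) := by
  have := DerZ.smul (T := T) (Z := Z) (G := G) (X := X) 0 DerZ.one
  simpa using this

theorem DerZ.sum {Z : A} {G : Set A} {X : A} {α : Type*} (s : Finset α) (w : α → A)
    (D : α → A → A → ℂ) (h : ∀ k ∈ s, DerZ T Z G X (w k) (D k)) :
    DerZ T Z G X (∑ k ∈ s, w k) (fun p q => ∑ k ∈ s, D k p q) := by
  classical
  induction s using Finset.induction_on with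
  | empty => simpa using DerZ.zero (T := T)
  | insert k s hk ih =>
    simp only [Finset.sum_insert hk]
    exact DerZ.add (h k (Finset.mem_insert_self k s))
      (ih fun j hj => h j (Finset.mem_insert_of_mem hj))

section Pauli

variable {ι : Type} [Fintype ι] [DecidableEq ι] (F : PauliSys A ι)

/-- the bilinear form of the `Z`-derivative of a coordinate -/
theorem derZ_coo {G : Set A} {Z : A} (hG : ∀ i, F.f i ∈ G) (X : A) (j : ι) :
    DerZ T Z G X (coo F X j) (fun p q => ((rt ι : ℝ) : ℂ)⁻¹ *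
      ∑ h, (T.τ (p * (F.f h * F.f j)) * T.τ (F.f h * q) +
        T.τ (p * (F.f h * F.f j) * Z) * T.τ (Z * (F.f h * q))) / 2) := by
  have h1 : ∀ h : ι, DerZ T Z G X (F.f h * (F.f j * X) * F.f h)
      (fun p q => (T.τ (p * (F.f h * F.f j)) * T.τ (F.f h * q) +
        T.τ (p * (F.f h * F.f j) * Z) * T.τ (Z * (F.f h * q))) / 2) := by
    intro h
    have hd := DerZ.mul (DerZ.mul (DerZ.coef (T := T) (Z := Z) (X := X) (hG h))
      (DerZ.mul (DerZ.coef (T := T) (Z := Z) (X := X) (hG j))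
        (DerZ.var (T := T) (Z := Z) (G := G) (X := X))))
      (DerZ.coef (T := T) (Z := Z) (X := X) (hG h))
    convert hd using 1
    funext p q
    simp only [zero_add, add_zero, mul_assoc]
  have h2 := DerZ.smul (((rt ι : ℝ) : ℂ)⁻¹) (DerZ.sum T Finset.univ _ _ fun h _ => h1 h)
  convert h2 using 1
  unfold coo
  rw [F.E_def, smul_smul, rt_mul_inv F]

/-- the second half of the orthogonality computation -/
theorem sum_tau_tau_Z {p q : A} (hp : F.InQ p) (hq : F.InQ q) (z i j : ι) (hi : F.c i z = 1) :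
    ∑ h, T.τ (p * (F.f h * F.f j) * F.f z) * T.τ (F.f z * (F.f h * (q * F.f i)))
      = if j = i then T.τ p * T.τ q else 0 := by
  obtain ⟨σ, hσ⟩ := F.perm z
  choose ζ hζ1 hζ using hσ
  have h1 : ∀ h, T.τ (p * (F.f h * F.f j) * F.f z) = if σ h = j then ζ h * T.τ p else 0 := by
    intro h
    have e : T.τ (p * (F.f h * F.f j) * F.f z) = ζ h * T.τ (F.f (σ h) * F.f j * p) := by
      calc T.τ (p * (F.f h * F.f j) * F.f z) = T.τ (F.f z * (p * (F.f h * F.f j))) := T.tr _ _
        _ = T.τ (p * ((F.f z * F.f h) * F.f j)) := by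
          rw [← mul_assoc, hp z]; simp only [mul_assoc]
        _ = T.τ (p * ((ζ h • F.f (σ h)) * F.f j)) := by rw [hζ h]
        _ = ζ h * T.τ (p * (F.f (σ h) * F.f j)) := by
          rw [smul_mul_assoc, mul_smul_comm, map_smul, smul_eq_mul]
        _ = _ := by rw [T.tr p]
    rw [e, F.orth T hp]
    split_ifs <;> simp
  have h2 : ∀ h, T.τ (F.f z * (F.f h * (q * F.f i))) = if σ h = i then ζ h * T.τ q else 0 := by
    intro h
    have e : T.τ (F.f z * (F.f h * (q * F.f i))) = ζ h * T.τ (F.f (σ h) * F.f i * q) := by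
      calc T.τ (F.f z * (F.f h * (q * F.f i))) = T.τ ((F.f z * F.f h) * (F.f i * q)) := by
            rw [← hq i]; simp only [mul_assoc]
        _ = T.τ ((ζ h • F.f (σ h)) * (F.f i * q)) := by rw [hζ h]
        _ = ζ h * T.τ (F.f (σ h) * F.f i * q) := by
          rw [smul_mul_assoc, map_smul, smul_eq_mul, mul_assoc]
    rw [e, F.orth T hq]
    split_ifs <;> simp
  simp_rw [h1, h2]
  have hζi : ζ (σ.symm i) * ζ (σ.symm i) = 1 := by
    set h := σ.symm i with hh
    have hsi : σ h = i := by simp [hh]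
    have a1 : F.f z * F.f h = ζ h • F.f i := by rw [hζ h, hsi]
    have a2 : F.f i * F.f z = F.f z * F.f i := by
      have := F.comm i z
      rw [hi] at this
      simpa using this
    have a3 : F.f z * F.f h * F.f z = F.f h := by
      rw [a1, smul_mul_assoc, a2, ← mul_smul_comm, ← a1, ← mul_assoc, F.sq, one_mul]
    have a4 : (F.f z * F.f h) * (F.f z * F.f h) = 1 := by
      rw [← mul_assoc, a3, F.sq]
    rw [a1, smul_mul_smul_comm, F.sq] at a4
    have a5 := congrArg T.τ a4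
    rw [map_smul, T.one, smul_eq_mul, mul_one] at a5
    exact a5
  rw [Finset.sum_eq_single (σ.symm i)]
  · have hsi : σ (σ.symm i) = i := by simp
    rw [hsi, if_pos rfl]
    by_cases hij : j = i
    · rw [if_pos hij.symm, if_pos hij]
      linear_combination (T.τ p * T.τ q) * hζi
    · rw [if_neg (fun h => hij h.symm), if_neg hij, zero_mul]
  · intro h _ hne
    have : σ h ≠ i := by
      intro h'
      exact hne (by rw [← h']; simp)
    rw [if_neg this, mul_zero]
  · intro h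
    exact absurd (Finset.mem_univ _) h

theorem derZ_lift {G : Set A} (hG : ∀ i, F.f i ∈ G) (X : A) (z i : ι) (hi : F.c i z = 1) {w : A}
    {D' : A → A → ℂ} (h : Der T (cooG F G X i) (coo F X i) w D') :
    F.InQ w ∧ ∃ D, DerZ T (F.f z) G X w D ∧ ∀ p q, F.InQ p → F.InQ q →
      ((rt ι : ℝ) : ℂ) * D p (q * F.f i) = D' p q := by
  have h0 : ((rt ι : ℝ) : ℂ) ≠ 0 := by exact_mod_cast (rt_pos F).ne'
  have hcoo : ∀ j, ∀ p q, F.InQ p → F.InQ q → ((rt ι : ℝ) : ℂ) * (((rt ι : ℝ) : ℂ)⁻¹ *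
      ∑ h, (T.τ (p * (F.f h * F.f j)) * T.τ (F.f h * (q * F.f i)) +
        T.τ (p * (F.f h * F.f j) * F.f z) * T.τ (F.f z * (F.f h * (q * F.f i)))) / 2)
        = if j = i then T.τ p * T.τ q else 0 := by
    intro j p q hp hq
    rw [← mul_assoc, mul_inv_cancel₀ h0, one_mul, ← Finset.sum_div, Finset.sum_add_distrib,
      sum_tau_tau T F hp hq, sum_tau_tau_Z T F hp hq z i j hi]
    split_ifs <;> ring
  induction h with
  | one => exact ⟨F.inQ_one, _, DerZ.one, fun p q _ _ => by simp⟩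
  | coef ha =>
    rcases ha with ⟨ha, hQ⟩ | ⟨j, hj, rfl⟩
    · exact ⟨hQ, _, DerZ.coef ha, fun p q _ _ => by simp⟩
    · exact ⟨coo_inQ F X j, _, derZ_coo T F hG X j, fun p q hp hq => by
        have := hcoo j p q hp hq
        rwa [if_neg hj] at this⟩
  | var =>
    exact ⟨coo_inQ F X i, _, derZ_coo T F hG X i, fun p q hp hq => by
        have := hcoo i p q hp hq
        rwa [if_pos rfl] at this⟩
  | add _ _ ih ih' =>
    obtain ⟨hw, D, hD, e⟩ := ih
    obtain ⟨hw', D', hD', e'⟩ := ih'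
    exact ⟨F.inQ_add hw hw', _, DerZ.add hD hD', fun p q hp hq => by
      rw [mul_add, e p q hp hq, e' p q hp hq]⟩
  | smul c _ ih =>
    obtain ⟨hw, D, hD, e⟩ := ih
    exact ⟨F.inQ_smul c hw, _, DerZ.smul c hD, fun p q hp hq => by
      rw [mul_left_comm, e p q hp hq]⟩
  | mul _ _ ih ih' =>
    obtain ⟨hw, D, hD, e⟩ := ih
    obtain ⟨hw', D', hD', e'⟩ := ih'
    exact ⟨F.inQ_mul hw hw', _, DerZ.mul hD hD', fun p q hp hq => by
      rw [mul_add, e' _ q (F.inQ_mul hp hw) hq, ← mul_assoc, e p _ hp (F.inQ_mul hw' hq)]⟩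

theorem SDZ.coo {G : Set A} (hG : ∀ i, F.f i ∈ G) {X : A} (z : ι) (hX : SDZ T (F.f z) G X) (i : ι)
    (hi : F.c i z = 1) : SD T (cooG F G X i) (coo F X i) := by
  refine ⟨coo_sa F hX.1 i, fun w D' hD' => ?_⟩
  obtain ⟨hw, D, hD, e⟩ := derZ_lift T F hG X z i hi hD'
  have h1 : T.τ (X * (w * F.f i)) = D 1 (F.f i) := by
    have := hX.2 _ _ (DerZ.mul hD (DerZ.coef (T := T) (X := X) (hG i)))
    rw [this]
    simp
  have h2 : T.τ (R134.coo F X i * w) = ((rt ι : ℝ) : ℂ) * T.τ (X * (w * F.f i)) := by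
    unfold R134.coo
    rw [smul_mul_assoc, map_smul, smul_eq_mul, ← F.tau_E_right T hw, mul_assoc, T.tr (F.f i),
      mul_assoc]
  have h3 := e 1 1 F.inQ_one F.inQ_one
  rw [h2, h1, ← h3, one_mul]

/-- the interface form -/
theorem pauli_SDZ {G : Set A} {X Z : A}
    (hG : ∀ i, F.f i ∈ G) (z : ι) (hz : F.f z = Z) (h : SDZ T Z G X) (i : ι) (hi : F.c i z = 1) :
    SD T ({g | g ∈ G ∧ F.InQ g} ∪
        {w | ∃ k, k ≠ i ∧ w = ((Real.sqrt (Fintype.card ι) : ℝ) : ℂ) • F.E (F.f k * X)})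
      (((Real.sqrt (Fintype.card ι) : ℝ) : ℂ) • F.E (F.f i * X)) := by
  subst hz
  exact SDZ.coo T F hG z h i hi

end Pauli

end Crest.Agent.R134
end

-- ▼ part R134/N2Aux
section

/-!
R134 (helper954): auxiliary lemmas for the case `n = 2` (closedness of commutants, Pauli algebra in
tensor position, limits of automorphisms, bounded limits).
-/

set_option autoImplicit false
set_option linter.unusedSectionVars false

universe u

namespace Crest.Agent.R134

open Crest.Agent.R95 Filter Topology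

variable {A : Type u} [CStarAlgebra A] (T : TracialState A)

/-! ## commutants are closed -/

theorem eq_of_nrm2_le (hT : ∀ a : A, T.nrm2 a = 0 → a = 0) {x y : A}
    (h : ∀ ε : ℝ, 0 < ε → T.nrm2 (x - y) ≤ ε) : x = y := by
  rw [← sub_eq_zero]
  apply hT
  refine le_antisymm (le_of_forall_pos_le_add fun ε hε => ?_) (T.nrm2_nonneg _)
  rw [zero_add]; exact h ε hε

/-- commutation with a fixed element passes to 2-norm limits -/
theorem commute_of_approx (hT : ∀ a : A, T.nrm2 a = 0 → a = 0) {t z : A}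
    (h : ∀ ε : ℝ, 0 < ε → ∃ y, t * y = y * t ∧ T.nrm2 (z - y) < ε) : t * z = z * t := by
  refine eq_of_nrm2_le T hT fun ε hε => ?_
  obtain ⟨y, hy, hzy⟩ := h (ε / (2 * (‖t‖ + 1))) (by positivity)
  have e : t * z - z * t = t * (z - y) - (z - y) * t := by
    rw [mul_sub, sub_mul, hy]; abel
  rw [e]
  refine (T.nrm2_sub_le _ _).trans ?_
  have h1 := T.nrm2_mul_le_left t (z - y)
  have h2 := T.nrm2_mul_le_right (z - y) t
  have h3 : ‖t‖ * T.nrm2 (z - y) ≤ ‖t‖ * (ε / (2 * (‖t‖ + 1))) := by gcongr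
  have h4 : T.nrm2 (z - y) * ‖t‖ ≤ (ε / (2 * (‖t‖ + 1))) * ‖t‖ := by gcongr
  have h5 : ‖t‖ * (ε / (2 * (‖t‖ + 1))) ≤ ε / 2 := by
    rw [mul_div_assoc', div_le_div_iff₀ (by positivity) (by norm_num)]
    nlinarith [norm_nonneg t]
  linarith

theorem W_le_centralizer (hT : ∀ a : A, T.nrm2 a = 0 → a = 0) {S s : Set A}
    (h : S ⊆ StarSubalgebra.centralizer ℂ s) : W T S ≤ StarSubalgebra.centralizer ℂ s := by
  have hadj : StarAlgebra.adjoin ℂ S ≤ StarSubalgebra.centralizer ℂ s :=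
    StarAlgebra.adjoin_le h
  intro z hz
  rw [StarSubalgebra.mem_centralizer_iff]
  intro g hg
  constructor
  · refine commute_of_approx T hT fun ε hε => ?_
    obtain ⟨a, ha, hza⟩ := hz ε hε
    exact ⟨a, (StarSubalgebra.mem_centralizer_iff ℂ |>.1 (hadj ha) g hg).1, hza⟩
  · refine commute_of_approx T hT fun ε hε => ?_
    obtain ⟨a, ha, hza⟩ := hz ε hε
    exact ⟨a, (StarSubalgebra.mem_centralizer_iff ℂ |>.1 (hadj ha) g hg).2, hza⟩

/-- the 2-norm closure of the scalars -/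
theorem mem_W_empty (hT : ∀ a : A, T.nrm2 a = 0 → a = 0) {x : A} (hx : x ∈ W T (∅ : Set A)) :
    x = T.τ x • (1 : A) := by
  refine eq_of_nrm2_le T hT fun ε hε => ?_
  obtain ⟨a, ha, hxa⟩ := hx (ε / 2) (by positivity)
  have ha' : a ∈ (⊥ : StarSubalgebra ℂ A) :=
    StarAlgebra.adjoin_le (S := (⊥ : StarSubalgebra ℂ A)) (Set.empty_subset _) ha
  obtain ⟨c, rfl⟩ := StarSubalgebra.mem_bot.1 ha'
  have e1 : x - T.τ x • (1 : A) = (x - algebraMap ℂ A c) + (c - T.τ x) • (1 : A) := by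
    rw [sub_smul, Algebra.algebraMap_eq_smul_one]; abel
  rw [e1]
  refine (T.nrm2_add_le _ _).trans ?_
  have h2 : ‖c - T.τ x‖ ≤ T.nrm2 (x - algebraMap ℂ A c) := by
    have e2 : c - T.τ x = - T.τ ((x - algebraMap ℂ A c) * 1) := by
      rw [mul_one, map_sub, Algebra.algebraMap_eq_smul_one, map_smul, T.one]
      simp
    rw [e2, norm_neg]
    refine (T.norm_tau_mul_le _ _).trans ?_
    rw [T.nrm2_one, mul_one]
  rw [T.nrm2_smul, T.nrm2_one, mul_one]
  linarith

/-! ## Pauli systems -/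

section Pauli

variable {ι : Type} [Fintype ι] [DecidableEq ι] (F : PauliSys A ι)

theorem inQ_iff {q : A} : F.InQ q ↔ q ∈ StarSubalgebra.centralizer ℂ (Set.range F.f) := by
  rw [StarSubalgebra.mem_centralizer_iff]
  constructor
  · rintro h _ ⟨i, rfl⟩
    exact ⟨h i, by rw [F.star_f]; exact h i⟩
  · intro h i
    exact (h _ ⟨i, rfl⟩).1

theorem inQ_of_mem_W (hT : ∀ a : A, T.nrm2 a = 0 → a = 0) {S : Set A} (hS : ∀ s ∈ S, F.InQ s)
    {z : A} (hz : z ∈ W T S) : F.InQ z := by
  rw [inQ_iff]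
  exact W_le_centralizer T hT (fun s hs => (inQ_iff F).1 (hS s hs)) hz

/-- the star algebra generated by a Pauli system -/
noncomputable def pAlg : StarSubalgebra ℂ A := StarAlgebra.adjoin ℂ (Set.range F.f)

theorem pAlg_span {r : A} (hr : r ∈ pAlg F) : r ∈ Submodule.span ℂ (Set.range F.f) := by
  unfold pAlg at hr
  induction hr using StarAlgebra.adjoin_induction with
  | mem x hx => exact Submodule.subset_span hx
  | algebraMap c =>
    rw [Algebra.algebraMap_eq_smul_one, ← F.f_o]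
    exact Submodule.smul_mem _ _ (Submodule.subset_span ⟨F.o, rfl⟩)
  | add x y _ _ hx hy => exact Submodule.add_mem _ hx hy
  | mul x y _ _ hx hy =>
    have h1 : x * y ∈ Submodule.span ℂ (Set.range F.f) * Submodule.span ℂ (Set.range F.f) :=
      Submodule.mul_mem_mul hx hy
    rw [Submodule.span_mul_span] at h1
    refine Submodule.span_le.2 ?_ h1
    rintro _ ⟨_, ⟨i, rfl⟩, _, ⟨j, rfl⟩, rfl⟩
    obtain ⟨σ, hσ⟩ := F.perm i
    obtain ⟨c, -, hc⟩ := hσ j
    change F.f i * F.f j ∈ Submodule.span ℂ (Set.range F.f)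
    rw [hc]
    exact Submodule.smul_mem _ _ (Submodule.subset_span ⟨_, rfl⟩)
  | star x _ hx =>
    refine Submodule.span_induction (p := fun x _ => star x ∈ Submodule.span ℂ (Set.range F.f))
      ?_ ?_ ?_ ?_ hx
    · rintro _ ⟨i, rfl⟩
      rw [F.star_f]; exact Submodule.subset_span ⟨i, rfl⟩
    · rw [star_zero]; exact Submodule.zero_mem _
    · intro a b _ _ ha hb
      rw [star_add]; exact Submodule.add_mem _ ha hb
    · intro c a _ ha
      rw [star_smul]; exact Submodule.smul_mem _ _ ha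

theorem pAlg_comm {r q : A} (hr : r ∈ pAlg F) (hq : F.InQ q) : r * q = q * r := by
  refine Submodule.span_induction (p := fun x _ => x * q = q * x) ?_ ?_ ?_ ?_ (pAlg_span F hr)
  · rintro _ ⟨i, rfl⟩; exact hq i
  · rw [zero_mul, mul_zero]
  · intro a b _ _ ha hb; rw [add_mul, mul_add, ha, hb]
  · intro c a _ ha; rw [smul_mul_assoc, mul_smul_comm, ha]

theorem pAlg_tensorPos : TensorPos T (pAlg F : Set A) := by
  intro r hr q hq
  have hqQ : F.InQ q := fun i => hq _ (StarAlgebra.subset_adjoin ℂ _ ⟨i, rfl⟩)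
  have key : ∀ i, T.τ (F.f i * q) = T.τ (F.f i) * T.τ q := by
    intro i
    have h1 := F.orth T hqQ F.o i
    have h2 := F.orth T F.inQ_one F.o i
    rw [F.f_o, one_mul] at h1 h2
    rw [mul_one, T.one] at h2
    rw [h1, h2]
    split_ifs <;> simp
  refine Submodule.span_induction (p := fun x _ => T.τ (x * q) = T.τ x * T.τ q) ?_ ?_ ?_ ?_
    (pAlg_span F hr)
  · rintro _ ⟨i, rfl⟩; exact key i
  · rw [zero_mul, map_zero, zero_mul]
  · intro a b _ _ ha hb; rw [add_mul, map_add, map_add, add_mul, ha, hb]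
  · intro c a _ ha
    rw [smul_mul_assoc, map_smul, map_smul, ha, smul_eq_mul, smul_eq_mul, mul_assoc]

end Pauli

/-! ## bounded limits -/

/-- bounded 2-norm limits of elements of `B` -/
def BLSet (B : StarSubalgebra ℂ A) : Set A :=
  {g | ∃ (s : ℕ → A) (C : ℝ), (∀ k, s k ∈ B) ∧ (∀ k, ‖s k‖ ≤ C) ∧
    Tendsto (fun k => T.nrm2 (s k - g)) atTop (𝓝 0)}

/-- bounded 2-norm limits of elements of `B`, a star subalgebra -/
def BL (B : StarSubalgebra ℂ A) : StarSubalgebra ℂ A where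
  carrier := BLSet T B
  mul_mem' := by
    rintro x y ⟨s, C, hs, hC, hx⟩ ⟨t, D, ht, hD, hy⟩
    refine ⟨fun k => s k * t k, C * D, fun k => mul_mem (hs k) (ht k), fun k => ?_, ?_⟩
    · exact (norm_mul_le _ _).trans (mul_le_mul (hC k) (hD k) (norm_nonneg _)
        ((norm_nonneg _).trans (hC k)))
    · have h3 : Tendsto (fun k => C * T.nrm2 (t k - y) + T.nrm2 (s k - x) * ‖y‖) atTop (𝓝 0) := by
        simpa using (hy.const_mul C).add (hx.mul_const ‖y‖)
      refine squeeze_zero (fun k => T.nrm2_nonneg _) (fun k => ?_) h3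
      have e : s k * t k - x * y = s k * (t k - y) + (s k - x) * y := by noncomm_ring
      rw [e]
      refine (T.nrm2_add_le _ _).trans (add_le_add ?_ (T.nrm2_mul_le_right _ _))
      refine (T.nrm2_mul_le_left _ _).trans ?_
      exact mul_le_mul_of_nonneg_right (hC k) (T.nrm2_nonneg _)
  add_mem' := by
    rintro x y ⟨s, C, hs, hC, hx⟩ ⟨t, D, ht, hD, hy⟩
    refine ⟨fun k => s k + t k, C + D, fun k => add_mem (hs k) (ht k), fun k => ?_, ?_⟩
    · exact (norm_add_le _ _).trans (add_le_add (hC k) (hD k))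
    · have h3 : Tendsto (fun k => T.nrm2 (s k - x) + T.nrm2 (t k - y)) atTop (𝓝 0) := by
        simpa using hx.add hy
      refine squeeze_zero (fun k => T.nrm2_nonneg _) (fun k => ?_) h3
      have e : s k + t k - (x + y) = (s k - x) + (t k - y) := by abel
      rw [e]
      exact T.nrm2_add_le _ _
  algebraMap_mem' := by
    intro r
    refine ⟨fun _ => algebraMap ℂ A r, ‖algebraMap ℂ A r‖, fun _ => algebraMap_mem _ r,
      fun _ => le_rfl, ?_⟩
    simp [T.nrm2_zero]
  star_mem' := by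
    rintro x ⟨s, C, hs, hC, hx⟩
    refine ⟨fun k => star (s k), C, fun k => star_mem (hs k), fun k => ?_, ?_⟩
    · rw [norm_star]; exact hC k
    · refine hx.congr fun k => ?_
      rw [← star_sub, T.nrm2_star]

theorem subset_BL (B : StarSubalgebra ℂ A) : B ≤ BL T B := by
  intro x hx
  refine ⟨fun _ => x, ‖x‖, fun _ => hx, fun _ => le_rfl, ?_⟩
  simp [T.nrm2_zero]

/-! ## limits of automorphisms -/

/-- `α_k z → z'` in 2-norm -/
def Lim (α : ℕ → (A ≃⋆ₐ[ℂ] A)) (z z' : A) : Prop :=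
  Tendsto (fun k => T.nrm2 (α k z - z')) atTop (𝓝 0)

variable {T}

theorem Lim.unique (hT : ∀ a : A, T.nrm2 a = 0 → a = 0) {α : ℕ → (A ≃⋆ₐ[ℂ] A)} {z x y : A}
    (hx : Lim T α z x) (hy : Lim T α z y) : x = y := by
  refine eq_of_nrm2_le T hT fun ε hε => ?_
  have h1 : ∀ᶠ k in atTop, T.nrm2 (α k z - x) < ε / 2 := hx.eventually_lt_const (by positivity)
  have h2 : ∀ᶠ k in atTop, T.nrm2 (α k z - y) < ε / 2 := hy.eventually_lt_const (by positivity)
  obtain ⟨k, hk1, hk2⟩ := (h1.and h2).exists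
  have h3 := T.nrm2_triangle x (α k z) y
  rw [T.nrm2_sub_comm x (α k z)] at h3
  linarith

theorem Lim.of_fixes {α : ℕ → (A ≃⋆ₐ[ℂ] A)} {z : A} (h : ∀ k, α k z = z) : Lim T α z z := by
  unfold Lim
  simp [h, T.nrm2_zero]

theorem Lim.add {α : ℕ → (A ≃⋆ₐ[ℂ] A)} {x x' y y' : A} (hx : Lim T α x x') (hy : Lim T α y y') :
    Lim T α (x + y) (x' + y') := by
  have h3 : Tendsto (fun k => T.nrm2 (α k x - x') + T.nrm2 (α k y - y')) atTop (𝓝 0) := by
    simpa using Tendsto.add hx hy
  refine squeeze_zero (fun k => T.nrm2_nonneg _) (fun k => ?_) h3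
  have e : α k (x + y) - (x' + y') = (α k x - x') + (α k y - y') := by rw [map_add]; abel
  rw [e]
  exact T.nrm2_add_le _ _

theorem Lim.mul {α : ℕ → (A ≃⋆ₐ[ℂ] A)} {x x' y y' : A} (hx : Lim T α x x') (hy : Lim T α y y') :
    Lim T α (x * y) (x' * y') := by
  have h3 : Tendsto (fun k => ‖x‖ * T.nrm2 (α k y - y') + T.nrm2 (α k x - x') * ‖y'‖) atTop
      (𝓝 0) := by
    simpa using (Tendsto.const_mul ‖x‖ hy).add (Tendsto.mul_const ‖y'‖ hx)
  refine squeeze_zero (fun k => T.nrm2_nonneg _) (fun k => ?_) h3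
  have e : α k (x * y) - x' * y' = α k x * (α k y - y') + (α k x - x') * y' := by
    rw [map_mul]; noncomm_ring
  rw [e]
  refine (T.nrm2_add_le _ _).trans (add_le_add ?_ (T.nrm2_mul_le_right _ _))
  refine (T.nrm2_mul_le_left _ _).trans ?_
  rw [StarAlgEquiv.norm_map]

theorem Lim.st {α : ℕ → (A ≃⋆ₐ[ℂ] A)} {x x' : A} (hx : Lim T α x x') :
    Lim T α (star x) (star x') := by
  refine Tendsto.congr (fun k => ?_) hx
  rw [map_star, ← star_sub, T.nrm2_star]

theorem Lim.one {α : ℕ → (A ≃⋆ₐ[ℂ] A)} : Lim T α 1 1 := Lim.of_fixes fun _ => map_one _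

/-- limits of automorphisms exist on `W T S` as soon as they exist on `S` -/
theorem exists_lim (hT : Amb T) {α : ℕ → (A ≃⋆ₐ[ℂ] A)} (hα : ∀ k, Pres T (α k)) {S S' : Set A}
    (h : ∀ s ∈ S, ∃ s' ∈ W T S', Lim T α s s') {z : A} (hz : z ∈ W T S) :
    ∃ z' ∈ W T S', Lim T α z z' := by
  have hadj : ∀ z ∈ StarAlgebra.adjoin ℂ S, ∃ z' ∈ W T S', Lim T α z z' := by
    intro z hz
    induction hz using StarAlgebra.adjoin_induction with
    | mem x hx => exact h x hx
    | algebraMap r =>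
      refine ⟨algebraMap ℂ A r, algebraMap_mem _ r, Lim.of_fixes fun _ => ?_⟩
      rw [Algebra.algebraMap_eq_smul_one, map_smul, map_one]
    | add x y _ _ hx hy =>
      obtain ⟨x', hx', h1⟩ := hx
      obtain ⟨y', hy', h2⟩ := hy
      exact ⟨x' + y', add_mem hx' hy', h1.add h2⟩
    | mul x y _ _ hx hy =>
      obtain ⟨x', hx', h1⟩ := hx
      obtain ⟨y', hy', h2⟩ := hy
      exact ⟨x' * y', mul_mem hx' hy', h1.mul h2⟩
    | star x _ hx =>
      obtain ⟨x', hx', h1⟩ := hx
      exact ⟨star x', star_mem hx', h1.st⟩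
  -- Cauchy
  obtain ⟨z', hz'n, hz'⟩ := hT.complete (fun k => α k z) ‖z‖
    (fun k => (StarAlgEquiv.norm_map (α k) z).le) (by
      intro ε hε
      obtain ⟨a, ha, hza⟩ := hz (ε / 4) (by positivity)
      obtain ⟨a', -, haa'⟩ := hadj a ha
      have h1 : ∀ᶠ k in atTop, T.nrm2 (α k a - a') < ε / 4 :=
        haa'.eventually_lt_const (by positivity)
      obtain ⟨K, hK⟩ := eventually_atTop.1 h1
      refine ⟨K, fun k hk l hl => ?_⟩
      have e1 : T.nrm2 (α k z - α k a) < ε / 4 := by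
        rw [← map_sub, (hα k).nrm2]; exact hza
      have e2 : T.nrm2 (α l z - α l a) < ε / 4 := by
        rw [← map_sub, (hα l).nrm2]; exact hza
      have h3 := T.nrm2_triangle (α k z) (α k a) (α l z)
      have h4 := T.nrm2_triangle (α k a) a' (α l z)
      have h5 := T.nrm2_triangle a' (α l a) (α l z)
      rw [T.nrm2_sub_comm a' (α l a), T.nrm2_sub_comm (α l a) (α l z)] at h5
      linarith [hK k hk, hK l hl])
  refine ⟨z', mem_W_of_approx T fun ε hε => ?_, hz'⟩
  obtain ⟨a, ha, hza⟩ := hz (ε / 4) (by positivity)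
  obtain ⟨a', ha'W, haa'⟩ := hadj a ha
  refine ⟨a', ha'W, ?_⟩
  have h1 : ∀ᶠ k in atTop, T.nrm2 (α k a - a') < ε / 4 :=
    haa'.eventually_lt_const (by positivity)
  have h2 : ∀ᶠ k in atTop, T.nrm2 (α k z - z') < ε / 4 :=
    hz'.eventually_lt_const (by positivity)
  obtain ⟨k, hk1, hk2⟩ := (h1.and h2).exists
  have e1 : T.nrm2 (α k z - α k a) < ε / 4 := by
    rw [← map_sub, (hα k).nrm2]; exact hza
  have h3 := T.nrm2_triangle z' (α k z) a'
  have h4 := T.nrm2_triangle (α k z) (α k a) a'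
  rw [T.nrm2_sub_comm z' (α k z)] at h3
  linarith

/-! ## limits of free Haar unitaries -/

theorem Lim.unitary (hT : ∀ a : A, T.nrm2 a = 0 → a = 0) {α : ℕ → (A ≃⋆ₐ[ℂ] A)} {u u' : A}
    (hu : u ∈ unitary A) (h : Lim T α u u') : u' ∈ unitary A := by
  rw [Unitary.mem_iff] at hu ⊢
  constructor
  · have h1 : Lim T α (star u * u) (star u' * u') := h.st.mul h
    rw [hu.1] at h1
    exact h1.unique hT Lim.one
  · have h1 : Lim T α (u * star u) (u' * star u') := h.mul h.st
    rw [hu.2] at h1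
    exact h1.unique hT Lim.one

theorem FreeHaar.lim (hT : ∀ a : A, T.nrm2 a = 0 → a = 0) {α : ℕ → (A ≃⋆ₐ[ℂ] A)}
    (hα : ∀ k, Pres T (α k)) {G : Set A} (hG : ∀ k, Fixes (α k) G) {u u' : A}
    (hu : FreeHaar T G u) (h : Lim T α u u') : FreeHaar T G u' := by
  refine ⟨h.unitary hT hu.1, fun L hL hLG hA => ?_⟩
  have hw : ∀ L : List (Bool × A), (∀ p ∈ L, p.2 ∈ G) → Lim T α (word u L) (word u' L) := by
    intro L hL
    induction L with
    | nil => exact Lim.one
    | cons p L ih =>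
      obtain ⟨b, a⟩ := p
      have hsg : Lim T α (sg u b) (sg u' b) := by
        cases b
        · exact h.st
        · exact h
      exact (hsg.mul (Lim.of_fixes fun k => hG k a (hL (b, a) (by simp)))).mul
        (ih fun p hp => hL p (by simp [hp]))
  have h0 := hu.2 L hL hLG hA
  have h1 := hw L hLG
  rw [← norm_le_zero_iff]
  refine le_of_forall_pos_le_add fun ε hε => ?_
  rw [zero_add]
  have h2 : ∀ᶠ k in atTop, T.nrm2 (α k (word u L) - word u' L) < ε :=
    h1.eventually_lt_const hε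
  obtain ⟨k, hk⟩ := h2.exists
  have h3 : T.τ (word u' L) = - T.τ ((α k (word u L) - word u' L) * 1) := by
    rw [mul_one, map_sub, hα k, h0]; ring
  rw [h3, norm_neg]
  refine (T.norm_tau_mul_le _ _).trans ?_
  rw [T.nrm2_one, mul_one]
  exact hk.le

end Crest.Agent.R134
end

-- ▼ part R134/N2Final

/-!
R134 (helper954): the conclusion for `n = 2` in the abstract frame.
-/

set_option autoImplicit false
set_option linter.unusedSectionVars false
set_option linter.unusedVariables false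

universe u

namespace Crest.Agent.R134

open Crest.Agent.R95 Filter Topology

variable {A : Type u} [CStarAlgebra A] {T : TracialState A}

/-- `SD` passes to the 2-norm closure of the coefficients -/
theorem SD.toW (hT : Amb T) {S : Set A} (hS : ∀ s ∈ S, star s ∈ S) {x : A} (h : SD T S x) :
    SD T (W T S : Set A) x := by
  have h1 := FreeHaar.closure T (SD.freeHaar T hT hS h)
  obtain ⟨X, hX, -, huu, -⟩ := Conv.exists_semicircular hT h1
  have h2 : X = x := SD.uu_inj T hT (fun s hs => star_mem hs) hS hX h huu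
  rw [← h2]; exact hX

/-- the off-diagonal part, normalised -/
noncomputable def offY (Z X : A) : A := (((Real.sqrt 2 : ℝ) : ℂ) / 2) • (X - Z * X * Z)
noncomputable def offX (Z X : A) : A := (1 / 2 : ℂ) • (X - Z * X * Z)
noncomputable def dgX (Z X : A) : A := (1 / 2 : ℂ) • (X + Z * X * Z)

theorem sqrt2_ne : ((Real.sqrt 2 : ℝ) : ℂ) ≠ 0 := by
  have : Real.sqrt 2 ≠ 0 := by positivity
  exact_mod_cast this

theorem offY_eq (Z X : A) : offY Z X = ((Real.sqrt 2 : ℝ) : ℂ) • offX Z X := by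
  unfold offY offX
  rw [smul_smul]; congr 1; ring

theorem offX_eq (Z X : A) : offX Z X = ((Real.sqrt 2 : ℝ) : ℂ)⁻¹ • offY Z X := by
  rw [offY_eq, smul_smul, inv_mul_cancel₀ sqrt2_ne, one_smul]

theorem off_add_dg (Z X : A) : offX Z X + dgX Z X = X := by
  unfold offX dgX
  rw [← smul_add]
  have : X - Z * X * Z + (X + Z * X * Z) = (2 : ℂ) • X := by rw [two_smul]; abel
  rw [this, smul_smul]; norm_num

/-- the data for `n = 2` -/
structure Ctx (T : TracialState A) (a b c Z V X C : A) : Prop where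
  ha : a ∈ unitary A
  a0 : ∀ k : ℕ, 0 < k → T.τ (a ^ k) = 0
  Zmem : Z ∈ W T {a}
  Zsa : star Z = Z
  Z2 : Z * Z = 1
  Za : ∀ k : ℕ, T.τ (Z * a ^ (2 * k)) = 0
  hX : SD T (W T {a, c} : Set A) X
  Xb : X ∈ W T {b}
  bX : uu X = b
  hC : SD T (W T {a, b} : Set A) C
  Cc : C ∈ W T {c}
  cC : uu C = c
  Vsa : star V = V
  V2 : V * V = 1
  VZ : V * Z = -(Z * V)
  VY : V ∈ W T {offY Z X}
  lim : ∃ p : ℕ → Polynomial ℂ, (∀ k, ‖Polynomial.aeval (offY Z X) (p k)‖ ≤ 2) ∧
    Tendsto (fun k => T.nrm2 (Polynomial.aeval (offY Z X) (p k) - V)) atTop (𝓝 0)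
  gen : ∀ z, z ∈ W T {a, b, c}

namespace Ctx

variable {a b c Z V X C : A} (h : Ctx T a b c Z V X C)

/-- the Pauli system `1, Z, V, iZV` -/
noncomputable def F : PauliSys A (Fin 4) :=
  PauliSys.pair Z V h.Zsa h.Vsa h.Z2 h.V2 h.VZ

include h

theorem f0 : h.F.f 0 = 1 := rfl
theorem f1 : h.F.f 1 = Z := rfl
theorem f2 : h.F.f 2 = V := rfl

theorem f_mem (B : StarSubalgebra ℂ A) (hZ : Z ∈ B) (hV : V ∈ B) (i : Fin 4) : h.F.f i ∈ B :=
  PauliSys.pair_f_mem B.toSubalgebra hZ hV i

theorem Z_ab : Z ∈ W T {a, b} := W_mono T (by intro x hx; simp at hx; simp [hx]) h.Zmem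

theorem X_ab : X ∈ W T {a, b} := W_mono T (by intro x hx; simp at hx; simp [hx]) h.Xb

theorem offY_ab : offY Z X ∈ W T {a, b} := by
  unfold offY
  exact (W T {a, b}).smul_mem (sub_mem h.X_ab (mul_mem (mul_mem h.Z_ab h.X_ab) h.Z_ab)) _

theorem V_ab : V ∈ W T {a, b} :=
  W_le T (by intro x hx; rw [Set.mem_singleton_iff] at hx; rw [hx]; exact h.offY_ab) h.VY

theorem Xsa : star X = X := h.hX.1

theorem Ysa : star (offY Z X) = offY Z X := by
  unfold offY
  rw [star_smul, star_sub, star_mul, star_mul, h.Xsa, h.Zsa, ← mul_assoc]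
  congr 1
  rw [RCLike.star_def, map_div₀, Complex.conj_ofReal, map_ofNat]

theorem ZYZ : Z * offY Z X * Z = - offY Z X := by
  unfold offY
  rw [mul_smul_comm, smul_mul_assoc, ← smul_neg]
  congr 1
  calc Z * (X - Z * X * Z) * Z = Z * X * Z - (Z * Z) * X * (Z * Z) := by noncomm_ring
    _ = -(X - Z * X * Z) := by rw [h.Z2]; noncomm_ring

theorem inQ_of {q : A} (hZ : Z * q = q * Z) (hV : V * q = q * V) : h.F.InQ q := by
  intro i
  fin_cases i
  · change (1 : A) * q = q * 1
    rw [one_mul, mul_one]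
  · exact hZ
  · exact hV
  · change (Complex.I • (Z * V)) * q = q * (Complex.I • (Z * V))
    rw [smul_mul_assoc, mul_smul_comm, mul_assoc, hV, ← mul_assoc, hZ, mul_assoc]

theorem ZV : Z * V = -(V * Z) := by rw [h.VZ, neg_neg]

theorem V_comm_Y (hT : Amb T) : V * offY Z X = offY Z X * V := by
  have h1 : V ∈ StarSubalgebra.centralizer ℂ ({offY Z X} : Set A) := by
    refine W_le_centralizer T hT.faithful ?_ h.VY
    intro z hz
    rw [Set.mem_singleton_iff] at hz
    subst hz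
    rw [SetLike.mem_coe, StarSubalgebra.mem_centralizer_iff]
    intro g hg
    rw [Set.mem_singleton_iff] at hg
    subst hg
    exact ⟨rfl, by rw [h.Ysa]⟩
  exact ((StarSubalgebra.mem_centralizer_iff ℂ).1 h1 _ rfl).1.symm

/-- `|Y| = V Y` commutes with the Pauli system -/
theorem VY_inQ (hT : Amb T) : h.F.InQ (V * offY Z X) := by
  refine h.inQ_of ?_ ?_
  · calc Z * (V * offY Z X) = (Z * V) * offY Z X := by rw [mul_assoc]
      _ = -(V * (Z * offY Z X)) := by rw [h.ZV]; noncomm_ring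
      _ = -(V * (Z * offY Z X * (Z * Z))) := by rw [h.Z2, mul_one]
      _ = -(V * ((Z * offY Z X * Z) * Z)) := by noncomm_ring
      _ = V * offY Z X * Z := by rw [h.ZYZ]; noncomm_ring
  · rw [mul_assoc, ← h.V_comm_Y hT, ← mul_assoc]

/-! ### the coefficient sets -/

/-- words in `W{a}`, `Y`, `V` -/
noncomputable def Bs (a Z V X : A) (T : TracialState A) : StarSubalgebra ℂ A :=
  StarAlgebra.adjoin ℂ ((W T {a} : Set A) ∪ {offY Z X, V})

theorem a_Bs : a ∈ Bs a Z V X T :=
  StarAlgebra.subset_adjoin ℂ _ (Or.inl (subset_W T _ rfl))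

theorem Z_Bs : Z ∈ Bs a Z V X T := StarAlgebra.subset_adjoin ℂ _ (Or.inl h.Zmem)

theorem V_Bs : V ∈ Bs a Z V X T := StarAlgebra.subset_adjoin ℂ _ (Or.inr (Or.inr rfl))

theorem Y_Bs : offY Z X ∈ Bs a Z V X T := StarAlgebra.subset_adjoin ℂ _ (Or.inr (Or.inl rfl))

theorem Bs_le : Bs a Z V X T ≤ W T {a, b} := by
  refine StarAlgebra.adjoin_le ?_
  rintro x (hx | hx)
  · exact W_mono T (by intro x hx; simp at hx; simp [hx]) hx
  · rcases hx with rfl | hx
    · exact h.offY_ab
    · rw [Set.mem_singleton_iff] at hx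
      subst hx
      exact h.V_ab

/-- the coefficients for the diagonal part -/
noncomputable def G1 (a c Z X : A) (T : TracialState A) : Set A :=
  (W T {a, c} : Set A) ∪ {offX Z X}

noncomputable def Bl (a c Z X : A) (T : TracialState A) : StarSubalgebra ℂ A :=
  BL T (StarAlgebra.adjoin ℂ (G1 a c Z X T))

theorem offX_adj : offX Z X ∈ StarAlgebra.adjoin ℂ (G1 a c Z X T) :=
  StarAlgebra.subset_adjoin ℂ _ (Or.inr rfl)

theorem offY_adj : offY Z X ∈ StarAlgebra.adjoin ℂ (G1 a c Z X T) := by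
  rw [offY_eq]; exact (StarAlgebra.adjoin ℂ (G1 a c Z X T)).smul_mem h.offX_adj _

theorem V_Bl : V ∈ Bl a c Z X T := by
  obtain ⟨p, hp, hlim⟩ := h.lim
  refine ⟨fun k => Polynomial.aeval (offY Z X) (p k), 2, fun k => ?_, hp, hlim⟩
  have h1 : Polynomial.aeval (offY Z X) (p k) ∈
      (StarAlgebra.adjoin ℂ (G1 a c Z X T)).toSubalgebra :=
    Algebra.adjoin_le (Set.singleton_subset_iff.2 h.offY_adj)
      (Polynomial.aeval_mem_adjoin_singleton ℂ (offY Z X))
  exact h1

theorem W_ac_Bl : W T {a, c} ≤ Bl a c Z X T := fun x hx =>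
  subset_BL T _ (StarAlgebra.subset_adjoin ℂ _ (Or.inl hx))

theorem Bs_Bl : Bs a Z V X T ≤ Bl a c Z X T := by
  refine StarAlgebra.adjoin_le ?_
  rintro x (hx | hx)
  · exact h.W_ac_Bl (W_mono T (by intro x hx; simp at hx; simp [hx]) hx)
  · rcases hx with rfl | hx
    · exact subset_BL T _ h.offY_adj
    · rw [Set.mem_singleton_iff] at hx
      subst hx
      exact h.V_Bl

theorem G1_star : ∀ g ∈ G1 a c Z X T, star g ∈ G1 a c Z X T := by
  rintro g (hg | hg)
  · exact Or.inl (star_mem hg)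
  · rw [Set.mem_singleton_iff] at hg
    subst hg
    refine Or.inr ?_
    rw [Set.mem_singleton_iff, offX_eq, star_smul, h.Ysa]
    congr 1
    rw [RCLike.star_def, map_inv₀, Complex.conj_ofReal]

/-- the basic Schwinger-Dyson fact for the two coordinates of the diagonal part -/
theorem sd_coo (i : Fin 4) (hi : h.F.c i 1 = 1) :
    SD T ({g | g ∈ Bl a c Z X T ∧ h.F.InQ g} ∪ {w | ∃ k, k ≠ i ∧ w = coo h.F (dgX Z X) k})
      (coo h.F (dgX Z X) i) := by
  have h1 := sdz_diag T (G := (W T {a, c} : Set A)) (X := X) (Z := Z)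
    (W_mono T (by intro x hx; simp at hx; simp [hx]) h.Zmem) h.Zsa h.Z2 h.hX
  have h2 := SDZ.closure T (G' := (Bl a c Z X T : Set A)) h1 (fun g hg => hg) h.G1_star
  have h3 := pauli_SDZ T h.F (fun j => Or.inr ?_) 1 rfl h2 i hi
  · refine SD.mono ?_ h3
    rintro g (⟨hg, hQ⟩ | hg)
    · exact Or.inl ⟨Or.inr hg, hQ⟩
    · exact Or.inr hg
  · exact h.f_mem _ (h.Bs_Bl h.Z_Bs) h.V_Bl j

/-! ### the data of the main theorem -/

/-- the coefficient set -/
noncomputable def S (h : Ctx T a b c Z V X C) : Set A :=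
  {g | g ∈ Bs a Z V X T ∧ h.F.InQ g} ∪ {coo h.F (dgX Z X) 0}

omit h in
theorem dgX_mem (B : StarSubalgebra ℂ A) (hZ : Z ∈ B) (hX : X ∈ B) : dgX Z X ∈ B := by
  unfold dgX
  exact B.smul_mem (add_mem hX (mul_mem (mul_mem hZ hX) hZ)) _

theorem dgXsa : star (dgX Z X) = dgX Z X := by
  unfold dgX
  rw [star_smul, star_add, star_mul, star_mul, h.Xsa, h.Zsa, ← mul_assoc]
  congr 1
  rw [RCLike.star_def, map_div₀, map_one, map_ofNat]

theorem S_inQ : ∀ s ∈ h.S, h.F.InQ s := by
  rintro s (hs | hs)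
  · exact hs.2
  · rw [Set.mem_singleton_iff] at hs
    subst hs
    exact coo_inQ h.F _ _

theorem S_ab : h.S ⊆ W T {a, b} := by
  rintro s (hs | hs)
  · exact h.Bs_le hs.1
  · rw [Set.mem_singleton_iff] at hs
    subst hs
    exact coo_mem h.F _ (h.f_mem _ h.Z_ab h.V_ab) (dgX_mem _ h.Z_ab h.X_ab) _

theorem S_star : ∀ s ∈ h.S, star s ∈ h.S := by
  rintro s (hs | hs)
  · exact Or.inl ⟨star_mem hs.1, h.F.inQ_star hs.2⟩
  · rw [Set.mem_singleton_iff] at hs
    subst hs
    refine Or.inr ?_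
    rw [Set.mem_singleton_iff]
    exact coo_sa h.F h.dgXsa 0

/-- the targets -/
noncomputable def y (h : Ctx T a b c Z V X C) (j : Fin 4) : A := coo h.F C j

theorem y_Bl (j : Fin 4) : h.y j ∈ Bl a c Z X T := by
  refine coo_mem h.F _ (h.f_mem _ (h.Bs_Bl h.Z_Bs) h.V_Bl) (h.W_ac_Bl ?_) _
  exact W_mono T (by intro x hx; simp at hx; simp [hx]) h.Cc

theorem sd_x : SD T (h.S ∪ Set.range h.y) (coo h.F (dgX Z X) 1) := by
  refine SD.mono ?_ (h.sd_coo 1 (by simp [F, PauliSys.pair, PauliSys.sign4]))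
  rintro g ((hg | hg) | ⟨j, rfl⟩)
  · exact Or.inl ⟨h.Bs_Bl hg.1, hg.2⟩
  · exact Or.inr ⟨0, by decide, hg⟩
  · exact Or.inl ⟨h.y_Bl j, coo_inQ h.F _ _⟩

theorem Sy_star : ∀ s ∈ h.S ∪ Set.range h.y, star s ∈ h.S ∪ Set.range h.y := by
  rintro s (hs | ⟨j, rfl⟩)
  · exact Or.inl (h.S_star s hs)
  · refine Or.inr ⟨j, ?_⟩
    exact (coo_sa h.F h.hC.1 j).symm

theorem sd_xW (hT : Amb T) :
    SD T ((W T h.S : Set A) ∪ Set.range h.y) (coo h.F (dgX Z X) 1) := by
  refine SD.mono ?_ (SD.toW hT h.Sy_star h.sd_x)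
  rintro g (hg | hg)
  · exact W_mono T Set.subset_union_left hg
  · exact subset_W T _ (Or.inr hg)

theorem WS_inQ (hT : Amb T) {q : A} (hq : q ∈ W T h.S) : h.F.InQ q :=
  inQ_of_mem_W T h.F hT.faithful h.S_inQ hq

theorem WS_ab {q : A} (hq : q ∈ W T h.S) : q ∈ W T {a, b} := W_le T h.S_ab hq

theorem sd_yW (hT : Amb T) (j : Fin 4) :
    SD T ((W T h.S : Set A) ∪ {coo h.F (dgX Z X) 1} ∪ {z | ∃ l, l ≠ j ∧ z = h.y l}) (h.y j) := by
  refine SD.mono ?_ (SD.coo T h.F (h.f_mem _ h.Z_ab h.V_ab) h.hC j)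
  rintro g ((hg | hg) | ⟨l, hl, rfl⟩)
  · exact Or.inl ⟨h.WS_ab hg, h.WS_inQ hT hg⟩
  · rw [Set.mem_singleton_iff] at hg
    subst hg
    exact Or.inl ⟨coo_mem h.F _ (h.f_mem _ h.Z_ab h.V_ab) (dgX_mem _ h.Z_ab h.X_ab) _,
      coo_inQ h.F _ _⟩
  · exact Or.inr ⟨l, hl, rfl⟩

/-! ### Haar unitary in the coefficients -/

/-- `e = (1 + Z)/2` -/
noncomputable def e (Z : A) : A := (1 / 2 : ℂ) • (1 + Z)

theorem ee : e Z * e Z = e Z := by
  unfold e
  rw [smul_mul_smul_comm]
  have : (1 + Z) * (1 + Z) = (2 : ℂ) • (1 + Z) := by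
    rw [two_smul]
    calc (1 + Z) * (1 + Z) = 1 + Z + Z + Z * Z := by noncomm_ring
      _ = _ := by rw [h.Z2]; abel
  rw [this, smul_smul]; norm_num

theorem e_star : star (e Z) = e Z := by
  unfold e
  rw [star_smul, star_add, star_one, h.Zsa]
  congr 1
  rw [RCLike.star_def, map_div₀, map_one, map_ofNat]

theorem VeV : V * e Z * V = 1 - e Z := by
  unfold e
  rw [mul_smul_comm, smul_mul_assoc]
  have h1 : V * (1 + Z) * V = 1 - Z := by
    calc V * (1 + Z) * V = V * V + (V * Z) * V := by noncomm_ring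
      _ = V * V + -(Z * (V * V)) := by rw [h.VZ]; noncomm_ring
      _ = 1 - Z := by rw [h.V2]; noncomm_ring
  have h3 : (1 / 2 : ℂ) • (1 : A) + (1 / 2 : ℂ) • (1 : A) = 1 := by
    rw [← add_smul]; norm_num
  rw [h1, smul_sub, smul_add, eq_sub_iff_add_eq]
  conv_rhs => rw [← h3]
  abel

theorem eVe : e Z * V * e Z = 0 := by
  have h1 : V * e Z = (1 - e Z) * V := by
    rw [← h.VeV, mul_assoc, h.V2, mul_one]
  rw [mul_assoc, h1, ← mul_assoc, mul_sub, mul_one, h.ee, sub_self, zero_mul]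

theorem a_comm_Z (hT : Amb T) : a * Z = Z * a := by
  have h1 : Z ∈ StarSubalgebra.centralizer ℂ ({a} : Set A) := by
    refine W_le_centralizer T hT.faithful ?_ h.Zmem
    intro z hz
    rw [Set.mem_singleton_iff] at hz
    subst hz
    rw [SetLike.mem_coe, StarSubalgebra.mem_centralizer_iff]
    intro g hg
    rw [Set.mem_singleton_iff] at hg
    subst hg
    exact ⟨rfl, by rw [(Unitary.mem_iff.1 h.ha).1, (Unitary.mem_iff.1 h.ha).2]⟩
  exact ((StarSubalgebra.mem_centralizer_iff ℂ).1 h1 _ rfl).1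

theorem a_comm_e (hT : Amb T) : Commute a (e Z) := by
  unfold e
  have h1 : Commute a Z := h.a_comm_Z hT
  exact ((Commute.one_right a).add_right h1).smul_right _

theorem star_a_comm_e (hT : Amb T) : Commute (star a) (e Z) := by
  have := (h.a_comm_e hT).star_star
  rwa [h.e_star] at this

/-- the Haar unitary `a² e + V a² e V` -/
noncomputable def hh (a Z V : A) : A := a ^ 2 * e Z + V * (a ^ 2 * e Z) * V

theorem hh_pow (hT : Amb T) (k : ℕ) (hk : 0 < k) :
    hh a Z V ^ k = a ^ (2 * k) * e Z + V * (a ^ (2 * k) * e Z) * V := by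
  have hc : ∀ n : ℕ, e Z * a ^ n = a ^ n * e Z := fun n => ((h.a_comm_e hT).pow_left n).eq.symm
  induction k with
  | zero => exact absurd hk (lt_irrefl 0)
  | succ k ih =>
    rcases Nat.eq_zero_or_pos k with rfl | hk'
    · simp [hh]
    · rw [pow_succ, ih hk']
      unfold hh
      have e1 : a ^ (2 * k) * e Z * (a ^ 2 * e Z) = a ^ (2 * (k + 1)) * e Z := by
        calc a ^ (2 * k) * e Z * (a ^ 2 * e Z) = a ^ (2 * k) * (e Z * a ^ 2) * e Z := by
              simp only [mul_assoc]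
          _ = a ^ (2 * k) * a ^ 2 * (e Z * e Z) := by rw [hc]; simp only [mul_assoc]
          _ = _ := by rw [h.ee, ← pow_add]; ring_nf
      have e2 : a ^ (2 * k) * e Z * (V * (a ^ 2 * e Z) * V) = 0 := by
        calc a ^ (2 * k) * e Z * (V * (a ^ 2 * e Z) * V)
            = a ^ (2 * k) * e Z * (V * (e Z * a ^ 2) * V) := by rw [hc]
          _ = a ^ (2 * k) * (e Z * V * e Z) * (a ^ 2 * V) := by simp only [mul_assoc]
          _ = 0 := by rw [h.eVe]; simp
      have e3 : V * (a ^ (2 * k) * e Z) * V * (a ^ 2 * e Z) = 0 := by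
        calc V * (a ^ (2 * k) * e Z) * V * (a ^ 2 * e Z)
            = V * (a ^ (2 * k) * e Z) * V * (e Z * a ^ 2) := by rw [hc 2]
          _ = V * a ^ (2 * k) * (e Z * V * e Z) * a ^ 2 := by simp only [mul_assoc]
          _ = 0 := by rw [h.eVe]; simp
      have e4 : V * (a ^ (2 * k) * e Z) * V * (V * (a ^ 2 * e Z) * V) =
          V * (a ^ (2 * (k + 1)) * e Z) * V := by
        calc V * (a ^ (2 * k) * e Z) * V * (V * (a ^ 2 * e Z) * V)
            = V * (a ^ (2 * k) * e Z) * (V * V) * (a ^ 2 * e Z) * V := by simp only [mul_assoc]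
          _ = V * (a ^ (2 * k) * e Z * (a ^ 2 * e Z)) * V := by
              rw [h.V2, mul_one]; simp only [mul_assoc]
          _ = _ := by rw [e1]
      rw [add_mul, mul_add, mul_add, e1, e2, e3, e4]
      abel

theorem tau_hh (hT : Amb T) (k : ℕ) (hk : 0 < k) : T.τ (hh a Z V ^ k) = 0 := by
  rw [h.hh_pow hT k hk, map_add]
  have e1 : T.τ (V * (a ^ (2 * k) * e Z) * V) = T.τ (a ^ (2 * k) * e Z) := by
    rw [T.tr, ← mul_assoc, h.V2, one_mul]
  have e2 : T.τ (a ^ (2 * k) * e Z) = 0 := by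
    unfold e
    rw [mul_smul_comm, map_smul, mul_add, mul_one, map_add, h.a0 (2 * k) (by positivity),
      T.tr, h.Za k]
    simp
  rw [e1, e2, add_zero]

theorem hh_unitary (hT : Amb T) : hh a Z V ∈ unitary A := by
  have hc : e Z * a ^ 2 = a ^ 2 * e Z := ((h.a_comm_e hT).pow_left 2).eq.symm
  have hc' : e Z * star a ^ 2 = star a ^ 2 * e Z := ((h.star_a_comm_e hT).pow_left 2).eq.symm
  have hst : star (hh a Z V) = star a ^ 2 * e Z + V * (star a ^ 2 * e Z) * V := by
    unfold hh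
    simp only [star_add, star_mul, star_pow, h.e_star, h.Vsa, ← mul_assoc]
    rw [hc']
    simp only [mul_assoc]
    rw [← mul_assoc (e Z), hc', mul_assoc]
  have ha1 : star a ^ 2 * a ^ 2 = 1 := by
    rw [pow_two, pow_two]
    calc star a * star a * (a * a) = star a * (star a * a) * a := by simp only [mul_assoc]
      _ = 1 := by rw [(Unitary.mem_iff.1 h.ha).1, mul_one, (Unitary.mem_iff.1 h.ha).1]
  have ha2 : a ^ 2 * star a ^ 2 = 1 := by
    rw [pow_two, pow_two]
    calc a * a * (star a * star a) = a * (a * star a) * star a := by simp only [mul_assoc]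
      _ = 1 := by rw [(Unitary.mem_iff.1 h.ha).2, mul_one, (Unitary.mem_iff.1 h.ha).2]
  have key : ∀ s t : A, s * t = 1 → e Z * s = s * e Z → e Z * t = t * e Z →
      (s * e Z + V * (s * e Z) * V) * (t * e Z + V * (t * e Z) * V) = 1 := by
    intro s t hst hs ht
    have e1 : s * e Z * (t * e Z) = e Z := by
      calc s * e Z * (t * e Z) = s * (e Z * t) * e Z := by simp only [mul_assoc]
        _ = (s * t) * (e Z * e Z) := by rw [ht]; simp only [mul_assoc]
        _ = _ := by rw [hst, h.ee, one_mul]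
    have e2 : s * e Z * (V * (t * e Z) * V) = 0 := by
      calc s * e Z * (V * (t * e Z) * V) = s * e Z * (V * (e Z * t) * V) := by rw [ht]
        _ = s * (e Z * V * e Z) * (t * V) := by simp only [mul_assoc]
        _ = 0 := by rw [h.eVe]; simp
    have e3 : V * (s * e Z) * V * (t * e Z) = 0 := by
      calc V * (s * e Z) * V * (t * e Z) = V * (s * e Z) * V * (e Z * t) := by rw [ht]
        _ = V * s * (e Z * V * e Z) * t := by simp only [mul_assoc]
        _ = 0 := by rw [h.eVe]; simp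
    have e4 : V * (s * e Z) * V * (V * (t * e Z) * V) = 1 - e Z := by
      calc V * (s * e Z) * V * (V * (t * e Z) * V)
          = V * (s * e Z) * (V * V) * (t * e Z) * V := by simp only [mul_assoc]
        _ = V * (s * e Z * (t * e Z)) * V := by rw [h.V2, mul_one]; simp only [mul_assoc]
        _ = _ := by rw [e1, h.VeV]
    rw [add_mul, mul_add, mul_add, e1, e2, e3, e4]
    abel
  rw [Unitary.mem_iff, hst]
  exact ⟨key _ _ ha1 hc' hc, key _ _ ha2 hc hc'⟩

theorem hh_Bs : hh a Z V ∈ Bs a Z V X T := by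
  have he : e Z ∈ Bs a Z V X T := by
    unfold e
    exact (Bs a Z V X T).smul_mem (add_mem (one_mem _) h.Z_Bs) _
  unfold hh
  exact add_mem (mul_mem (pow_mem h.a_Bs 2) he)
    (mul_mem (mul_mem h.V_Bs (mul_mem (pow_mem h.a_Bs 2) he)) h.V_Bs)

theorem hh_inQ (hT : Amb T) : h.F.InQ (hh a Z V) := by
  have hZe : Z * e Z = e Z * Z := by
    unfold e
    rw [mul_smul_comm, smul_mul_assoc, mul_add, add_mul, mul_one, one_mul]
  have hZa : Z * a ^ 2 = a ^ 2 * Z := by
    have h1 : Commute a Z := h.a_comm_Z hT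
    exact (h1.pow_left 2).eq.symm
  have hZw : Z * (a ^ 2 * e Z) = a ^ 2 * e Z * Z := by
    rw [← mul_assoc, hZa, mul_assoc, hZe, mul_assoc]
  refine h.inQ_of ?_ ?_
  · unfold hh
    rw [mul_add, add_mul, hZw]
    congr 1
    calc Z * (V * (a ^ 2 * e Z) * V) = (Z * V) * (a ^ 2 * e Z) * V := by simp only [mul_assoc]
      _ = -(V * (Z * (a ^ 2 * e Z)) * V) := by rw [h.ZV]; noncomm_ring
      _ = -(V * (a ^ 2 * e Z) * (Z * V)) := by rw [hZw]; noncomm_ring
      _ = V * (a ^ 2 * e Z) * V * Z := by rw [h.ZV]; noncomm_ring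
  · unfold hh
    rw [mul_add, add_mul]
    have e1 : V * (V * (a ^ 2 * e Z) * V) = a ^ 2 * e Z * V := by
      calc V * (V * (a ^ 2 * e Z) * V) = (V * V) * (a ^ 2 * e Z) * V := by simp only [mul_assoc]
        _ = _ := by rw [h.V2, one_mul]
    have e2 : V * (a ^ 2 * e Z) * V * V = V * (a ^ 2 * e Z) := by
      rw [mul_assoc _ V V, h.V2, mul_one]
    rw [e1, e2, add_comm]

theorem hh_S (hT : Amb T) : hh a Z V ∈ h.S := Or.inl ⟨h.hh_Bs, h.hh_inQ hT⟩

theorem exists_pairs (hT : Amb T) (hP : HasFreePauli T) :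
    ∃ u v : ℕ → A, Pairs u v ∧ (∀ j, u j ∈ W T h.S) ∧ (∀ j, v j ∈ W T h.S) := by
  have h1 : SD T ({hh a Z V, star (hh a Z V)} : Set A) (coo h.F (dgX Z X) 0) := by
    refine SD.mono ?_ (h.sd_coo 0 (by simp [F, PauliSys.pair, PauliSys.sign4]))
    rintro g (rfl | hg)
    · exact Or.inl ⟨h.Bs_Bl h.hh_Bs, h.hh_inQ hT⟩
    · rw [Set.mem_singleton_iff] at hg
      subst hg
      exact Or.inl ⟨h.Bs_Bl (star_mem h.hh_Bs), h.F.inQ_star (h.hh_inQ hT)⟩
  have hst : ∀ s ∈ ({hh a Z V, star (hh a Z V)} : Set A),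
      star s ∈ ({hh a Z V, star (hh a Z V)} : Set A) := by
    rintro s (rfl | hs)
    · exact Or.inr rfl
    · rw [Set.mem_singleton_iff] at hs
      subst hs
      rw [star_star]; exact Or.inl rfl
  have h2 := FreeHaar.closure T (SD.freeHaar T hT hst h1)
  have h3 : FreeHaar T (W T {hh a Z V} : Set A) (uu (coo h.F (dgX Z X) 0)) := by
    refine ⟨h2.1, fun L hL hG hA => h2.2 L hL (fun p hp => ?_) hA⟩
    exact W_mono T (by intro x hx; simp at hx; simp [hx]) (hG p hp)
  obtain ⟨u, v, huv, hu, hv⟩ := hP (hh a Z V) (uu (coo h.F (dgX Z X) 0)) (h.hh_unitary hT)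
    (h.tau_hh hT) h3
  have hle : W T {hh a Z V, uu (coo h.F (dgX Z X) 0)} ≤ W T h.S := by
    refine W_le T ?_
    rintro x (rfl | hx)
    · exact subset_W T _ (h.hh_S hT)
    · rw [Set.mem_singleton_iff] at hx
      subst hx
      refine W_mono T ?_ (uu_mem T h1.1)
      rw [Set.singleton_subset_iff]
      exact Or.inr rfl
  exact ⟨u, v, huv, fun j => hle (hu j), fun j => hle (hv j)⟩

/-! ### vanishing coordinates and generation -/

theorem E_conj (i : Fin 4) (x : A) : h.F.E (h.F.f i * x * h.F.f i) = h.F.E x := by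
  rw [mul_assoc, h.F.E_f_comm, mul_assoc, h.F.sq, mul_one]

theorem ZdZ : Z * dgX Z X * Z = dgX Z X := by
  unfold dgX
  rw [mul_smul_comm, smul_mul_assoc]
  congr 1
  calc Z * (X + Z * X * Z) * Z = Z * X * Z + (Z * Z) * X * (Z * Z) := by noncomm_ring
    _ = X + Z * X * Z := by rw [h.Z2]; noncomm_ring

theorem coo_zero_of (i : Fin 4) (hi : Z * h.F.f i * Z = - h.F.f i) :
    coo h.F (dgX Z X) i = 0 := by
  have h1 : h.F.E (h.F.f i * dgX Z X) = - h.F.E (h.F.f i * dgX Z X) := by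
    have h2 := h.E_conj 1 (h.F.f i * dgX Z X)
    have h3 : h.F.f 1 * (h.F.f i * dgX Z X) * h.F.f 1 = -(h.F.f i * dgX Z X) := by
      change Z * (h.F.f i * dgX Z X) * Z = _
      calc Z * (h.F.f i * dgX Z X) * Z = (Z * h.F.f i) * (Z * Z) * dgX Z X * Z := by
            rw [h.Z2, mul_one]; simp only [mul_assoc]
        _ = (Z * h.F.f i * Z) * (Z * dgX Z X * Z) := by simp only [mul_assoc]
        _ = _ := by rw [hi, h.ZdZ, neg_mul]
    rw [h3, h.F.E_neg] at h2
    exact h2.symm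
  have h4 : h.F.E (h.F.f i * dgX Z X) = 0 := by
    have h5 : (2 : ℂ) • h.F.E (h.F.f i * dgX Z X) = 0 := by
      rw [two_smul]
      nth_rewrite 1 [h1]
      exact neg_add_cancel _
    exact (smul_eq_zero.1 h5).resolve_left two_ne_zero
  unfold coo
  rw [h4, smul_zero]

theorem dgX_mem_of (B : StarSubalgebra ℂ A) (hZ : Z ∈ B) (hV : V ∈ B)
    (h0 : coo h.F (dgX Z X) 0 ∈ B) (h1 : coo h.F (dgX Z X) 1 ∈ B) : dgX Z X ∈ B := by
  refine mem_of_coo_mem h.F B (h.f_mem B hZ hV) fun i => ?_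
  fin_cases i
  · exact h0
  · exact h1
  · have : coo h.F (dgX Z X) 2 = 0 := by
      apply h.coo_zero_of
      change Z * V * Z = -V
      rw [h.ZV, neg_mul, mul_assoc, h.Z2, mul_one]
    change coo h.F (dgX Z X) 2 ∈ B
    rw [this]; exact zero_mem B
  · have : coo h.F (dgX Z X) 3 = 0 := by
      apply h.coo_zero_of
      change Z * (Complex.I • (Z * V)) * Z = -(Complex.I • (Z * V))
      rw [mul_smul_comm, smul_mul_assoc, ← smul_neg]
      congr 1
      calc Z * (Z * V) * Z = (Z * Z) * (V * Z) := by simp only [mul_assoc]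
        _ = -(Z * V) := by rw [h.Z2, one_mul, h.VZ]
    change coo h.F (dgX Z X) 3 ∈ B
    rw [this]; exact zero_mem B

/-- `R` -/
noncomputable def R (h : Ctx T a b c Z V X C) : StarSubalgebra ℂ A := pAlg h.F

theorem Z_R : Z ∈ h.R := StarAlgebra.subset_adjoin ℂ _ ⟨1, rfl⟩
theorem V_R : V ∈ h.R := StarAlgebra.subset_adjoin ℂ _ ⟨2, rfl⟩

/-- `a` is in the algebra of `R` and the coefficients -/
theorem a_RQ : a ∈ W T ((h.R : Set A) ∪ W T h.S) := by
  have hR : (h.R : Set A) ⊆ W T ((h.R : Set A) ∪ W T h.S) :=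
    Set.subset_union_left.trans (subset_W T _)
  have hQ : (W T h.S : Set A) ⊆ W T ((h.R : Set A) ∪ W T h.S) :=
    Set.subset_union_right.trans (subset_W T _)
  refine mem_of_coo_mem h.F _ (h.f_mem _ (hR h.Z_R) (hR h.V_R)) fun i => hQ (subset_W T _ ?_)
  refine Or.inl ⟨coo_mem h.F _ (h.f_mem _ h.Z_Bs h.V_Bs) h.a_Bs _, coo_inQ h.F _ _⟩

/-- any star subalgebra of the form `W T G` containing `R`, `S` and `x` contains `b` -/
theorem b_mem (hT : Amb T) {G : Set A} (hR : (h.R : Set A) ⊆ W T G) (hS : h.S ⊆ W T G)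
    (hx : coo h.F (dgX Z X) 1 ∈ W T G) : b ∈ W T G := by
  have hZ : Z ∈ W T G := hR h.Z_R
  have hV : V ∈ W T G := hR h.V_R
  have hVY : V * offY Z X ∈ W T G :=
    hS (Or.inl ⟨mul_mem h.V_Bs h.Y_Bs, h.VY_inQ hT⟩)
  have hY : offY Z X ∈ W T G := by
    have : offY Z X = V * (V * offY Z X) := by rw [← mul_assoc, h.V2, one_mul]
    rw [this]; exact mul_mem hV hVY
  have hX : X ∈ W T G := by
    rw [← off_add_dg Z X, offX_eq]
    exact add_mem ((W T G).smul_mem hY _) (h.dgX_mem_of _ hZ hV (hS (Or.inr rfl)) hx)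
  rw [← h.bX]
  exact W_le T (by rw [Set.singleton_subset_iff]; exact hX) (uu_mem T h.hX.1)

theorem data (hT : Amb T) {u v : ℕ → A} (huv : Pairs u v) (hu : ∀ j, u j ∈ W T h.S)
    (hv : ∀ j, v j ∈ W T h.S) :
    Data T h.R (W T h.S : Set A) u v (coo h.F (dgX Z X) 1) h.y where
  tens := pAlg_tensorPos T h.F
  star_mem q hq := star_mem (s := W T h.S) hq
  comm r hr q hq := pAlg_comm h.F hr (h.WS_inQ hT hq)
  pairs := huv
  u_mem := hu
  v_mem := hv
  comm_x r hr := pAlg_comm h.F hr (coo_inQ h.F _ _)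
  comm_y r hr j := pAlg_comm h.F hr (coo_inQ h.F _ _)
  sd_x := h.sd_xW hT
  sd_y j := h.sd_yW hT j
  gen := by
    intro z
    set G : Set A := (h.R : Set A) ∪ (W T h.S : Set A) ∪ {coo h.F (dgX Z X) 1} ∪ Set.range h.y
      with hG
    have hR : (h.R : Set A) ⊆ W T G := fun r hr => subset_W T _ (Or.inl (Or.inl (Or.inl hr)))
    have hQ : (W T h.S : Set A) ⊆ W T G := fun r hr =>
      subset_W T _ (Or.inl (Or.inl (Or.inr hr)))
    have hx : coo h.F (dgX Z X) 1 ∈ W T G := subset_W T _ (Or.inl (Or.inr rfl))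
    have hb : b ∈ W T G := h.b_mem hT hR ((subset_W T _).trans hQ) hx
    have ha : a ∈ W T G := by
      refine W_le T ?_ h.a_RQ
      rintro s (hs | hs)
      · exact hR hs
      · exact hQ hs
    have hC : C ∈ W T G := by
      refine mem_of_coo_mem h.F _ (h.f_mem _ (hR h.Z_R) (hR h.V_R)) fun i => ?_
      exact subset_W T _ (Or.inr ⟨i, rfl⟩)
    have hc : c ∈ W T G := by
      rw [← h.cC]
      exact W_le T (by rw [Set.singleton_subset_iff]; exact hC) (uu_mem T h.hC.1)
    refine W_le T ?_ (h.gen z)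
    rintro s (rfl | rfl | hs)
    · exact ha
    · exact hb
    · rw [Set.mem_singleton_iff] at hs
      subst hs
      exact hc

/-- the conclusion -/
theorem concl (hT : Amb T) (hP : HasFreePauli T)
    (hb : FreeHaar T (W T {a} : Set A) b) :
    ∃ b' : A, FreeHaar T (W T {a} : Set A) b' ∧ ∀ z, z ∈ W T {a, b'} := by
  obtain ⟨u, v, huv, hu, hv⟩ := h.exists_pairs hT hP
  have hD := h.data hT huv hu hv
  obtain ⟨x', α, -, -, hgen, hα, hfix, hlim⟩ :=
    Limit.main_of_absorb' hT hD (absorb hT hD)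
  have hfixW : ∀ n, ∀ z ∈ W T ((h.R : Set A) ∪ W T h.S), α n z = z := fun n z hz =>
    Pres.eq_on_W hT.faithful (hα n) (Pres.refl T) (fun s hs => hfix n s hs) hz
  have hfa : ∀ n, α n a = a := fun n => hfixW n a h.a_RQ
  -- the limit of `b`
  set G₀ : Set A := (h.R : Set A) ∪ (W T h.S : Set A) ∪ {coo h.F (dgX Z X) 1} with hG₀
  have hb₀ : b ∈ W T G₀ := by
    refine h.b_mem hT (fun r hr => subset_W T _ (Or.inl (Or.inl hr))) ?_
      (subset_W T _ (Or.inr rfl))
    exact (subset_W T _).trans fun r hr => subset_W T _ (Or.inl (Or.inr hr))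
  obtain ⟨b', -, hbb'⟩ := exists_lim hT hα (S := G₀)
    (S' := (h.R : Set A) ∪ (W T h.S : Set A) ∪ {x'}) (by
      rintro s ((hs | hs) | hs)
      · exact ⟨s, subset_W T _ (Or.inl (Or.inl hs)), Lim.of_fixes fun n => hfix n s (Or.inl hs)⟩
      · exact ⟨s, subset_W T _ (Or.inl (Or.inr hs)), Lim.of_fixes fun n => hfix n s (Or.inr hs)⟩
      · rw [Set.mem_singleton_iff] at hs
        subst hs
        exact ⟨x', subset_W T _ (Or.inr rfl), hlim⟩) hb₀
  refine ⟨b', ?_, ?_⟩
  · refine FreeHaar.lim hT.faithful hα (fun n => ?_) hb hbb'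
    intro z hz
    exact Pres.eq_on_W hT.faithful (hα n) (Pres.refl T) (fun s hs => by
      rw [Set.mem_singleton_iff] at hs
      subst hs
      exact hfa n) hz
  · -- every element of `W{a,b}` has a limit in `W{a,b'}`
    have hlimW : ∀ z ∈ W T {a, b}, ∃ z' ∈ W T {a, b'}, Lim T α z z' := by
      intro z hz
      refine exists_lim hT hα (S := {a, b}) ?_ hz
      rintro s (rfl | hs)
      · exact ⟨s, subset_W T _ (Or.inl rfl), Lim.of_fixes hfa⟩
      · rw [Set.mem_singleton_iff] at hs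
        subst hs
        exact ⟨b', subset_W T _ (Or.inr rfl), hbb'⟩
    have hfixed : ∀ z ∈ (h.R : Set A) ∪ (W T h.S : Set A), z ∈ W T {a, b} → z ∈ W T {a, b'} := by
      intro z hz hzab
      obtain ⟨z', hz', hl⟩ := hlimW z hzab
      have : z = z' := Lim.unique hT.faithful (Lim.of_fixes fun n => hfix n z hz) hl
      rw [this]; exact hz'
    have hR_ab : (h.R : Set A) ⊆ W T {a, b} := by
      have : h.R ≤ W T {a, b} := StarAlgebra.adjoin_le (by
        rintro _ ⟨i, rfl⟩
        exact h.f_mem _ h.Z_ab h.V_ab i)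
      exact this
    intro z
    refine W_le T ?_ (hgen z)
    rintro s ((hs | hs) | hs)
    · exact hfixed s (Or.inl hs) (hR_ab hs)
    · exact hfixed s (Or.inr hs) (h.WS_ab hs)
    · rw [Set.mem_singleton_iff] at hs
      subst hs
      obtain ⟨z', hz', hl⟩ := hlimW (coo h.F (dgX Z X) 1)
        (coo_mem h.F _ (h.f_mem _ h.Z_ab h.V_ab) (dgX_mem _ h.Z_ab h.X_ab) _)
      have : s = z' := Lim.unique hT.faithful hlim hl
      rw [this]; exact hz'

end Ctx

/-- `a` is a Haar unitary free from the scalars -/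
theorem freeHaar_empty (hT : Amb T) {a : A} (ha : a ∈ unitary A)
    (ha' : ∀ k : ℕ, 0 < k → T.τ (a ^ k) = 0) : FreeHaar T (W T (∅ : Set A) : Set A) a := by
  refine ⟨ha, ?_⟩
  have key : ∀ (L : List (Bool × A)) (b : Bool) (x : A), (∀ p ∈ (b, x) :: L, p.2 ∈ W T (∅ : Set A)) →
      Alt T ((b, x) :: L) → ∃ c : ℂ, word a ((b, x) :: L) = c • (sg a b) ^ (L.length + 1) := by
    intro L
    induction L with
    | nil =>
      intro b x hx _
      have h1 : x = T.τ x • (1 : A) := mem_W_empty T hT.faithful (hx (b, x) (by simp))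
      refine ⟨T.τ x, ?_⟩
      simp only [word, mul_one, List.length_nil, zero_add, pow_one]
      conv_lhs => rw [h1]
      rw [mul_smul_comm, mul_one]
    | cons q L ih =>
      obtain ⟨b', x'⟩ := q
      intro b x hx hA
      have h1 : x = T.τ x • (1 : A) := mem_W_empty T hT.faithful (hx (b, x) (by simp))
      rw [alt_cons] at hA
      obtain ⟨c, hc⟩ := ih b' x' (fun p hp => hx p (List.mem_cons_of_mem _ hp)) hA.2
      have e : word a ((b, x) :: (b', x') :: L) = sg a b * x * word a ((b', x') :: L) := rfl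
      by_cases hbb : b = b'
      · subst hbb
        refine ⟨T.τ x * c, ?_⟩
        rw [e, hc]
        conv_lhs => rw [h1]
        simp only [mul_smul_comm, smul_mul_assoc, mul_one, smul_smul, List.length_cons]
        rw [mul_comm c, pow_succ' (sg a b) (L.length + 1)]
      · have h0 : T.τ x = 0 := hA.1 b' (by simp) hbb
        refine ⟨0, ?_⟩
        rw [e, h1, h0]
        simp
  intro L hL hG hA
  cases L with
  | nil => exact absurd rfl hL
  | cons p L =>
    obtain ⟨b, x⟩ := p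
    obtain ⟨c, hc⟩ := key L b x hG hA
    rw [hc, map_smul]
    have h0 : T.τ ((sg a b) ^ (L.length + 1)) = 0 := by
      cases b
      · change T.τ ((star a) ^ (L.length + 1)) = 0
        rw [← star_pow, T.star', ha' _ (Nat.succ_pos _), map_zero]
      · exact ha' _ (Nat.succ_pos _)
    rw [h0, smul_zero]

theorem two_three (hT : Amb T) (hP : HasFreePauli T) {a b c : A}
    (ha : a ∈ unitary A) (ha' : ∀ k : ℕ, 0 < k → T.τ (a ^ k) = 0)
    (hb : FreeHaar T (W T {a, c} : Set A) b) (hc : FreeHaar T (W T {a, b} : Set A) c)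
    (hgen : ∀ z, z ∈ W T {a, b, c}) :
    ∃ b' : A, FreeHaar T (W T {a} : Set A) b' ∧ ∀ z, z ∈ W T {a, b'} := by
  have he := freeHaar_empty hT ha ha'
  obtain ⟨Xa, hXa, -, hua, hXaa⟩ := Conv.exists_semicircular hT he
  obtain ⟨Z, hZsa, hZ2, hZm, hZ0, -, -, -, hZa⟩ := Conv.exists_sign hT (fun s hs => star_mem hs) hXa
  rw [hua] at hZa
  have hZmem : Z ∈ W T {a} := W_le T (Set.singleton_subset_iff.2 hXaa) hZm
  obtain ⟨X, hX, -, hub, hXb⟩ := Conv.exists_semicircular hT hb
  obtain ⟨C, hC, -, huc, hCc⟩ := Conv.exists_semicircular hT hc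
  have hZac : Z ∈ (W T {a, c} : Set A) :=
    W_mono T (by intro x hx; simp at hx; simp [hx]) hZmem
  have hY : SD T (∅ : Set A) (offY Z X) := sd_off T hZac hZsa hZ2 hZ0 hX
  obtain ⟨V, hVsa, hV2, hVm, -, -, hVc, ⟨p, hp, hlim⟩, -⟩ :=
    Conv.exists_sign hT (fun s hs => absurd hs (Set.notMem_empty s)) hY
  have hZu : Z ∈ unitary A := by
    rw [Unitary.mem_iff, hZsa.star_eq]
    exact ⟨hZ2, hZ2⟩
  have hZYZ : Z * offY Z X * star Z = - offY Z X := by
    rw [hZsa.star_eq]
    unfold offY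
    rw [mul_smul_comm, smul_mul_assoc, ← smul_neg]
    congr 1
    calc Z * (X - Z * X * Z) * Z = Z * X * Z - (Z * Z) * X * (Z * Z) := by noncomm_ring
      _ = -(X - Z * X * Z) := by rw [hZ2]; noncomm_ring
  have hZVZ := hVc Z hZu hZYZ
  rw [hZsa.star_eq] at hZVZ
  have hVZ : V * Z = -(Z * V) := by
    calc V * Z = (Z * Z) * V * Z := by rw [hZ2, one_mul]
      _ = Z * (Z * V * Z) := by simp only [mul_assoc]
      _ = -(Z * V) := by rw [hZVZ, mul_neg]
  have hctx : Ctx T a b c Z V X C :=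
    { ha := ha
      a0 := ha'
      Zmem := hZmem
      Zsa := hZsa
      Z2 := hZ2
      Za := hZa
      hX := hX
      Xb := hXb
      bX := hub
      hC := hC
      Cc := hCc
      cC := huc
      Vsa := hVsa
      V2 := hV2
      VZ := hVZ
      VY := hVm
      lim := ⟨p, hp, hlim⟩
      gen := hgen }
  refine hctx.concl hT hP ⟨hb.1, fun L hL hG hA => hb.2 L hL (fun q hq => ?_) hA⟩
  exact W_mono T (by intro x hx; simp at hx; simp [hx]) (hG q hq)

end Crest.Agent.R134
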