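import Crest.Prelude.Def_GroupVNA

/-!
R134 (helper127): basics on the group von Neumann algebra and the transport lemma:
a trace preserving copy of `L(K)` which is dense in `ℓ²(G)` gives an isomorphism `L(K) ≅ L(G)`.
-/

set_option autoImplicit false
set_option linter.unusedSectionVars false
set_option linter.unusedSimpArgs false

open scoped InnerProductSpace ENNReal
open Filter Topology

namespace Crest.Agent.R134

open Crest.OpAlg

section basics

variable {G : Type*} [Group G] [DecidableEq G]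

/-- the canonical basis vector -/
noncomputable def dl (g : G) : ltwo G := lp.single 2 g (1 : ℂ)

theorem dl_apply (g h : G) : (dl g : ltwo G) h = if h = g then 1 else 0 := by
  unfold dl
  rw [lp.single_apply]
  by_cases hh : h = g
  · subst hh; simp
  · simp [hh, Pi.single_eq_of_ne hh]

theorem inner_dl_left (g : G) (f : ltwo G) : ⟪dl g, f⟫_ℂ = f g := by
  unfold dl
  rw [lp.inner_single_left]
  simp

theorem inner_dl_right (g : G) (f : ltwo G) : ⟪f, dl g⟫_ℂ = starRingEnd ℂ (f g) := by
  rw [← inner_conj_symm, inner_dl_left]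

theorem inner_dl_dl (g h : G) : ⟪dl g, dl h⟫_ℂ = if g = h then (1 : ℂ) else 0 := by
  rw [inner_dl_left, dl_apply]

theorem groupTrace_eq (x : ltwo G →L[ℂ] ltwo G) : groupTrace G x = ⟪dl 1, x (dl 1)⟫_ℂ := rfl

theorem leftRegular_apply (g : G) (f : ltwo G) (h : G) : (leftRegular g f : ltwo G) h = f (g⁻¹ * h) :=
  rfl

theorem leftRegular_dl (g h : G) : leftRegular g (dl h) = dl (g * h) := by
  ext k
  rw [leftRegular_apply, dl_apply, dl_apply]
  by_cases hk : k = g * h
  · rw [if_pos hk, if_pos (by rw [hk]; group)]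
  · rw [if_neg hk, if_neg (fun h' => hk (by rw [← h']; group))]

/-- the right regular representation -/
noncomputable def rightRegular (g : G) : ltwo G →L[ℂ] ltwo G :=
  ((ltwoReindex (Equiv.mulRight g) : ltwo G ≃ₗᵢ[ℂ] ltwo G) : ltwo G →L[ℂ] ltwo G)

theorem rightRegular_apply (g : G) (f : ltwo G) (h : G) :
    (rightRegular g f : ltwo G) h = f (h * g) := rfl

theorem rightRegular_dl (g h : G) : rightRegular g (dl h) = dl (h * g⁻¹) := by
  ext k
  rw [rightRegular_apply, dl_apply, dl_apply]
  by_cases hk : k = h * g⁻¹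
  · rw [if_pos hk, if_pos (by rw [hk]; group)]
  · rw [if_neg hk, if_neg (fun h' => hk (by rw [← h']; group))]

theorem star_leftRegular (g : G) : star (leftRegular g) = leftRegular g⁻¹ := by
  rw [ContinuousLinearMap.star_eq_adjoint]
  symm
  rw [ContinuousLinearMap.eq_adjoint_iff]
  intro x y
  rw [lp.inner_eq_tsum, lp.inner_eq_tsum]
  simp_rw [leftRegular_apply]
  rw [← Equiv.tsum_eq (Equiv.mulLeft g⁻¹)]
  simp


theorem leftRegular_mul (g h : G) : leftRegular (g * h) = leftRegular g * leftRegular h := by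
  ext f k
  change (leftRegular (g * h) f : ltwo G) k = (leftRegular g (leftRegular h f) : ltwo G) k
  rw [leftRegular_apply, leftRegular_apply, leftRegular_apply, mul_inv_rev, mul_assoc]

theorem leftRegular_one : leftRegular (1 : G) = 1 := by
  ext f k
  rw [leftRegular_apply]
  simp

theorem left_right_comm (g h : G) : leftRegular g * rightRegular h = rightRegular h * leftRegular g := by
  ext f k
  change (leftRegular g (rightRegular h f) : ltwo G) k = (rightRegular h (leftRegular g f) : ltwo G) k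
  rw [leftRegular_apply, rightRegular_apply, rightRegular_apply, leftRegular_apply, mul_assoc]

/-- membership in the group von Neumann algebra -/
theorem mem_groupVNA_iff {x : ltwo G →L[ℂ] ltwo G} :
    x ∈ groupVNA G ↔ ∀ y : ltwo G →L[ℂ] ltwo G, (∀ g : G, leftRegular g * y = y * leftRegular g) →
      y * x = x * y := by
  change x ∈ StarSubalgebra.centralizer ℂ _ ↔ _
  rw [StarSubalgebra.mem_centralizer_iff]
  have key : ∀ y : ltwo G →L[ℂ] ltwo G,
      (y ∈ ((StarSubalgebra.centralizer ℂ (Set.range (leftRegular (G := G))) :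
        StarSubalgebra ℂ (ltwo G →L[ℂ] ltwo G)) : Set (ltwo G →L[ℂ] ltwo G))) ↔
      ∀ g : G, leftRegular g * y = y * leftRegular g := by
    intro y
    rw [SetLike.mem_coe, StarSubalgebra.mem_centralizer_iff]
    constructor
    · intro h g
      exact (h _ ⟨g, rfl⟩).1
    · rintro h _ ⟨g, rfl⟩
      refine ⟨h g, ?_⟩
      rw [star_leftRegular]
      exact h g⁻¹
  constructor
  · intro h y hy
    exact (h y ((key y).2 hy)).1
  · intro h y hy
    refine ⟨h y ((key y).1 hy), ?_⟩
    apply h
    rw [← key]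
    exact star_mem hy

theorem leftRegular_mem (g : G) : leftRegular g ∈ groupVNA G := by
  rw [mem_groupVNA_iff]
  intro y hy
  exact (hy g).symm

theorem right_comm_of_mem {x : ltwo G →L[ℂ] ltwo G} (hx : x ∈ groupVNA G) (g : G) :
    rightRegular g * x = x * rightRegular g :=
  mem_groupVNA_iff.1 hx _ (fun h => left_right_comm h g)

theorem apply_dl_of_mem {x : ltwo G →L[ℂ] ltwo G} (hx : x ∈ groupVNA G) (g : G) :
    x (dl g) = rightRegular g⁻¹ (x (dl 1)) := by
  have h := congrArg (fun T : ltwo G →L[ℂ] ltwo G => T (dl 1)) (right_comm_of_mem hx g⁻¹)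
  have h1 : rightRegular g⁻¹ (x (dl 1)) = x (rightRegular g⁻¹ (dl 1)) := h
  rw [h1, rightRegular_dl]
  simp

/-- the coordinates of `x⋆ δ` -/
theorem star_apply_dl {x : ltwo G →L[ℂ] ltwo G} (hx : x ∈ groupVNA G) (g : G) :
    ((star x) (dl 1) : ltwo G) g = starRingEnd ℂ ((x (dl 1) : ltwo G) g⁻¹) := by
  rw [← inner_dl_left, ContinuousLinearMap.star_eq_adjoint,
    ContinuousLinearMap.adjoint_inner_right, apply_dl_of_mem hx, inner_dl_right,
    rightRegular_apply]
  simp

theorem norm_star_dl {x : ltwo G →L[ℂ] ltwo G} (hx : x ∈ groupVNA G) :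
    ‖(star x) (dl 1)‖ = ‖x (dl 1)‖ := by
  rw [lp.norm_eq_tsum_rpow (by norm_num), lp.norm_eq_tsum_rpow (by norm_num)]
  congr 1
  rw [← Equiv.tsum_eq (Equiv.inv G) (fun g => ‖(x (dl 1) : ltwo G) g‖ ^ (2 : ℝ≥0∞).toReal)]
  refine tsum_congr (fun g => ?_)
  rw [star_apply_dl hx, RCLike.norm_conj]
  rfl

theorem inner_star_dl {x y : ltwo G →L[ℂ] ltwo G} (hx : x ∈ groupVNA G) (hy : y ∈ groupVNA G) :
    ⟪(star x) (dl 1), (star y) (dl 1)⟫_ℂ = ⟪y (dl 1), x (dl 1)⟫_ℂ := by
  rw [lp.inner_eq_tsum, lp.inner_eq_tsum, ← Equiv.tsum_eq (Equiv.inv G)]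
  refine tsum_congr (fun g => ?_)
  simp only [Equiv.inv_apply, star_apply_dl hx, star_apply_dl hy, inv_inv]
  simp [mul_comm]

/-- the trace property -/
theorem groupTrace_mul_comm {x y : ltwo G →L[ℂ] ltwo G} (hx : x ∈ groupVNA G)
    (hy : y ∈ groupVNA G) : groupTrace G (x * y) = groupTrace G (y * x) := by
  have h1 : groupTrace G (x * y) = ⟪(star x) (dl 1), y (dl 1)⟫_ℂ := by
    rw [groupTrace_eq, ContinuousLinearMap.star_eq_adjoint,
      ContinuousLinearMap.adjoint_inner_left]
    rfl
  have h2 : groupTrace G (y * x) = ⟪(star y) (dl 1), x (dl 1)⟫_ℂ := by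
    rw [groupTrace_eq, ContinuousLinearMap.star_eq_adjoint,
      ContinuousLinearMap.adjoint_inner_left]
    rfl
  have h3 := inner_star_dl (x := x) (y := star y) hx (star_mem hy)
  rw [star_star] at h3
  rw [h1, h2, h3]

theorem eq_zero_of_dl {x : ltwo G →L[ℂ] ltwo G} (hx : x ∈ groupVNA G) (h : x (dl 1) = 0) :
    x = 0 := by
  have h1 : ∀ g : G, x (dl g) = 0 := by
    intro g
    rw [apply_dl_of_mem hx, h, map_zero]
  have h2 : ∀ f : ltwo G, ∀ g : G, ⟪(star x) f, dl g⟫_ℂ = 0 := by
    intro f g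
    rw [ContinuousLinearMap.star_eq_adjoint, ContinuousLinearMap.adjoint_inner_left, h1,
      inner_zero_right]
  have h3 : star x = 0 := by
    ext f g
    have := h2 f g
    rw [inner_dl_right] at this
    simpa using this
  rw [← star_star x, h3, star_zero]

end basics

section transport

variable {K G : Type*} [Group K] [Group G] [DecidableEq K] [DecidableEq G]

/-- **transport lemma** -/
theorem transport (π : K →* (ltwo G →L[ℂ] ltwo G))
    (hmem : ∀ k, π k ∈ groupVNA G)
    (hstar : ∀ k, star (π k) = π k⁻¹)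
    (htr : ∀ k, k ≠ 1 → groupTrace G (π k) = 0)
    (hden : ⊤ ≤ (Submodule.span ℂ (Set.range fun k => π k (dl 1))).topologicalClosure) :
    ∃ Φ : (groupVNA K).toStarSubalgebra ≃⋆ₐ[ℂ] (groupVNA G).toStarSubalgebra,
      ∀ x : (groupVNA K).toStarSubalgebra,
        groupTrace G ((Φ x : (groupVNA G).toStarSubalgebra) : ltwo G →L[ℂ] ltwo G) =
          groupTrace K (x : ltwo K →L[ℂ] ltwo K) := by
  classical
  have hon : Orthonormal ℂ (fun k => π k (dl 1)) := by
    rw [orthonormal_iff_ite]
    intro i j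
    have h1 : ⟪π i (dl 1), π j (dl 1)⟫_ℂ = groupTrace G (π (i⁻¹ * j)) := by
      rw [groupTrace_eq, map_mul, ← hstar, ContinuousLinearMap.star_eq_adjoint]
      change _ = ⟪dl 1, (ContinuousLinearMap.adjoint (π i)) ((π j) (dl 1))⟫_ℂ
      rw [ContinuousLinearMap.adjoint_inner_right]
    rw [h1]
    by_cases hij : i = j
    · subst hij
      rw [if_pos rfl, inv_mul_cancel, map_one, groupTrace_eq]
      change ⟪dl 1, dl 1⟫_ℂ = 1
      rw [inner_dl_dl, if_pos rfl]
    · rw [if_neg hij]
      exact htr _ (fun h => hij (inv_mul_eq_one.1 h))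
  let b : HilbertBasis K ℂ (ltwo G) := HilbertBasis.mk hon hden
  have hb : ∀ k, b k = π k (dl 1) := fun k => by
    change (HilbertBasis.mk hon hden) k = _
    rw [HilbertBasis.coe_mk]
  let U : ltwo K ≃ₗᵢ[ℂ] ltwo G := b.repr.symm
  have hU : ∀ k, U (dl k) = π k (dl 1) := fun k => by
    rw [← hb]
    exact b.repr_symm_single k
  have hU' : ∀ k, U.symm (π k (dl 1)) = dl k := fun k => by
    rw [← hU, LinearIsometryEquiv.symm_apply_apply]
  let C := U.conjStarAlgEquiv
  have hCap : ∀ (x : ltwo K →L[ℂ] ltwo K) (v : ltwo G), C x v = U (x (U.symm v)) := fun x v => rfl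
  have hCsap : ∀ (x : ltwo G →L[ℂ] ltwo G) (v : ltwo K), C.symm x v = U.symm (x (U v)) :=
    fun x v => rfl
  have hCinj : ∀ a b : ltwo K →L[ℂ] ltwo K, C a = C b → a = b := fun a b h =>
    EquivLike.injective C h
  have hCmul : ∀ a b : ltwo K →L[ℂ] ltwo K, C (a * b) = C a * C b := fun a b => map_mul C a b
  have hCC : ∀ a : ltwo G →L[ℂ] ltwo G, C (C.symm a) = a := fun a => C.apply_symm_apply a
  have hdense : Dense (Submodule.span ℂ (Set.range fun k => π k (dl 1)) : Set (ltwo G)) := by
    rw [Submodule.dense_iff_topologicalClosure_eq_top]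
    exact top_le_iff.1 hden
  have hC : ∀ k, C (leftRegular k) = π k := by
    intro k
    refine ContinuousLinearMap.ext_on hdense ?_
    rintro _ ⟨l, rfl⟩
    change C (leftRegular k) (π l (dl 1)) = π k (π l (dl 1))
    rw [hCap, hU', leftRegular_dl, hU, map_mul]
    rfl
  -- the key identity
  have key : ∀ y : ltwo G →L[ℂ] ltwo G, (∀ k, π k * y = y * π k) → ∀ c ∈ groupVNA G,
      ⟪(star y) (dl 1), c (dl 1)⟫_ℂ = ⟪(star c) (dl 1), y (dl 1)⟫_ℂ := by
    intro y hy c hc
    have hspan : ∀ a ∈ Submodule.span ℂ (Set.range π),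
        a ∈ groupVNA G ∧ ⟪(star y) (dl 1), a (dl 1)⟫_ℂ = ⟪(star a) (dl 1), y (dl 1)⟫_ℂ := by
      intro a ha
      induction ha using Submodule.span_induction with
      | mem x hx =>
        obtain ⟨k, rfl⟩ := hx
        refine ⟨hmem k, ?_⟩
        rw [ContinuousLinearMap.star_eq_adjoint, ContinuousLinearMap.star_eq_adjoint,
          ContinuousLinearMap.adjoint_inner_left, ContinuousLinearMap.adjoint_inner_left]
        have := congrArg (fun T : ltwo G →L[ℂ] ltwo G => T (dl 1)) (hy k)
        change ⟪dl 1, y (π k (dl 1))⟫_ℂ = ⟪dl 1, π k (y (dl 1))⟫_ℂ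
        rw [show π k (y (dl 1)) = y (π k (dl 1)) from this]
      | zero =>
        refine ⟨zero_mem _, ?_⟩
        simp
      | add u v _ _ hu hv =>
        refine ⟨add_mem hu.1 hv.1, ?_⟩
        rw [star_add]
        simp only [add_apply, inner_add_left, inner_add_right]
        rw [hu.2, hv.2]
      | smul r u _ hu =>
        refine ⟨(groupVNA G).toStarSubalgebra.smul_mem hu.1 r, ?_⟩
        rw [star_smul]
        simp only [smul_apply, inner_smul_left, inner_smul_right]
        rw [hu.2]
        simp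
    have hmap : (Submodule.span ℂ (Set.range fun k => π k (dl 1))) =
        (Submodule.span ℂ (Set.range π)).map
          ((ContinuousLinearMap.apply ℂ (ltwo G) (dl 1)).toLinearMap) := by
      rw [Submodule.map_span, ← Set.range_comp]
      rfl
    refine eq_of_forall_dist_le (fun ε hε => ?_)
    set B : ℝ := ‖(star y) (dl 1)‖ + ‖y (dl 1)‖ + 1 with hB
    have hB0 : 0 < B := by positivity
    obtain ⟨w, hw, hwd⟩ := Metric.mem_closure_iff.1 (hdense (c (dl 1))) (ε / B) (by positivity)
    rw [hmap] at hw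
    obtain ⟨a, ha, rfl⟩ := hw
    obtain ⟨haM, hae⟩ := hspan a ha
    have haw : ((ContinuousLinearMap.apply ℂ (ltwo G) (dl 1)).toLinearMap) a = a (dl 1) := rfl
    rw [haw] at hwd
    have hca : c - a ∈ groupVNA G := sub_mem hc haM
    have e1 : ⟪(star y) (dl 1), c (dl 1)⟫_ℂ - ⟪(star c) (dl 1), y (dl 1)⟫_ℂ =
        ⟪(star y) (dl 1), (c - a) (dl 1)⟫_ℂ - ⟪(star (c - a)) (dl 1), y (dl 1)⟫_ℂ := by
      rw [star_sub]
      simp only [sub_apply, inner_sub_left, inner_sub_right]
      rw [hae]
      ring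
    rw [dist_eq_norm, e1]
    have n1 := norm_inner_le_norm (𝕜 := ℂ) ((star y) (dl 1)) ((c - a) (dl 1))
    have n2 := norm_inner_le_norm (𝕜 := ℂ) ((star (c - a)) (dl 1)) (y (dl 1))
    rw [norm_star_dl hca] at n2
    have n3 : ‖(c - a) (dl 1)‖ ≤ ε / B := by
      have : (c - a) (dl 1) = c (dl 1) - a (dl 1) := rfl
      rw [this, ← dist_eq_norm]
      exact hwd.le
    calc _ ≤ ‖⟪(star y) (dl 1), (c - a) (dl 1)⟫_ℂ‖ + ‖⟪(star (c - a)) (dl 1), y (dl 1)⟫_ℂ‖ :=
          norm_sub_le _ _
      _ ≤ (‖(star y) (dl 1)‖ + ‖y (dl 1)‖) * ‖(c - a) (dl 1)‖ := by nlinarith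
      _ ≤ B * (ε / B) := by
          refine mul_le_mul ?_ n3 (norm_nonneg _) hB0.le
          rw [hB]; linarith
      _ = ε := by field_simp
  have hmemC : ∀ x, x ∈ groupVNA K ↔ C x ∈ groupVNA G := by
    intro x
    constructor
    · intro hx
      rw [mem_groupVNA_iff]
      intro y hy
      -- `y` commutes with `π k`
      have h1 : ∀ k, y * π k = π k * y := fun k => mem_groupVNA_iff.1 (hmem k) y hy
      have h2 : ∀ k, leftRegular k * C.symm y = C.symm y * leftRegular k := by
        intro k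
        apply hCinj
        rw [hCmul, hCmul, hCC, hC, h1]
      have h3 := mem_groupVNA_iff.1 hx _ h2
      have h4 := congrArg C h3
      rwa [hCmul, hCmul, hCC] at h4
    · intro hx
      rw [mem_groupVNA_iff]
      intro y hy
      have h1 : ∀ k, π k * C y = C y * π k := by
        intro k
        rw [← hC, ← hCmul, hy, hCmul]
      apply hCinj
      rw [hCmul, hCmul]
      set y' := C y with hy'
      set x' := C x with hx'
      have h1' : ∀ k, π k * star y' = star y' * π k := by
        intro k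
        have := congrArg star (h1 k⁻¹)
        rw [star_mul, star_mul, hstar, inv_inv] at this
        exact this.symm
      refine ContinuousLinearMap.ext_on hdense ?_
      rintro _ ⟨k, rfl⟩
      refine hdense.eq_of_inner_right (𝕜 := ℂ) ?_
      intro v hv
      induction hv using Submodule.span_induction with
      | mem v hv =>
        obtain ⟨l, rfl⟩ := hv
        have hc : star (π l) * x' * π k ∈ groupVNA G :=
          mul_mem (mul_mem (star_mem (hmem l)) hx) (hmem k)
        have hk := key y' h1 _ hc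
        have e1 : ⟪π l (dl 1), (y' * x') (π k (dl 1))⟫_ℂ =
            ⟪(star y') (dl 1), (star (π l) * x' * π k) (dl 1)⟫_ℂ := by
          have a1 : (star y') (π l (dl 1)) = π l ((star y') (dl 1)) := by
            have := congrArg (fun T : ltwo G →L[ℂ] ltwo G => T (dl 1)) (h1' l)
            exact this.symm
          change ⟪π l (dl 1), y' (x' (π k (dl 1)))⟫_ℂ =
            ⟪(star y') (dl 1), (star (π l)) (x' (π k (dl 1)))⟫_ℂ
          rw [← ContinuousLinearMap.adjoint_inner_left, ← ContinuousLinearMap.star_eq_adjoint, a1,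
            ContinuousLinearMap.star_eq_adjoint (A := π l),
            ContinuousLinearMap.adjoint_inner_right]
        have e2 : ⟪π l (dl 1), (x' * y') (π k (dl 1))⟫_ℂ =
            ⟪(star (star (π l) * x' * π k)) (dl 1), y' (dl 1)⟫_ℂ := by
          have a1 : y' (π k (dl 1)) = π k (y' (dl 1)) := by
            have := congrArg (fun T : ltwo G →L[ℂ] ltwo G => T (dl 1)) (h1 k)
            exact this.symm
          change ⟪π l (dl 1), x' (y' (π k (dl 1)))⟫_ℂ = _
          rw [ContinuousLinearMap.star_eq_adjoint, ContinuousLinearMap.adjoint_inner_left, a1]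
          change _ = ⟪dl 1, (star (π l)) (x' (π k (y' (dl 1))))⟫_ℂ
          rw [ContinuousLinearMap.star_eq_adjoint, ContinuousLinearMap.adjoint_inner_right]
        change ⟪π l (dl 1), (y' * x') (π k (dl 1))⟫_ℂ = ⟪π l (dl 1), (x' * y') (π k (dl 1))⟫_ℂ
        rw [e1, e2, hk]
      | zero => simp
      | add u v _ _ hu hv => rw [inner_add_left, inner_add_left, hu, hv]
      | smul r u _ hu => rw [inner_smul_left, inner_smul_left, hu]
  have hmemC' : ∀ y, y ∈ groupVNA G → C.symm y ∈ groupVNA K := by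
    intro y hy
    rw [hmemC, hCC]
    exact hy
  let Φ : (groupVNA K).toStarSubalgebra ≃⋆ₐ[ℂ] (groupVNA G).toStarSubalgebra :=
    { toFun := fun x => ⟨C x, (hmemC x).1 x.2⟩
      invFun := fun y => ⟨C.symm y, hmemC' y y.2⟩
      left_inv := fun x => Subtype.ext (C.symm_apply_apply (x : ltwo K →L[ℂ] ltwo K))
      right_inv := fun y => Subtype.ext (C.apply_symm_apply (y : ltwo G →L[ℂ] ltwo G))
      map_mul' := fun x y => Subtype.ext (map_mul C (x : ltwo K →L[ℂ] ltwo K) y)
      map_add' := fun x y => Subtype.ext (map_add C (x : ltwo K →L[ℂ] ltwo K) y)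
      map_star' := fun x => Subtype.ext (map_star C (x : ltwo K →L[ℂ] ltwo K))
      map_smul' := fun r x => Subtype.ext (map_smul C r (x : ltwo K →L[ℂ] ltwo K)) }
  refine ⟨Φ, fun x => ?_⟩
  change groupTrace G (C (x : ltwo K →L[ℂ] ltwo K)) = _
  have h1 : U.symm (dl 1) = dl 1 := by
    have := hU' 1
    rw [map_one] at this
    exact this
  have h2 : U (dl 1) = dl 1 := by rw [← h1, LinearIsometryEquiv.apply_symm_apply]
  rw [groupTrace_eq, groupTrace_eq, hCap, h1]
  conv_lhs => rw [← h2]
  rw [LinearIsometryEquiv.inner_map_map]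

end transport

end Crest.Agent.R134
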